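import Mathlib
import Crest.Prelude.Def_WordHyperbolic

/-!
Row 199 (S0303).  Basic definitions: partial actions of letters, small cancellation data,
the presented group, and the interface `Model` exported by Part II.
-/

set_option autoImplicit false

namespace Crest.Agent.R199

/-- A partial action of the letters `S × Bool` on `X`: `(s, true)` is the letter `s`, `(s, false)`
its inverse.  Think of a deterministic and co-deterministic `S`-labelled graph with vertex set `X`. -/
structure PAct (S X : Type) where
  st : S × Bool → X → Option X
  symm : ∀ (a : S × Bool) (x y : X), st a x = some y → st (a.1, !a.2) y = some x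

namespace PAct

variable {S X : Type} (A : PAct S X)

/-- read a word from left to right -/
def read : List (S × Bool) → X → Option X
  | [], x => some x
  | a :: w, x => (A.st a x).bind (read w)

end PAct

/-- Small cancellation data: a finite labelled graph `Pos` (all gadgets together), with girth at
least `20 * m`, in which every reduced word of length `m` can be read in at most one place and every
letter can be read somewhere. -/
structure SCData (S : Type) where
  Pos : Type
  finPos : Finite Pos
  A : PAct S Pos
  m : ℕ
  two_le_m : 2 ≤ m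
  girth : ∀ (x : Pos) (w : List (S × Bool)), FreeGroup.IsReduced w → w ≠ [] →
    w.length < 20 * m → A.read w x ≠ some x
  uniq : ∀ (x y : Pos) (w : List (S × Bool)), FreeGroup.IsReduced w → w.length = m →
    (A.read w x).isSome → (A.read w y).isSome → x = y
  letters : ∀ a : S × Bool, ∃ x, (A.st a x).isSome

namespace SCData

variable {S : Type} (D : SCData S)

/-- relators: all closed words of the labelled graph -/
def rels : Set (FreeGroup S) :=
  {r | ∃ (x : D.Pos) (w : List (S × Bool)), D.A.read w x = some x ∧ r = FreeGroup.mk w}

/-- the group -/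
abbrev Grp : Type := PresentedGroup D.rels

/-- the group element of a word -/
def gw (w : List (S × Bool)) : D.Grp := PresentedGroup.mk D.rels (FreeGroup.mk w)

/-- position `y` at `h` lies in the same cell (gadget copy) as position `x` at `g` -/
def Same (g : D.Grp) (x : D.Pos) (h : D.Grp) (y : D.Pos) : Prop :=
  ∃ w : List (S × Bool), D.A.read w x = some y ∧ h = g * D.gw w

/-- the cells of `(g, x)` and `(h, y)` share a group element -/
def Meet (g : D.Grp) (x : D.Pos) (h : D.Grp) (y : D.Pos) : Prop :=
  ∃ (k : D.Grp) (x' y' : D.Pos), D.Same g x k x' ∧ D.Same h y k y'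

/-- The facts about the group exported by Part II (BFS model of the Cayley graph seen from `1`).
`lev g` is the level of `g`; `cl g x` is the level of the cell of position `x` at `g`: all elements
of this cell have level `cl g x` (base elements, they exist) or `cl g x + 1`. -/
structure Model where
  lev : D.Grp → ℕ
  cl : D.Grp → D.Pos → ℕ
  lev_eq_zero : ∀ g, lev g = 0 ↔ g = 1
  cl_same : ∀ g x h y, D.Same g x h y → cl h y = cl g x
  cl_le : ∀ g x, cl g x ≤ lev g
  lev_le : ∀ g x, lev g ≤ cl g x + 1
  base : ∀ g x, ∃ h y, D.Same g x h y ∧ lev h = cl g x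
  down : ∀ g n, lev g = n + 1 → ∃ x, cl g x = n
  share : ∀ g x y, cl g x = cl g y →
    ∃ h x' y', D.Same g x h x' ∧ D.Same g y h y' ∧ lev h = cl g x
  clique : ∀ g x x' h y e h' y' e', cl g x = lev g → cl g x' = lev g →
    D.Same g x h y → D.Same g x' h' y' → lev h = lev g → lev h' = lev g →
    cl h e + 1 = lev g → cl h' e' + 1 = lev g → D.Meet h e h' e'
  embed : ∀ (w : List (S × Bool)) (x y : D.Pos), D.A.read w x = some y → D.gw w = 1 → y = x
  near : ∀ g x, ∃ x₀ : D.Pos, ∀ h y y', D.Same g x h y → y' ≠ y → cl h y' ≤ cl h y →
    ∃ w : List (S × Bool), w.length ≤ 6 * D.m ∧ D.A.read w x₀ = some y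

end SCData

/-- The algebraic data on top of small cancellation data.
`S` = used points of the code, `Z` = classes of points, `C` = the code (a vector space over `F₂`
of dimension `card Z`), `ev j` = evaluation at the point `j`.
Positions are sheets (`sh`) or nodes. From a sheet `x` with codeword `code x` the letters
`(j, true)` with `ev j (code x) = 1` lead to nodes. A node has exactly two incoming points of the
same class, except the dangling nodes `dang z`, which have exactly one. -/
structure DesignData (S Z C : Type) [Fintype S] [Fintype Z] [AddCommGroup C]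
    [Module (ZMod 2) C] extends SCData S where
  cls : S → Z
  ev : S → C →ₗ[ZMod 2] ZMod 2
  sh : Pos → Prop
  code : Pos → C
  rank : Module.finrank (ZMod 2) C = Fintype.card Z
  out_sheet : ∀ (j : S) (x : Pos), (A.st (j, true) x).isSome ↔ (sh x ∧ ev j (code x) = 1)
  out_node : ∀ (j : S) (x y : Pos), A.st (j, true) x = some y → ¬ sh y
  dang : Z → Option Pos
  dang_in : ∀ z d, dang z = some d → ∃ j, cls j = z ∧ ∀ i, (A.st (i, false) d).isSome ↔ i = j
  node_in : ∀ y, ¬ sh y → (∀ z, dang z ≠ some y) →
    ∃ j j', j ≠ j' ∧ cls j = cls j' ∧ ∀ i, (A.st (i, false) y).isSome ↔ (i = j ∨ i = j')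
  triv : ∀ z, dang z = none → ∃ (c : C) (j : S), cls j = z ∧ ∀ i, ev i c = 1 ↔ i = j
  dang_sep : ∀ z z' d d' w, dang z = some d → dang z' = some d' → A.read w d = some d' → z = z'
  big : ∃ (xc : Pos) (j₀ : S) (d : Pos) (β : ℕ), sh xc ∧ ev j₀ (code xc) = 1 ∧
    dang (cls j₀) = some d ∧
    (∀ x₀ : Pos, {y : Pos | ∃ w : List (S × Bool), w.length ≤ 6 * m ∧
      A.read w x₀ = some y}.ncard ≤ β) ∧
    {j : S | ev j (code xc) = 1}.ncard * β + 1 <
      {y : Pos | sh y ∧ ∃ w : List (S × Bool), A.read w d = some y}.ncard

end Crest.Agent.R199
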