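import Crest.Agent.R199.StageDefs

/-!
Part II-a: basic lemmas about reading words under a partial action.
-/

set_option autoImplicit false

namespace Crest.Agent.R199

open FreeGroup (IsReduced invRev)

namespace PAct

variable {S X : Type} (A : PAct S X)

@[simp] theorem read_nil (x : X) : A.read [] x = some x := rfl

theorem read_cons (a : S × Bool) (w : List (S × Bool)) (x : X) :
    A.read (a :: w) x = (A.st a x).bind (A.read w) := rfl

theorem read_append (w₁ w₂ : List (S × Bool)) (x : X) :
    A.read (w₁ ++ w₂) x = (A.read w₁ x).bind (A.read w₂) := by
  induction w₁ generalizing x with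
  | nil => rfl
  | cons a w ih =>
    simp only [List.cons_append, read_cons]
    cases h : A.st a x with
    | none => rfl
    | some y => simpa using ih y

theorem read_append_some {w₁ w₂ : List (S × Bool)} {x z : X} :
    A.read (w₁ ++ w₂) x = some z ↔ ∃ y, A.read w₁ x = some y ∧ A.read w₂ y = some z := by
  rw [read_append]
  cases h : A.read w₁ x <;> simp

theorem read_singleton (a : S × Bool) (x : X) : A.read [a] x = A.st a x := by
  rw [read_cons]; cases A.st a x <;> rfl

/-- prefixes of readable words are readable -/
theorem read_take_isSome {w : List (S × Bool)} {x : X} (h : (A.read w x).isSome) (i : ℕ) :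
    (A.read (w.take i) x).isSome := by
  rw [← List.take_append_drop i w, read_append] at h
  cases h' : A.read (w.take i) x with
  | none => rw [h'] at h; simp at h
  | some y => rfl

theorem read_invRev {w : List (S × Bool)} {x y : X} (h : A.read w x = some y) :
    A.read (invRev w) y = some x := by
  induction w generalizing x with
  | nil => simpa [invRev] using h.symm
  | cons a w ih =>
    rw [read_cons] at h
    cases h' : A.st a x with
    | none => rw [h'] at h; simp at h
    | some z =>
      rw [h'] at h
      have h1 := ih (by simpa using h)
      have h2 := A.symm a x z h'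
      have : invRev (a :: w) = invRev w ++ [(a.1, !a.2)] := by
        simp [invRev]
      rw [this, read_append, h1]
      simpa [read_singleton] using h2

theorem st_inj {a : S × Bool} {x y z : X} (h : A.st a x = some z) (h' : A.st a y = some z) :
    x = y := by
  have h1 := A.symm a x z h
  have h2 := A.symm a y z h'
  rw [h1] at h2
  exact Option.some.inj h2

theorem read_inj {w : List (S × Bool)} {x y z : X} (h : A.read w x = some z)
    (h' : A.read w y = some z) : x = y := by
  have h1 := A.read_invRev h
  have h2 := A.read_invRev h'
  rw [h1] at h2
  exact Option.some.inj h2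

/-- one reduction step preserves the end point of a readable word -/
theorem read_step {w w' : List (S × Bool)} (h : FreeGroup.Red.Step w w') {x y : X}
    (hr : A.read w x = some y) : A.read w' x = some y := by
  cases h with
  | @not L₁ L₂ a b =>
    rw [read_append_some] at hr ⊢
    obtain ⟨z, h1, h2⟩ := hr
    refine ⟨z, h1, ?_⟩
    rw [read_cons] at h2
    cases h3 : A.st (a, b) z with
    | none => rw [h3] at h2; simp at h2
    | some t =>
      rw [h3] at h2
      simp only [Option.bind_some] at h2
      rw [read_cons] at h2
      have := A.symm _ _ _ h3
      simp only at this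
      rw [this] at h2
      simpa using h2

theorem read_red {w w' : List (S × Bool)} (h : FreeGroup.Red w w') {x y : X}
    (hr : A.read w x = some y) : A.read w' x = some y := by
  induction h with
  | refl => exact hr
  | tail _ h2 ih => exact A.read_step h2 ih

/-- reducing a readable word -/
theorem exists_reduced {w : List (S × Bool)} {x y : X} (hr : A.read w x = some y) :
    ∃ w', IsReduced w' ∧ FreeGroup.Red w w' ∧ FreeGroup.mk w' = FreeGroup.mk w ∧
      w'.length ≤ w.length ∧ A.read w' x = some y := by
  classical
  refine ⟨FreeGroup.reduce w, ?_, FreeGroup.reduce.red, ?_, ?_, A.read_red FreeGroup.reduce.red hr⟩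
  · exact FreeGroup.isReduced_iff_reduce_eq.mpr (by simp)
  · exact FreeGroup.reduce.self
  · exact (FreeGroup.Red.sublist FreeGroup.reduce.red).length_le

/-- two reduced words representing the same free group element are equal -/
theorem reduced_eq {w w' : List (S × Bool)} (h : IsReduced w) (h' : IsReduced w')
    (he : FreeGroup.mk w = FreeGroup.mk w') : w = w' := by
  classical
  rw [← h.reduce_eq, ← h'.reduce_eq]
  exact FreeGroup.reduce.sound he

/-- reading both in the fibre product and reducing -/
theorem exists_reduced₂ {Y : Type} (B : PAct S Y) {w : List (S × Bool)} {x x' : X} {y y' : Y}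
    (hx : A.read w x = some x') (hy : B.read w y = some y') :
    ∃ w', IsReduced w' ∧ FreeGroup.mk w' = FreeGroup.mk w ∧ w'.length ≤ w.length ∧
      A.read w' x = some x' ∧ B.read w' y = some y' := by
  classical
  refine ⟨FreeGroup.reduce w, ?_, ?_, ?_, A.read_red FreeGroup.reduce.red hx,
    B.read_red FreeGroup.reduce.red hy⟩
  · exact FreeGroup.isReduced_iff_reduce_eq.mpr (by simp)
  · exact FreeGroup.reduce.self
  · exact (FreeGroup.Red.sublist FreeGroup.reduce.red).length_le

end PAct

theorem isReduced_take {S : Type} {w : List (S × Bool)} (h : IsReduced w) (i : ℕ) :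
    IsReduced (w.take i) :=
  h.infix (List.take_prefix i w).isInfix

theorem isReduced_drop {S : Type} {w : List (S × Bool)} (h : IsReduced w) (i : ℕ) :
    IsReduced (w.drop i) :=
  h.infix (List.drop_suffix i w).isInfix

/-- short closed words of the data are trivial -/
theorem SCData.closed_trivial {S : Type} (D : SCData S) {x : D.Pos} {w : List (S × Bool)}
    (h : D.A.read w x = some x) (hl : w.length < 20 * D.m) : FreeGroup.mk w = 1 := by
  obtain ⟨w', h1, _, h3, h4, h5⟩ := D.A.exists_reduced h
  by_cases hn : w' = []
  · rw [← h3, hn]; rfl
  · exact absurd h5 (D.girth x w' h1 hn (by omega))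

end Crest.Agent.R199
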