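import Crest.Agent.R199.Words
import Crest.Agent.R199.Exact
import Crest.Agent.R199.TorsionPG

/-! Part V: the group is torsion-free. -/

set_option autoImplicit false

namespace Crest.Agent.R199

variable {S : Type}

namespace Tor

/-- the relational graph of a partial action -/
def ofPAct {X : Type} (A : PAct S X) : SC.PG S where
  V := X
  E x a y := A.st a x = some y
  det := by
    intro v a v1 v2 h1 h2
    rw [h1] at h2
    exact Option.some.inj h2
  symm := by
    intro v a v' h
    exact A.symm a v v' h

theorem ofPAct_W {X : Type} (A : PAct S X) {x y : X} {w : List (S × Bool)} :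
    (ofPAct A).W x w y ↔ A.read w x = some y := by
  induction w generalizing x with
  | nil =>
    show x = y ↔ some x = some y
    exact (Option.some_inj).symm
  | cons a w ih =>
    show (∃ v1 : X, A.st a x = some v1 ∧ (ofPAct A).W v1 w y) ↔ (A.st a x).bind (A.read w) = some y
    simp only [ih]
    cases h : A.st a x with
    | none => simp
    | some z => simp

end Tor

theorem torsionFree (D : SCData S) (M : D.Model) (g : D.Grp) (hg : IsOfFinOrder g) : g = 1 := by
  have hW : ∀ {p q : D.Pos} {w : List (S × Bool)},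
      (Tor.ofPAct D.A).W p w q ↔ D.A.read w p = some q := Tor.ofPAct_W D.A
  refine Tor.torsionFree_of_levels (Tor.ofPAct D.A) (G := D.Grp)
    (PresentedGroup.mk D.rels) (PresentedGroup.mk_surjective D.rels) ?_ ?_ ?_
    (fun g p => M.cl g p) ?_ (6 * D.m) ?_ ?_ g hg
  · intro x hx
    have h1 : x ∈ Subgroup.normalClosure D.rels := by
      have : (PresentedGroup.mk D.rels x) = 1 := hx
      exact (QuotientGroup.eq_one_iff x).1 this
    refine Subgroup.normalClosure_mono ?_ h1
    rintro r ⟨x, w, h, rfl⟩
    exact ⟨x, w, hW.2 h, rfl⟩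
  · intro p w h
    apply (QuotientGroup.eq_one_iff (FreeGroup.mk w)).2
    exact Subgroup.subset_normalClosure ⟨p, w, hW.1 h, rfl⟩
  · intro w p q h h1
    exact M.embed w p q (hW.1 h) h1
  · intro g p w q h
    exact M.cl_same g p _ q ⟨w, hW.1 h, rfl⟩
  · intro p w hr h hl
    by_contra hne
    have := D.two_le_m
    exact D.girth p w hr hne (by omega) (hW.1 h)
  · intro g p
    obtain ⟨x₀, hx⟩ := M.near g p
    refine ⟨x₀, ?_⟩
    intro w y y' h hne hle
    obtain ⟨u, h1, h2⟩ := hx _ y y' ⟨w, hW.1 h, rfl⟩ hne hle
    exact ⟨u, h1, hW.2 h2⟩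

end Crest.Agent.R199
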