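import Crest.Agent.R199.Defs

/-! Design data (version with a closed component): the algebraic data on top of `SCData`. -/

set_option autoImplicit false

namespace Crest.Agent.R199

/-- Design data, version with a closed component. -/
structure DesignData1 (S Z C : Type) [Fintype S] [Fintype Z] [AddCommGroup C]
    [Module (ZMod 2) C] extends SCData S where
  cls : S → Z
  ev : S → C →ₗ[ZMod 2] ZMod 2
  sh : Pos → Prop
  code : Pos → C
  finC : Module.Finite (ZMod 2) C
  rank : Module.finrank (ZMod 2) C = Fintype.card Z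
  out_sheet : ∀ (j : S) (x : Pos), (A.st (j, true) x).isSome ↔ (sh x ∧ ev j (code x) = 1)
  out_node : ∀ (j : S) (x y : Pos), A.st (j, true) x = some y → ¬ sh y
  dang : Z → Pos
  dang_node : ∀ z, ¬ sh (dang z)
  dang_in : ∀ z, ∃ j, cls j = z ∧ ∀ i, (A.st (i, false) (dang z)).isSome ↔ i = j
  node_in : ∀ y, ¬ sh y → (∀ z, dang z ≠ y) →
    ∃ j j', j ≠ j' ∧ cls j = cls j' ∧ ∀ i, (A.st (i, false) y).isSome ↔ (i = j ∨ i = j')
  dang_sep : ∀ z z' w, A.read w (dang z) = some (dang z') → z = z'
  /-- a component without dangling node -/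
  closed : ∃ xc : Pos, sh xc ∧ code xc ≠ 0 ∧ ∀ w z, A.read w xc ≠ some (dang z)

end Crest.Agent.R199
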