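import Crest.Agent.R199.Gadget1
import Crest.Agent.R199.Design1

/-! Part I: from a gadget system (S1 version) to design data.

Positions: sheets `(x, v)` and nodes `(x, {f, μ x f})`, `(j,true)` leads from the sheet `v` with `j ∈ fl x v`
to the node of the flag `(v,j)`, `(j,false)` back.  `m = 14`. -/

set_option autoImplicit false
set_option linter.unusedSectionVars false

namespace Crest.Agent.R199

namespace B1

section Path

variable {S X : Type} (A : PAct S X)

theorem read_path : ∀ (w : List (S × Bool)) (x y : X), A.read w x = some y →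
    ∃ P : ℕ → X, P 0 = x ∧ P w.length = y ∧ ∀ i (h : i < w.length), A.st w[i] (P i) = some (P (i + 1)) := by
  intro w
  induction w with
  | nil =>
    intro x y h
    simp only [PAct.read, Option.some.injEq] at h
    exact ⟨fun _ => x, rfl, h, fun i hi => absurd hi (Nat.not_lt_zero _)⟩
  | cons a w ih =>
    intro x y h
    simp only [PAct.read] at h
    obtain ⟨z, hz, h⟩ := Option.bind_eq_some_iff.1 h
    obtain ⟨P, h0, hlen, hP⟩ := ih z y h
    refine ⟨fun i => match i with | 0 => x | i + 1 => P i, rfl, hlen, ?_⟩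
    intro i hi
    cases i with
    | zero => simp only [List.getElem_cons_zero]; rw [hz, h0]
    | succ i =>
      simp only [List.getElem_cons_succ]
      exact hP i (by simpa using hi)

end Path

variable {Z W : Type} {g : ℕ} (Γ : Gad1 Z W g)

/-- the flags -/
abbrev Flag (Z W : Type) := W × (Z × Fin 3)

/-- admissible nodes -/
def IsNode (ν : Option Z × Sym2 (Flag Z W)) : Prop :=
  ∃ f : Flag Z W, f.2 ∈ Γ.fl ν.1 f.1 ∧ ν.2 = s(f, Γ.μ ν.1 f)

/-- positions -/
abbrev Pos := (Option Z × W) ⊕ {ν : Option Z × Sym2 (Flag Z W) // IsNode Γ ν}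

/-- the node of a flag -/
def node (x : Option Z) (f : Flag Z W) (h : f.2 ∈ Γ.fl x f.1) : Pos Γ :=
  Sum.inr ⟨(x, s(f, Γ.μ x f)), (⟨f, h, rfl⟩ : IsNode Γ (x, s(f, Γ.μ x f)))⟩

theorem node_eq {x y : Option Z} {f f' : Flag Z W} {h : f.2 ∈ Γ.fl x f.1} {h' : f'.2 ∈ Γ.fl y f'.1} :
    node Γ x f h = node Γ y f' h' ↔ x = y ∧ (f = f' ∨ f = Γ.μ x f') := by
  unfold node
  rw [Sum.inr.injEq, Subtype.ext_iff, Prod.mk.injEq, Sym2.eq_iff]
  constructor
  · rintro ⟨rfl, h1 | h1⟩
    · exact ⟨rfl, Or.inl h1.1⟩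
    · exact ⟨rfl, Or.inr h1.1⟩
  · rintro ⟨rfl, rfl | rfl⟩
    · exact ⟨rfl, Or.inl ⟨rfl, rfl⟩⟩
    · exact ⟨rfl, Or.inr ⟨rfl, Γ.μ_invol x f' h'⟩⟩

theorem node_surj (ν : {ν : Option Z × Sym2 (Flag Z W) // IsNode Γ ν}) :
    ∃ (x : Option Z) (f : Flag Z W) (h : f.2 ∈ Γ.fl x f.1), (Sum.inr ν : Pos Γ) = node Γ x f h := by
  obtain ⟨⟨x, p⟩, f, h, hp⟩ := ν
  refine ⟨x, f, h, ?_⟩
  simp only at hp
  subst hp
  rfl

/-- the edges -/
def E (j : Z × Fin 3) (p q : Pos Γ) : Prop :=
  ∃ (x : Option Z) (v : W) (h : j ∈ Γ.fl x v), p = Sum.inl (x, v) ∧ q = node Γ x (v, j) h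

theorem E_det {j : Z × Fin 3} {p q q' : Pos Γ} (h : E Γ j p q) (h' : E Γ j p q') : q = q' := by
  obtain ⟨x, v, hj, rfl, rfl⟩ := h
  obtain ⟨x', v', hj', h1, rfl⟩ := h'
  rw [Sum.inl.injEq, Prod.mk.injEq] at h1
  obtain ⟨rfl, rfl⟩ := h1
  rfl

theorem E_codet {j : Z × Fin 3} {p p' q : Pos Γ} (h : E Γ j p q) (h' : E Γ j p' q) : p = p' := by
  obtain ⟨x, v, hj, rfl, rfl⟩ := h
  obtain ⟨x', v', hj', rfl, h1⟩ := h'
  rw [node_eq] at h1
  obtain ⟨rfl, h1 | h1⟩ := h1
  · rw [Prod.mk.injEq] at h1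
    rw [h1.1]
  · by_cases h2 : Γ.μ x (v', j) = (v', j)
    · rw [h2, Prod.mk.injEq] at h1
      rw [h1.1]
    · exact absurd (congrArg Prod.snd h1).symm (Γ.μ_ne x (v', j) hj' h2)

/-- edge relation for letters and inverse letters -/
def EE (a : (Z × Fin 3) × Bool) (p q : Pos Γ) : Prop := if a.2 then E Γ a.1 p q else E Γ a.1 q p

theorem EE_det {a : (Z × Fin 3) × Bool} {p q q' : Pos Γ} (h : EE Γ a p q) (h' : EE Γ a p q') : q = q' := by
  unfold EE at h h'
  split_ifs at h h'
  · exact E_det Γ h h'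
  · exact E_codet Γ h h'

theorem EE_symm {a : (Z × Fin 3) × Bool} {p q : Pos Γ} (h : EE Γ a p q) : EE Γ (a.1, !a.2) q p := by
  obtain ⟨j, b⟩ := a
  cases b <;> simpa [EE] using h

open Classical in
/-- the partial action -/
noncomputable def act : PAct (Z × Fin 3) (Pos Γ) where
  st a p := if h : ∃ q, EE Γ a p q then some h.choose else none
  symm := by
    intro a p q h
    split_ifs at h with h1
    rw [Option.some.injEq] at h
    have h2 : EE Γ a p q := h ▸ h1.choose_spec
    have h3 := EE_symm Γ h2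
    have h4 : ∃ q', EE Γ (a.1, !a.2) q q' := ⟨p, h3⟩
    rw [dif_pos h4, Option.some.injEq]
    exact EE_det Γ h4.choose_spec h3

theorem st_iff {a : (Z × Fin 3) × Bool} {p q : Pos Γ} : (act Γ).st a p = some q ↔ EE Γ a p q := by
  classical
  unfold act
  simp only
  constructor
  · intro h
    split_ifs at h with h1
    rw [Option.some.injEq] at h
    exact h ▸ h1.choose_spec
  · intro h
    have h1 : ∃ q, EE Γ a p q := ⟨q, h⟩
    rw [dif_pos h1, Option.some.injEq]
    exact EE_det Γ h1.choose_spec h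

theorem isSome_iff {a : (Z × Fin 3) × Bool} {p : Pos Γ} : ((act Γ).st a p).isSome ↔ ∃ q, EE Γ a p q := by
  rw [Option.isSome_iff_exists]
  exact exists_congr fun q => st_iff Γ

theorem st_inj {a : (Z × Fin 3) × Bool} {p p' q : Pos Γ} (h : (act Γ).st a p = some q)
    (h' : (act Γ).st a p' = some q) : p = p' := by
  have h1 := (act Γ).symm _ _ _ h
  have h2 := (act Γ).symm _ _ _ h'
  rw [h1, Option.some.injEq] at h2
  exact h2

/-- the letters alternate -/
theorem isLeft_step {a : (Z × Fin 3) × Bool} {p q : Pos Γ} (h : EE Γ a p q) :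
    p.isLeft = a.2 ∧ q.isLeft = !a.2 := by
  unfold EE at h
  split_ifs at h with h1
  · obtain ⟨x, v, hj, rfl, rfl⟩ := h
    rw [h1]; exact ⟨rfl, rfl⟩
  · obtain ⟨x, v, hj, rfl, rfl⟩ := h
    have : a.2 = false := by simpa using h1
    rw [this]; exact ⟨rfl, rfl⟩

/-- two steps from a sheet -/
theorem step2 {a b : (Z × Fin 3) × Bool} {x : Option Z} {v : W} {p q : Pos Γ}
    (h1 : EE Γ a (Sum.inl (x, v)) p) (h2 : EE Γ b p q) (hred : a.1 = b.1 → a.2 = b.2) :
    ∃ v', q = Sum.inl (x, v') ∧ a.2 = true ∧ b.2 = false ∧ a.1 ∈ Γ.fl x v ∧ b.1 ∈ Γ.fl x v' ∧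
      Γ.μ x (v, a.1) = (v', b.1) ∧ Γ.μ x (v, a.1) ≠ (v, a.1) := by
  have ha := isLeft_step Γ h1
  have hb := isLeft_step Γ h2
  have ha2 : a.2 = true := ha.1.symm
  have hb2 : b.2 = false := by rw [← hb.1, ha.2, ha2]; rfl
  unfold EE at h1 h2
  rw [if_pos ha2] at h1
  rw [if_neg (by rw [hb2]; simp)] at h2
  obtain ⟨x1, v1, hj1, he1, rfl⟩ := h1
  rw [Sum.inl.injEq, Prod.mk.injEq] at he1
  obtain ⟨rfl, rfl⟩ := he1
  obtain ⟨x2, v2, hj2, rfl, he2⟩ := h2
  rw [node_eq] at he2
  obtain ⟨rfl, he2⟩ := he2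
  have hne : a.1 ≠ b.1 := by
    intro h
    have := hred h
    rw [ha2, hb2] at this
    exact absurd this (by simp)
  rcases he2 with he2 | he2
  · exact absurd (congrArg Prod.snd he2) hne
  · have h3 : Γ.μ x (v, a.1) = (v2, b.1) := by rw [he2, Γ.μ_invol x _ hj2]
    refine ⟨v2, rfl, ha2, hb2, hj1, hj2, h3, ?_⟩
    rw [h3]
    intro h4
    exact hne (congrArg Prod.snd h4).symm

/-- the sheet of a position -/
def vOf (w0 : W) (p : Pos Γ) : W := match p with
  | Sum.inl q => q.2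
  | Sum.inr _ => w0

/-- walk starting at a sheet -/
theorem sheet_walk (N : ℕ) (P : ℕ → Pos Γ) (L : ℕ → (Z × Fin 3) × Bool) (x : Option Z) (v0 : W)
    (hst : ∀ i, i < 2 * N → EE Γ (L i) (P i) (P (i + 1)))
    (hred : ∀ i, i + 1 < 2 * N → (L i).1 = (L (i + 1)).1 → (L i).2 = (L (i + 1)).2)
    (h0 : P 0 = Sum.inl (x, v0)) :
    ∃ v : ℕ → W, (∀ i ≤ N, P (2 * i) = Sum.inl (x, v i)) ∧
      ∀ i < N, (L (2 * i)).1 ∈ Γ.fl x (v i) ∧ (L (2 * i + 1)).1 ∈ Γ.fl x (v (i + 1)) ∧
        Γ.μ x (v i, (L (2 * i)).1) = (v (i + 1), (L (2 * i + 1)).1) ∧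
        Γ.μ x (v i, (L (2 * i)).1) ≠ (v i, (L (2 * i)).1) ∧
        (L (2 * i)).2 = true ∧ (L (2 * i + 1)).2 = false := by
  have hP : ∀ i ≤ N, P (2 * i) = Sum.inl (x, vOf Γ v0 (P (2 * i))) := by
    intro i
    induction i with
    | zero => intro _; rw [mul_zero, h0]; rfl
    | succ i ih =>
      intro hi
      have h1 := hst (2 * i) (by omega)
      rw [ih (by omega)] at h1
      obtain ⟨v', h2, -⟩ := step2 Γ h1 (hst (2 * i + 1) (by omega)) (hred (2 * i) (by omega))
      rw [show 2 * (i + 1) = 2 * i + 1 + 1 by ring, h2]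
      rfl
  refine ⟨fun i => vOf Γ v0 (P (2 * i)), hP, ?_⟩
  intro i hi
  have h1 := hst (2 * i) (by omega)
  rw [hP i (by omega)] at h1
  obtain ⟨v', h2, h3, h4, h5, h6, h7, h8⟩ := step2 Γ h1 (hst (2 * i + 1) (by omega)) (hred (2 * i) (by omega))
  have h9 : vOf Γ v0 (P (2 * (i + 1))) = v' := by
    rw [show 2 * (i + 1) = 2 * i + 1 + 1 by ring, h2]; rfl
  simp only [h9]
  exact ⟨h5, h6, h7, h8, h3, h4⟩

/-- no closed reduced walk at a sheet -/
theorem no_closed_sheet (N : ℕ) (hN : 1 ≤ N) (hNg : N < g) (P : ℕ → Pos Γ) (L : ℕ → (Z × Fin 3) × Bool)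
    (hst : ∀ i, i < 2 * N → EE Γ (L i) (P i) (P (i + 1)))
    (hred : ∀ i, i + 1 < 2 * N → (L i).1 = (L (i + 1)).1 → (L i).2 = (L (i + 1)).2)
    (h0 : (P 0).isLeft = true) (hcl : P (2 * N) = P 0) : False := by
  obtain ⟨⟨x, v0⟩, hx⟩ := Sum.isLeft_iff.1 h0
  obtain ⟨v, hv, hw⟩ := sheet_walk Γ N P L x v0 hst hred hx
  obtain ⟨n, rfl⟩ : ∃ n, N = n + 1 := ⟨N - 1, by omega⟩
  refine Γ.girth x n hNg (fun i => (v i, (L (2 * i)).1)) ?_ ?_ ?_
  · intro i hi
    have := hw i (by omega)
    exact ⟨this.1, this.2.2.2.1⟩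
  · intro i hi
    have h1 := hw i (by omega)
    have h2 := hw (i + 1) (by omega)
    refine ⟨by rw [h1.2.2.1], ?_⟩
    rw [h1.2.2.1]
    intro h3
    have h4 : (L (2 * (i + 1))).1 = (L (2 * i + 1)).1 := congrArg Prod.snd h3
    have h5 := hred (2 * i + 1) (by omega) h4.symm
    rw [h1.2.2.2.2.2, show 2 * i + 1 + 1 = 2 * (i + 1) by ring, h2.2.2.2.2.1] at h5
    exact absurd h5 (by simp)
  · have h1 := hw n (by omega)
    rw [h1.2.2.1]
    simp only
    have h2 := hv (n + 1) le_rfl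
    have h3 := hv 0 (by omega)
    rw [hcl] at h2
    rw [mul_zero, h2] at h3
    rw [Sum.inl.injEq, Prod.mk.injEq] at h3
    exact h3.2

theorem parity (n : ℕ) (P : ℕ → Pos Γ) (L : ℕ → (Z × Fin 3) × Bool)
    (hst : ∀ i, i < n → EE Γ (L i) (P i) (P (i + 1))) :
    ∀ i ≤ n, (P i).isLeft = if i % 2 = 0 then (P 0).isLeft else !(P 0).isLeft := by
  intro i
  induction i with
  | zero => intro _; simp
  | succ i ih =>
    intro hi
    have h1 := ih (by omega)
    have h2 := isLeft_step Γ (hst i (by omega))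
    rw [h2.2, ← h2.1, h1]
    rcases Nat.mod_two_eq_zero_or_one i with h | h
    · rw [if_pos h, if_neg (by omega)]
    · rw [if_neg (by omega), if_pos (by omega), Bool.not_not]

/-- a word read as functions -/
theorem word_path {w : List ((Z × Fin 3) × Bool)} {x y : Pos Γ} (h : (act Γ).read w x = some y)
    (hr : FreeGroup.IsReduced w) (l0 : (Z × Fin 3) × Bool) :
    ∃ P : ℕ → Pos Γ, P 0 = x ∧ P w.length = y ∧
      (∀ i, i < w.length → EE Γ (w.getD i l0) (P i) (P (i + 1))) ∧
      (∀ i, i + 1 < w.length → (w.getD i l0).1 = (w.getD (i + 1) l0).1 →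
        (w.getD i l0).2 = (w.getD (i + 1) l0).2) := by
  obtain ⟨P, h0, hlen, hP⟩ := read_path (act Γ) w x y h
  refine ⟨P, h0, hlen, ?_, ?_⟩
  · intro i hi
    have := hP i hi
    rw [st_iff] at this
    rwa [List.getD_eq_getElem _ _ hi]
  · intro i hi
    rw [List.getD_eq_getElem _ _ hi, List.getD_eq_getElem _ _ (show i < w.length by omega)]
    exact (List.isChain_iff_getElem.1 hr) i hi

theorem girth_pos (hg : 140 ≤ g) (x : Pos Γ) (w : List ((Z × Fin 3) × Bool)) (hr : FreeGroup.IsReduced w)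
    (hne : w ≠ []) (hlen : w.length < 20 * 14) : (act Γ).read w x ≠ some x := by
  intro h
  obtain ⟨l0, -⟩ := List.exists_mem_of_ne_nil w hne
  obtain ⟨P, h0, hl, hst, hred⟩ := word_path Γ h hr l0
  set L : ℕ → (Z × Fin 3) × Bool := fun i => w.getD i l0 with hL
  have hpos : 0 < w.length := List.length_pos_iff.2 hne
  have hpar := parity Γ w.length P L hst w.length le_rfl
  have heven : w.length % 2 = 0 := by
    by_contra hodd
    rw [if_neg hodd, hl, h0] at hpar
    cases x <;> simp at hpar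
  obtain ⟨N, hN⟩ : ∃ N, w.length = 2 * N := ⟨w.length / 2, by omega⟩
  rcases hx : x.isLeft with _ | _
  · -- node
    have hP1 : (P 1).isLeft = true := by
      have := parity Γ w.length P L hst 1 (by omega)
      rw [h0, hx] at this
      simpa using this
    by_cases hab : (L (2 * N - 1)).1 = (L 0).1
    · -- the last letter is the inverse of the first
      have e0 := hst 0 (by omega)
      have e1 := hst (2 * N - 1) (by omega)
      have hL0 : (L 0).2 = false := by rw [← (isLeft_step Γ e0).1, h0, hx]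
      have hL1 : (L (2 * N - 1)).2 = true := by
        have := (isLeft_step Γ e1).2
        rw [show 2 * N - 1 + 1 = w.length by omega, hl, hx] at this
        revert this
        cases (L (2 * N - 1)).2 <;> simp
      have hN2 : 2 ≤ N := by
        by_contra hlt
        have : N = 1 := by omega
        subst this
        have := hred 0 (by omega) hab.symm
        rw [show (w.getD (0 + 1) l0) = L (2 * 1 - 1) from rfl, show w.getD 0 l0 = L 0 from rfl, hL0, hL1] at this
        exact absurd this (by simp)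
      have hEq : P (2 * N - 1) = P 1 := by
        unfold EE at e0 e1
        rw [show w.getD 0 l0 = L 0 from rfl, if_neg (by rw [hL0]; simp), h0] at e0
        rw [show w.getD (2 * N - 1) l0 = L (2 * N - 1) from rfl, if_pos hL1,
          show 2 * N - 1 + 1 = w.length by omega, hl, hab] at e1
        exact E_codet Γ e1 e0
      refine no_closed_sheet Γ (N - 1) (by omega) (by omega) (fun i => P (i + 1)) (fun i => L (i + 1)) ?_ ?_
        hP1 ?_
      · intro i hi; exact hst (i + 1) (by omega)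
      · intro i hi; exact hred (i + 1) (by omega)
      · simp only [zero_add]
        rw [show 2 * (N - 1) + 1 = 2 * N - 1 by omega]; exact hEq
    · -- rotate
      refine no_closed_sheet Γ N (by omega) (by omega)
        (fun i => if i < 2 * N then P (i + 1) else P 1) (fun i => if i + 1 < 2 * N then L (i + 1) else L 0) ?_ ?_
        (by rw [if_pos (by omega)]; exact hP1) ?_
      · intro i hi
        rw [if_pos hi]
        rcases Nat.lt_or_ge (i + 1) (2 * N) with h1 | h1
        · rw [if_pos h1, if_pos h1]; exact hst (i + 1) (by omega)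
        · rw [if_neg (by omega), if_neg (by omega)]
          have : i + 1 = w.length := by omega
          rw [this, hl, ← h0]
          exact hst 0 (by omega)
      · intro i hi
        rw [if_pos hi]
        rcases Nat.lt_or_ge (i + 1 + 1) (2 * N) with h1 | h1
        · rw [if_pos h1]; exact hred (i + 1) (by omega)
        · rw [if_neg (by omega)]
          intro h2
          exfalso
          apply hab
          rw [← h2]
          congr 2; omega
      · rw [if_neg (by omega), if_pos (by omega)]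
  · -- sheet
    refine no_closed_sheet Γ N (by omega) (by omega) P L ?_ ?_ (by rw [h0, hx]) (by rw [← hN, hl, h0])
    · intro i hi; exact hst i (by omega)
    · intro i hi; exact hred i (by omega)

theorem uniq_pos (x y : Pos Γ) (w : List ((Z × Fin 3) × Bool)) (hr : FreeGroup.IsReduced w)
    (hlen : w.length = 14) (hx : ((act Γ).read w x).isSome) (hy : ((act Γ).read w y).isSome) : x = y := by
  obtain ⟨x', hx⟩ := Option.isSome_iff_exists.1 hx
  obtain ⟨y', hy⟩ := Option.isSome_iff_exists.1 hy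
  have hne : w ≠ [] := by
    intro h; rw [h] at hlen; simp at hlen
  obtain ⟨l0, -⟩ := List.exists_mem_of_ne_nil w hne
  obtain ⟨P, h0, -, hst, hred⟩ := word_path Γ hx hr l0
  obtain ⟨Q, k0, -, kst, -⟩ := word_path Γ hy hr l0
  rw [hlen] at hst kst hred
  set L : ℕ → (Z × Fin 3) × Bool := fun i => w.getD i l0 with hL
  have hst' : ∀ i, i < 14 → EE Γ (L i) (P i) (P (i + 1)) := hst
  have kst' : ∀ i, i < 14 → EE Γ (L i) (Q i) (Q (i + 1)) := kst
  have hred' : ∀ i, i + 1 < 14 → (L i).1 = (L (i + 1)).1 → (L i).2 = (L (i + 1)).2 := hred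
  have back : ∀ i, i < 14 → P (i + 1) = Q (i + 1) → P i = Q i := by
    intro i hi h
    have h1 := (st_iff Γ).2 (hst' i hi)
    have h2 := (st_iff Γ).2 (kst' i hi)
    rw [← h] at h2
    exact st_inj Γ h1 h2
  rcases hb : (L 0).2 with _ | _
  · -- nodes
    have hP1 : (P 1).isLeft = true := by rw [(isLeft_step Γ (hst' 0 (by omega))).2, hb]; rfl
    have hQ1 : (Q 1).isLeft = true := by rw [(isLeft_step Γ (kst' 0 (by omega))).2, hb]; rfl
    obtain ⟨⟨x1, v1⟩, hx1⟩ := Sum.isLeft_iff.1 hP1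
    obtain ⟨⟨y1, u1⟩, hy1⟩ := Sum.isLeft_iff.1 hQ1
    obtain ⟨v, hv, hv'⟩ := sheet_walk Γ 6 (fun i => P (i + 1)) (fun i => L (i + 1)) x1 v1
      (fun i hi => hst' (i + 1) (by omega)) (fun i hi => hred' (i + 1) (by omega)) hx1
    obtain ⟨u, hu, hu'⟩ := sheet_walk Γ 6 (fun i => Q (i + 1)) (fun i => L (i + 1)) y1 u1
      (fun i hi => kst' (i + 1) (by omega)) (fun i hi => hred' (i + 1) (by omega)) hy1
    -- the flag by which the first sheet is entered
    have hE0 : (L 0).1 ∈ Γ.fl x1 (v 0) := by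
      have h1 := hst' 0 (by omega)
      unfold EE at h1
      rw [if_neg (by rw [hb]; simp)] at h1
      obtain ⟨x2, v2, hj, h2, -⟩ := h1
      have h3 := hv 0 (by omega)
      rw [mul_zero, zero_add] at h3
      rw [zero_add, h3, Sum.inl.injEq, Prod.mk.injEq] at h2
      rw [h2.1, h2.2]; exact hj
    have hF0 : (L 0).1 ∈ Γ.fl y1 (u 0) := by
      have h1 := kst' 0 (by omega)
      unfold EE at h1
      rw [if_neg (by rw [hb]; simp)] at h1
      obtain ⟨x2, v2, hj, h2, -⟩ := h1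
      have h3 := hu 0 (by omega)
      rw [mul_zero, zero_add] at h3
      rw [zero_add, h3, Sum.inl.injEq, Prod.mk.injEq] at h2
      rw [h2.1, h2.2]; exact hj
    have hvv : ∀ i < 6, (L (2 * i)).1 ∈ Γ.fl x1 (v i) := by
      intro i hi
      rcases Nat.eq_zero_or_pos i with h3 | h3
      · subst h3; exact hE0
      · have e3 := (hv' (i - 1) (by omega)).2.1
        rwa [show 2 * (i - 1) + 1 + 1 = 2 * i by omega, show i - 1 + 1 = i by omega] at e3
    have huu : ∀ i < 6, (L (2 * i)).1 ∈ Γ.fl y1 (u i) := by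
      intro i hi
      rcases Nat.eq_zero_or_pos i with h3 | h3
      · subst h3; exact hF0
      · have e3 := (hu' (i - 1) (by omega)).2.1
        rwa [show 2 * (i - 1) + 1 + 1 = 2 * i by omega, show i - 1 + 1 = i by omega] at e3
    have hsgn : ∀ i < 6, (L (2 * i)).2 = false := by
      intro i hi
      rcases Nat.eq_zero_or_pos i with h3 | h3
      · subst h3; exact hb
      · have e3 := (hv' (i - 1) (by omega)).2.2.2.2.2
        rwa [show 2 * (i - 1) + 1 + 1 = 2 * i by omega] at e3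
    obtain ⟨hxy, h00⟩ := Γ.uniq x1 y1 v u (fun i => (L (2 * i)).1) (fun i => (L (2 * i + 1)).1) (by
        intro i hi
        have e1 := hv' i hi
        have e2 := hu' i hi
        refine ⟨?_, hvv i hi, e1.1, huu i hi, e2.1⟩
        intro h
        have h2 := hred' (2 * i) (by omega) h
        rw [hsgn i hi] at h2
        have h4 := e1.2.2.2.2.1
        rw [h4] at h2
        exact absurd h2 (by simp)) (by
        intro i hi
        have e1 := hv' i (by omega)
        have e2 := hu' i (by omega)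
        exact ⟨e1.2.2.1, e1.2.2.2.1, e2.2.2.1, e2.2.2.2.1⟩)
    have h2 : P 1 = Q 1 := by
      have e1 := hv 0 (by omega)
      have e2 := hu 0 (by omega)
      rw [mul_zero, zero_add] at e1 e2
      rw [e1, e2, hxy, h00]
    have h3 := back 0 (by omega) h2
    rw [h0, k0] at h3
    exact h3
  · -- sheets
    have hP0 : (P 0).isLeft = true := by rw [(isLeft_step Γ (hst' 0 (by omega))).1, hb]
    have hQ0 : (Q 0).isLeft = true := by rw [(isLeft_step Γ (kst' 0 (by omega))).1, hb]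
    obtain ⟨⟨x1, v1⟩, hx1⟩ := Sum.isLeft_iff.1 hP0
    obtain ⟨⟨y1, u1⟩, hy1⟩ := Sum.isLeft_iff.1 hQ0
    obtain ⟨v, hv, hv'⟩ := sheet_walk Γ 7 P L x1 v1 (fun i hi => hst' i (by omega))
      (fun i hi => hred' i (by omega)) hx1
    obtain ⟨u, hu, hu'⟩ := sheet_walk Γ 7 Q L y1 u1 (fun i hi => kst' i (by omega))
      (fun i hi => hred' i (by omega)) hy1
    obtain ⟨hxy, h00⟩ := Γ.uniq x1 y1 (fun i => v (i + 1)) (fun i => u (i + 1))
      (fun i => (L (2 * i + 1)).1) (fun i => (L (2 * (i + 1))).1) (by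
        intro i hi
        have e1 := hv' i (by omega)
        have e2 := hu' i (by omega)
        have f1 := hv' (i + 1) (by omega)
        have f2 := hu' (i + 1) (by omega)
        refine ⟨?_, e1.2.1, f1.1, e2.2.1, f2.1⟩
        intro h
        have h2 := hred' (2 * i + 1) (by omega) h
        rw [e1.2.2.2.2.2, show 2 * i + 1 + 1 = 2 * (i + 1) by ring, f1.2.2.2.2.1] at h2
        exact absurd h2 (by simp)) (by
        intro i hi
        have f1 := hv' (i + 1) (by omega)
        have f2 := hu' (i + 1) (by omega)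
        exact ⟨f1.2.2.1, f1.2.2.2.1, f2.2.2.1, f2.2.2.2.1⟩)
    have h2 : P 2 = Q 2 := by
      have e1 := hv 1 (by omega)
      have e2 := hu 1 (by omega)
      simp only [mul_one, zero_add] at e1 e2 h00
      rw [e1, e2, hxy, h00]
    have h3 := back 0 (by omega) (back 1 (by omega) h2)
    rw [h0, k0] at h3
    exact h3

/-- the gadget index of a position -/
def gOf (p : Pos Γ) : Option Z := match p with
  | Sum.inl q => q.1
  | Sum.inr ν => ν.1.1

theorem gOf_EE {a : (Z × Fin 3) × Bool} {p q : Pos Γ} (h : EE Γ a p q) : gOf Γ q = gOf Γ p := by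
  unfold EE at h
  split_ifs at h
  · obtain ⟨x, v, hj, rfl, rfl⟩ := h; rfl
  · obtain ⟨x, v, hj, rfl, rfl⟩ := h; rfl

theorem gOf_read : ∀ (w : List ((Z × Fin 3) × Bool)) (p q : Pos Γ), (act Γ).read w p = some q →
    gOf Γ q = gOf Γ p := by
  intro w
  induction w with
  | nil =>
    intro p q h
    simp only [PAct.read, Option.some.injEq] at h
    rw [h]
  | cons a w ih =>
    intro p q h
    simp only [PAct.read] at h
    obtain ⟨r, hr, h⟩ := Option.bind_eq_some_iff.1 h
    rw [ih r q h, gOf_EE Γ ((st_iff Γ).1 hr)]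

end B1

open B1 in
theorem design_of_gadgets1 {Z C W : Type} [Fintype Z] [Fintype W] [AddCommGroup C]
    [Module (ZMod 2) C] (Γ : GadgetSys1 Z C W 150) :
    Nonempty (DesignData1 (Z × Fin 3) Z C) := by
  classical
  have hEtrue : ∀ (j : Z × Fin 3) (p : Pos Γ.toGad1), ((act Γ.toGad1).st (j, true) p).isSome ↔
      ∃ q, E Γ.toGad1 j p q := fun j p => by rw [isSome_iff]; rfl
  have hEfalse : ∀ (j : Z × Fin 3) (p : Pos Γ.toGad1), ((act Γ.toGad1).st (j, false) p).isSome ↔
      ∃ q, E Γ.toGad1 j q p := fun j p => by rw [isSome_iff]; rfl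
  have hin : ∀ (x : Option Z) (f : Flag Z W) (h : f.2 ∈ Γ.fl x f.1) (i : Z × Fin 3),
      ((act Γ.toGad1).st (i, false) (node Γ.toGad1 x f h)).isSome ↔ (i = f.2 ∨ i = (Γ.μ x f).2) := by
    intro x f h i
    rw [hEfalse]
    constructor
    · rintro ⟨q, x', v', hj, rfl, he⟩
      rw [node_eq] at he
      obtain ⟨rfl, he | he⟩ := he
      · left; rw [he]
      · right; rw [he, Γ.μ_invol x _ hj]
    · rintro (rfl | rfl)
      · exact ⟨_, x, f.1, h, rfl, rfl⟩
      · refine ⟨_, x, (Γ.μ x f).1, Γ.μ_flag x f h, rfl, ?_⟩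
        rw [node_eq]
        exact ⟨rfl, Or.inr (Γ.μ_invol x f h).symm⟩
  refine ⟨{
    Pos := Pos Γ.toGad1
    finPos := inferInstance
    A := act Γ.toGad1
    m := 14
    two_le_m := by norm_num
    girth := fun x w hr hne hlen => girth_pos Γ.toGad1 (by norm_num) x w hr hne hlen
    uniq := fun x y w hr hlen hx hy => uniq_pos Γ.toGad1 x y w hr hlen hx hy
    letters := ?_
    cls := Prod.fst
    ev := Γ.ev
    sh := fun p => p.isLeft = true
    code := fun p => match p with
      | Sum.inl q => Γ.code q.1 q.2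
      | Sum.inr _ => 0
    finC := Γ.finC
    rank := Γ.rank
    out_sheet := ?_
    out_node := ?_
    dang := fun z => node Γ.toGad1 (some z) (Γ.root z) (Γ.root_flag z)
    dang_node := ?_
    dang_in := ?_
    node_in := ?_
    dang_sep := ?_
    closed := ?_ }⟩
  · -- letters
    rintro ⟨j, b⟩
    obtain ⟨x, v, hj⟩ := Γ.letters j
    cases b
    · exact ⟨node Γ.toGad1 x (v, j) hj, (hEfalse _ _).2 ⟨_, x, v, hj, rfl, rfl⟩⟩
    · exact ⟨Sum.inl (x, v), (hEtrue _ _).2 ⟨_, x, v, hj, rfl, rfl⟩⟩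
  · -- out_sheet
    intro j p
    rw [hEtrue]
    constructor
    · rintro ⟨q, x, v, hj, rfl, rfl⟩
      exact ⟨rfl, (Γ.mem_fl x v j).1 hj⟩
    · rintro ⟨h1, h2⟩
      obtain ⟨⟨x, v⟩, rfl⟩ := Sum.isLeft_iff.1 h1
      exact ⟨_, x, v, (Γ.mem_fl x v j).2 h2, rfl, rfl⟩
  · -- out_node
    intro j x y h
    have h1 := isLeft_step Γ.toGad1 ((st_iff Γ.toGad1).1 h)
    rw [h1.2]; simp
  · -- dang_node
    intro z
    simp [node]
  · -- dang_in
    intro z
    refine ⟨(Γ.root z).2, Γ.root_cls z, fun i => ?_⟩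
    rw [hin, (Γ.μ_fix (some z) (Γ.root z) (Γ.root_flag z)).2 ⟨z, rfl, rfl⟩, or_self]
  · -- node_in
    intro y hy hd
    obtain ⟨q, rfl⟩ | ⟨ν, rfl⟩ : (∃ q, y = Sum.inl q) ∨ (∃ ν, y = Sum.inr ν) := by
      cases y
      · exact Or.inl ⟨_, rfl⟩
      · exact Or.inr ⟨_, rfl⟩
    · exact absurd rfl hy
    · obtain ⟨x, f, h, he⟩ := node_surj Γ.toGad1 ν
      rw [he] at hd ⊢
      have hne : Γ.μ x f ≠ f := by
        intro h1
        obtain ⟨z, rfl, rfl⟩ := (Γ.μ_fix x f h).1 h1
        exact hd z rfl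
      refine ⟨f.2, (Γ.μ x f).2, (Γ.μ_ne x f h hne).symm, (Γ.μ_cls x f h).symm, fun i => hin x f h i⟩
  · -- dang_sep
    intro z z' w h
    have h1 := gOf_read Γ.toGad1 w _ _ h
    simp only [gOf, node, Option.some.injEq] at h1
    exact h1.symm
  · -- closed
    obtain ⟨v, hv⟩ := Γ.closed_ne
    refine ⟨Sum.inl (none, v), rfl, hv, ?_⟩
    intro w z h
    have h1 := gOf_read Γ.toGad1 w _ _ h
    simp [gOf, node] at h1

end Crest.Agent.R199
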