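import Mathlib

/-! Part I: direction blocks. Two different blocks share at most one direction. -/

set_option autoImplicit false

namespace Crest.Agent.R199

/-- Blocks of directions: for a finite field `K`, a type `E` with `card K ^ 3` elements and at most
`card K ^ 4` blocks. -/
theorem exists_dirs (K X E : Type) [Field K] [Fintype K] [Fintype X] [Fintype E]
    (hE : Fintype.card E = Fintype.card K ^ 3) (hX : Fintype.card X ≤ Fintype.card K ^ 4) :
    ∃ δ : X → K → E, (∀ x, Function.Injective (δ x)) ∧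
      ∀ x y s₁ s₂ s₁' s₂', s₁ ≠ s₂ → δ x s₁ = δ y s₁' → δ x s₂ = δ y s₂' →
        x = y ∧ s₁ = s₁' ∧ s₂ = s₂' := by
  classical
  obtain ⟨e⟩ : Nonempty (K × K × K ≃ E) := by
    rw [← Fintype.card_eq, hE, Fintype.card_prod, Fintype.card_prod]
    ring
  obtain ⟨ι⟩ : Nonempty (X ↪ (K × K) × (K × K)) := by
    apply Function.Embedding.nonempty_of_card_le
    refine hX.trans (le_of_eq ?_)
    simp only [Fintype.card_prod]
    ring
  refine ⟨fun x s => e (s, (ι x).1.1 * s + (ι x).1.2, (ι x).2.1 * s + (ι x).2.2), ?_, ?_⟩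
  · intro x s s' h
    have := e.injective h
    exact (Prod.ext_iff.1 this).1
  · intro x y s₁ s₂ s₁' s₂' hs h1 h2
    have h1' := e.injective h1
    have h2' := e.injective h2
    simp only [Prod.mk.injEq] at h1' h2'
    obtain ⟨rfl, a1, b1⟩ := h1'
    obtain ⟨rfl, a2, b2⟩ := h2'
    have hsub : s₁ - s₂ ≠ 0 := sub_ne_zero.2 hs
    have ea : (ι x).1.1 = (ι y).1.1 := by
      apply mul_right_cancel₀ hsub
      linear_combination a1 - a2
    have eb : (ι x).2.1 = (ι y).2.1 := by
      apply mul_right_cancel₀ hsub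
      linear_combination b1 - b2
    have ec : (ι x).1.2 = (ι y).1.2 := by
      rw [ea] at a1
      exact add_left_cancel a1
    have ed : (ι x).2.2 = (ι y).2.2 := by
      rw [eb] at b1
      exact add_left_cancel b1
    refine ⟨ι.injective (Prod.ext (Prod.ext ea ec) (Prod.ext eb ed)), rfl, rfl⟩

end Crest.Agent.R199
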