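import Mathlib

/-!
Independent transversals by counting (Rosenfeld's method): parts of size at least `4 Δ`, where every
vertex has at most `Δ` neighbours in the union of the parts, admit an independent transversal.
-/

namespace Crest.Agent.R199.IT

open Finset

variable {ι α : Type*} [Fintype ι] [DecidableEq ι] [DecidableEq α]

set_option linter.unusedSectionVars false

/-- partial independent transversals on `A`, completed by `e` outside `A`. -/
noncomputable def T (adj : α → α → Prop) (part : ι → Finset α) (e : ι → α) (A : Finset ι) :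
    Finset (ι → α) := by
  classical
  exact (Fintype.piFinset (fun i => if i ∈ A then part i else {e i})).filter
    (fun f => ∀ i ∈ A, ∀ j ∈ A, i ≠ j → ¬ adj (f i) (f j))

lemma mem_T {adj : α → α → Prop} {part : ι → Finset α} {e : ι → α} {A : Finset ι} {f : ι → α} :
    f ∈ T adj part e A ↔ (∀ i ∈ A, f i ∈ part i) ∧ (∀ i, i ∉ A → f i = e i) ∧
      ∀ i ∈ A, ∀ j ∈ A, i ≠ j → ¬ adj (f i) (f j) := by
  classical
  unfold T
  simp only [mem_filter, Fintype.mem_piFinset]
  constructor
  · rintro ⟨h, h'⟩
    refine ⟨fun i hi => ?_, fun i hi => ?_, h'⟩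
    · simpa [hi] using h i
    · simpa [hi] using h i
  · rintro ⟨h, h', h''⟩
    refine ⟨fun i => ?_, h''⟩
    by_cases hi : i ∈ A
    · simpa [hi] using h i hi
    · simpa [hi] using h' i hi

/-- number of transversals taking a given value at `i` -/
lemma card_fiber_le (adj : α → α → Prop) (part : ι → Finset α) (e : ι → α) (A : Finset ι)
    (i : ι) (u : α) :
    ((T adj part e A).filter (fun f => f i = u)).card ≤ (T adj part e (A.erase i)).card := by
  classical
  apply Finset.card_le_card_of_injOn (fun f => Function.update f i (e i))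
  · intro f hf
    rw [mem_coe, mem_filter, mem_T] at hf
    obtain ⟨⟨h1, h2, h3⟩, h4⟩ := hf
    rw [mem_coe, mem_T]
    beta_reduce
    refine ⟨fun k hk => ?_, fun k hk => ?_, fun k hk l hl hkl => ?_⟩
    · rw [Finset.mem_erase] at hk
      rw [Function.update_of_ne hk.1]
      exact h1 k hk.2
    · by_cases hki : k = i
      · subst hki; simp
      · rw [Function.update_of_ne hki]
        apply h2
        intro hkA
        exact hk (Finset.mem_erase.2 ⟨hki, hkA⟩)
    · rw [Finset.mem_erase] at hk hl
      rw [Function.update_of_ne hk.1, Function.update_of_ne hl.1]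
      exact h3 k hk.2 l hl.2 hkl
  · intro f hf g hg hfg
    rw [mem_coe, mem_filter] at hf hg
    funext k
    by_cases hki : k = i
    · subst hki; rw [hf.2, hg.2]
    · have := congrFun hfg k
      simpa [Function.update_of_ne hki] using this

theorem step (adj : α → α → Prop) (hsymm : ∀ a b, adj a b → adj b a)
    (part : ι → Finset α) (e : ι → α) (Δ : ℕ) (hcard : ∀ i, 4 * Δ ≤ (part i).card)
    (hdeg : ∀ j, ∀ v ∈ part j,
      ∀ S : Finset (ι × α), (∀ x ∈ S, x.1 ≠ j ∧ x.2 ∈ part x.1 ∧ adj x.2 v) → S.card ≤ Δ) :
    ∀ (n : ℕ) (A : Finset ι), A.card = n → ∀ j, j ∉ A →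
      (part j).card * (T adj part e A).card ≤ 2 * (T adj part e (insert j A)).card := by
  classical
  intro n
  induction n using Nat.strong_induction_on with
  | _ n ih =>
  intro A hA j hj
  -- all pairs, good pairs and bad pairs
  set all : Finset ((ι → α) × α) := (T adj part e A) ×ˢ (part j) with hall
  set bad : Finset ((ι → α) × α) := all.filter (fun x => ∃ i ∈ A, adj (x.1 i) x.2) with hbad
  set good : Finset ((ι → α) × α) := all.filter (fun x => ¬ ∃ i ∈ A, adj (x.1 i) x.2) with hgood
  have hsum : bad.card + good.card = all.card :=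
    Finset.card_filter_add_card_filter_not (s := all) (fun x => ∃ i ∈ A, adj (x.1 i) x.2)
  have hallcard : all.card = (T adj part e A).card * (part j).card := Finset.card_product _ _
  -- good pairs extend
  have hgoodle : good.card ≤ (T adj part e (insert j A)).card := by
    apply Finset.card_le_card_of_injOn (fun x => Function.update x.1 j x.2)
    · intro x hx
      rw [mem_coe, hgood, mem_filter, hall, mem_product, mem_T] at hx
      obtain ⟨⟨⟨h1, h2, h3⟩, h4⟩, h5⟩ := hx
      rw [mem_coe, mem_T]
      beta_reduce
      refine ⟨fun k hk => ?_, fun k hk => ?_, fun k hk l hl hkl => ?_⟩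
      · by_cases hkj : k = j
        · subst hkj; simpa using h4
        · rw [Function.update_of_ne hkj]
          exact h1 k ((Finset.mem_insert.1 hk).resolve_left hkj)
      · have hkj : k ≠ j := fun h => hk (h ▸ Finset.mem_insert_self _ _)
        rw [Function.update_of_ne hkj]
        exact h2 k (fun h => hk (Finset.mem_insert_of_mem h))
      · by_cases hkj : k = j
        · subst hkj
          have hlA : l ∈ A := (Finset.mem_insert.1 hl).resolve_left (fun h => hkl h.symm)
          rw [Function.update_self, Function.update_of_ne (fun h => hkl h.symm)]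
          intro hh
          exact h5 ⟨l, hlA, hsymm _ _ hh⟩
        · have hkA : k ∈ A := (Finset.mem_insert.1 hk).resolve_left hkj
          by_cases hlj : l = j
          · subst hlj
            rw [Function.update_self, Function.update_of_ne hkj]
            intro hh
            exact h5 ⟨k, hkA, hh⟩
          · have hlA : l ∈ A := (Finset.mem_insert.1 hl).resolve_left hlj
            rw [Function.update_of_ne hkj, Function.update_of_ne hlj]
            exact h3 k hkA l hlA hkl
    · intro x hx y hy hxy
      rw [mem_coe, hgood, mem_filter, hall, mem_product, mem_T] at hx hy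
      have hv : x.2 = y.2 := by
        have := congrFun hxy j
        simpa using this
      have hf : x.1 = y.1 := by
        funext k
        by_cases hkj : k = j
        · subst hkj
          rw [hx.1.1.2.1 _ hj, hy.1.1.2.1 _ hj]
        · have := congrFun hxy k
          simpa [Function.update_of_ne hkj] using this
      exact Prod.ext hf hv
  -- bad pairs are few
  have hbadle : 2 * bad.card ≤ (part j).card * (T adj part e A).card := by
    -- fibre over v
    have h1 : bad.card ≤ ∑ v ∈ part j, ((T adj part e A).filter
        (fun f => ∃ i ∈ A, adj (f i) v)).card := by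
      have hsub : bad ⊆ (part j).biUnion (fun v =>
          ((T adj part e A).filter (fun f => ∃ i ∈ A, adj (f i) v)).image (fun f => (f, v))) := by
        intro x hx
        rw [hbad, mem_filter, hall, mem_product] at hx
        rw [mem_biUnion]
        refine ⟨x.2, hx.1.2, ?_⟩
        rw [mem_image]
        exact ⟨x.1, mem_filter.2 ⟨hx.1.1, hx.2⟩, rfl⟩
      refine (Finset.card_le_card hsub).trans (Finset.card_biUnion_le.trans ?_)
      exact Finset.sum_le_sum fun v _ => Finset.card_image_le
    have h2 : ∀ v ∈ part j, 2 * ((T adj part e A).filter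
        (fun f => ∃ i ∈ A, adj (f i) v)).card ≤ (T adj part e A).card := by
      intro v hv
      set S : Finset (ι × α) := (A ×ˢ (A.biUnion part)).filter
        (fun x => x.2 ∈ part x.1 ∧ adj x.2 v) with hS
      have hScard : S.card ≤ Δ := by
        apply hdeg j v hv
        intro x hx
        rw [hS, mem_filter, mem_product] at hx
        exact ⟨fun h => hj (h ▸ hx.1.1), hx.2.1, hx.2.2⟩
      have hsub : (T adj part e A).filter (fun f => ∃ i ∈ A, adj (f i) v) ⊆
          S.biUnion (fun x => (T adj part e A).filter (fun f => f x.1 = x.2)) := by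
        intro f hf
        rw [mem_filter] at hf
        obtain ⟨hfT, i, hi, hadj⟩ := hf
        rw [mem_biUnion]
        have hfi : f i ∈ part i := (mem_T.1 hfT).1 i hi
        refine ⟨(i, f i), ?_, mem_filter.2 ⟨hfT, rfl⟩⟩
        rw [hS, mem_filter, mem_product]
        exact ⟨⟨hi, mem_biUnion.2 ⟨i, hi, hfi⟩⟩, hfi, hadj⟩
      have h3 : ((T adj part e A).filter (fun f => ∃ i ∈ A, adj (f i) v)).card ≤
          ∑ x ∈ S, (T adj part e (A.erase x.1)).card := by
        refine (Finset.card_le_card hsub).trans (Finset.card_biUnion_le.trans ?_)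
        exact Finset.sum_le_sum fun x _ => card_fiber_le adj part e A x.1 x.2
      rcases Nat.eq_zero_or_pos Δ with hΔ | hΔ
      · have : S = ∅ := by
          rw [← Finset.card_eq_zero]; omega
        rw [this] at h3
        simp only [Finset.sum_empty, Nat.le_zero] at h3
        rw [h3]; simp
      · have h4 : ∀ x ∈ S, 2 * Δ * (T adj part e (A.erase x.1)).card ≤ (T adj part e A).card := by
          intro x hx
          rw [hS, mem_filter, mem_product] at hx
          have hxA : x.1 ∈ A := hx.1.1
          have hlt : (A.erase x.1).card < n := by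
            rw [← hA]; exact Finset.card_erase_lt_of_mem hxA
          have := ih _ hlt (A.erase x.1) rfl x.1 (Finset.notMem_erase _ _)
          rw [Finset.insert_erase hxA] at this
          have h5 : 4 * Δ * (T adj part e (A.erase x.1)).card ≤
              (part x.1).card * (T adj part e (A.erase x.1)).card :=
            Nat.mul_le_mul_right _ (hcard x.1)
          nlinarith
        have h5 : 2 * Δ * ∑ x ∈ S, (T adj part e (A.erase x.1)).card ≤
            Δ * (T adj part e A).card := by
          rw [Finset.mul_sum]
          calc ∑ x ∈ S, 2 * Δ * (T adj part e (A.erase x.1)).card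
              ≤ ∑ _x ∈ S, (T adj part e A).card := Finset.sum_le_sum h4
            _ = S.card * (T adj part e A).card := by simp
            _ ≤ Δ * (T adj part e A).card := Nat.mul_le_mul_right _ hScard
        have h6 : Δ * (2 * ((T adj part e A).filter (fun f => ∃ i ∈ A, adj (f i) v)).card) ≤
            Δ * (T adj part e A).card := by
          calc Δ * (2 * ((T adj part e A).filter (fun f => ∃ i ∈ A, adj (f i) v)).card)
              = 2 * Δ * ((T adj part e A).filter (fun f => ∃ i ∈ A, adj (f i) v)).card := by ring
            _ ≤ 2 * Δ * ∑ x ∈ S, (T adj part e (A.erase x.1)).card := Nat.mul_le_mul_left _ h3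
            _ ≤ Δ * (T adj part e A).card := h5
        exact Nat.le_of_mul_le_mul_left h6 hΔ
    calc 2 * bad.card ≤ 2 * ∑ v ∈ part j, ((T adj part e A).filter
          (fun f => ∃ i ∈ A, adj (f i) v)).card := Nat.mul_le_mul_left _ h1
      _ = ∑ v ∈ part j, 2 * ((T adj part e A).filter
          (fun f => ∃ i ∈ A, adj (f i) v)).card := by rw [Finset.mul_sum]
      _ ≤ ∑ _v ∈ part j, (T adj part e A).card := Finset.sum_le_sum h2
      _ = (part j).card * (T adj part e A).card := by simp
  have : (T adj part e A).card * (part j).card = (part j).card * (T adj part e A).card := by ring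
  omega

theorem T_nonempty (adj : α → α → Prop) (hsymm : ∀ a b, adj a b → adj b a)
    (part : ι → Finset α) (e : ι → α) (Δ : ℕ) (hne : ∀ i, (part i).Nonempty)
    (hcard : ∀ i, 4 * Δ ≤ (part i).card)
    (hdeg : ∀ j, ∀ v ∈ part j,
      ∀ S : Finset (ι × α), (∀ x ∈ S, x.1 ≠ j ∧ x.2 ∈ part x.1 ∧ adj x.2 v) → S.card ≤ Δ)
    (A : Finset ι) : 0 < (T adj part e A).card := by
  classical
  induction A using Finset.induction_on with
  | empty =>
    rw [Finset.card_pos]
    exact ⟨e, mem_T.2 ⟨by simp, by simp, by simp⟩⟩
  | insert j A hj ih =>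
    have := step adj hsymm part e Δ hcard hdeg _ A rfl j hj
    have h1 : 0 < (part j).card := Finset.card_pos.2 (hne j)
    have h2 : 0 < (part j).card * (T adj part e A).card := Nat.mul_pos h1 ih
    omega

/-- **Independent transversal**, general form: no disjointness of the parts is needed, the degree
condition is counted with multiplicity (pairs (index of another part, neighbour in that part)). -/
theorem exists_transversal' (adj : α → α → Prop) (hsymm : ∀ a b, adj a b → adj b a)
    (part : ι → Finset α) (Δ : ℕ) (hne : ∀ i, (part i).Nonempty)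
    (hcard : ∀ i, 4 * Δ ≤ (part i).card)
    (hdeg : ∀ j, ∀ v ∈ part j,
      ∀ S : Finset (ι × α), (∀ x ∈ S, x.1 ≠ j ∧ x.2 ∈ part x.1 ∧ adj x.2 v) → S.card ≤ Δ) :
    ∃ f : ι → α, (∀ i, f i ∈ part i) ∧ ∀ i j, i ≠ j → ¬ adj (f i) (f j) := by
  classical
  choose e he using hne
  have hne' : ∀ i, (part i).Nonempty := fun i => ⟨e i, he i⟩
  obtain ⟨f, hf⟩ := Finset.card_pos.1
    (T_nonempty adj hsymm part e Δ hne' hcard hdeg Finset.univ)
  rw [mem_T] at hf
  exact ⟨f, fun i => hf.1 i (mem_univ _), fun i j hij => hf.2.2 i (mem_univ _) j (mem_univ _) hij⟩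

/-- **Independent transversal**, disjoint parts: every vertex has at most `Δ` neighbours
(in the union of the other parts). -/
theorem exists_transversal (adj : α → α → Prop) (hsymm : ∀ a b, adj a b → adj b a)
    (part : ι → Finset α) (hdisj : ∀ i j, i ≠ j → Disjoint (part i) (part j))
    (Δ : ℕ) (hne : ∀ i, (part i).Nonempty)
    (hcard : ∀ i, 4 * Δ ≤ (part i).card)
    (hdeg : ∀ j, ∀ v ∈ part j,
      ∀ S : Finset α, (∀ x ∈ S, adj x v ∧ ∃ i, i ≠ j ∧ x ∈ part i) → S.card ≤ Δ) :
    ∃ f : ι → α, (∀ i, f i ∈ part i) ∧ ∀ i j, i ≠ j → ¬ adj (f i) (f j) := by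
  classical
  apply exists_transversal' adj hsymm part Δ hne hcard
  intro j v hv S hS
  have hinj : Set.InjOn Prod.snd (S : Set (ι × α)) := by
    intro x hx y hy hxy
    have hx' := hS x hx
    have hy' := hS y hy
    refine Prod.ext ?_ hxy
    by_contra hne1
    have := hdisj _ _ hne1
    rw [Finset.disjoint_left] at this
    exact this hx'.2.1 (hxy ▸ hy'.2.1)
  rw [← Finset.card_image_of_injOn hinj]
  apply hdeg j v hv
  intro a ha
  rw [mem_image] at ha
  obtain ⟨x, hx, rfl⟩ := ha
  exact ⟨(hS x hx).2.2, x.1, (hS x hx).1, (hS x hx).2.1⟩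

/-- Variant indexed by a colouring: `cls : α → ι` and the parts are the fibres inside a finset. -/
theorem exists_transversal_of_cls (adj : α → α → Prop) (hsymm : ∀ a b, adj a b → adj b a)
    (cls : α → ι) (E : Finset α) (Δ : ℕ)
    (hne : ∀ i, (E.filter fun x => cls x = i).Nonempty)
    (hcard : ∀ i, 4 * Δ ≤ (E.filter fun x => cls x = i).card)
    (hdeg : ∀ v ∈ E, ∀ S : Finset α, (∀ x ∈ S, x ∈ E ∧ adj x v) → S.card ≤ Δ) :
    ∃ f : ι → α, (∀ i, f i ∈ E ∧ cls (f i) = i) ∧ ∀ i j, i ≠ j → ¬ adj (f i) (f j) := by
  classical
  obtain ⟨f, hf, hf'⟩ := exists_transversal adj hsymm (fun i => E.filter fun x => cls x = i)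
    (fun i j hij => by
      rw [Finset.disjoint_left]
      intro x hx hy
      rw [mem_filter] at hx hy
      exact hij (hx.2.symm.trans hy.2)) Δ hne hcard
    (fun j v hv S hS => hdeg v (mem_filter.1 hv).1 S (fun x hx => by
      obtain ⟨h1, i, -, h2⟩ := hS x hx
      exact ⟨(mem_filter.1 h2).1, h1⟩))
  exact ⟨f, fun i => mem_filter.1 (hf i), hf'⟩

end Crest.Agent.R199.IT
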