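import Crest.Agent.R199.ErdosSachs

/-!
R199 (S0303), Part I.4 (b): insertion of one correction vertex of large degree.
-/

set_option autoImplicit false
set_option linter.unusedSectionVars false
set_option linter.unusedVariables false

namespace Crest.Agent.R199.Insert

variable {Fl V : Type*}

section ins

variable {KF : Type*} (σ : Fl → Fl) (M : KF → Prop) (ct : KF → Fl)

open Classical in
/-- the new matching after the insertion: the flag `f` of the new vertex (`M f`) is joined with
the old flag `ct f`. -/
noncomputable def ins : Fl ⊕ KF → Fl ⊕ KF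
  | Sum.inl h => if hh : ∃ f, M f ∧ ct f = h then Sum.inr hh.choose else Sum.inl (σ h)
  | Sum.inr f => if M f then Sum.inl (ct f) else Sum.inr f

/-- vertex map -/
def insV (vtx : Fl → V) : Fl ⊕ KF → Option V
  | Sum.inl h => some (vtx h)
  | Sum.inr _ => none

variable {σ M ct}

lemma ins_inr {f : KF} (hf : M f) : ins σ M ct (Sum.inr f) = Sum.inl (ct f) := by
  simp [ins, hf]

lemma ins_inr_not {f : KF} (hf : ¬ M f) : ins σ M ct (Sum.inr f) = Sum.inr f := by
  simp [ins, hf]

lemma ins_inl_ct (hinj : ∀ f f', M f → M f' → ct f = ct f' → f = f') {f : KF} (hf : M f) :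
    ins σ M ct (Sum.inl (ct f)) = Sum.inr f := by
  have hh : ∃ f', M f' ∧ ct f' = ct f := ⟨f, hf, rfl⟩
  simp only [ins, hh, dif_pos]
  rw [hinj _ _ hh.choose_spec.1 hf hh.choose_spec.2]

lemma ins_inl_not {h : Fl} (hh : ¬ ∃ f, M f ∧ ct f = h) :
    ins σ M ct (Sum.inl h) = Sum.inl (σ h) := by
  simp [ins, hh]

theorem ins_involutive (hσ : Function.Involutive σ)
    (hinj : ∀ f f', M f → M f' → ct f = ct f' → f = f')
    (hclosed : ∀ f, M f → ∃ f', M f' ∧ ct f' = σ (ct f)) :
    Function.Involutive (ins σ M ct) := by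
  rintro (h | f)
  · by_cases hh : ∃ f, M f ∧ ct f = h
    · obtain ⟨f, hf, rfl⟩ := hh
      rw [ins_inl_ct hinj hf, ins_inr hf]
    · rw [ins_inl_not hh]
      have hh' : ¬ ∃ f, M f ∧ ct f = σ h := by
        rintro ⟨f, hf, hfe⟩
        obtain ⟨f', hf', hfe'⟩ := hclosed f hf
        apply hh
        exact ⟨f', hf', by rw [hfe', hfe, hσ]⟩
      rw [ins_inl_not hh', hσ]
  · by_cases hf : M f
    · rw [ins_inr hf, ins_inl_ct hinj hf]
    · rw [ins_inr_not hf, ins_inr_not hf]

/-- The girth is preserved by the insertion. -/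
theorem ins_noCyc (vtx : Fl → V) (g : ℕ) (hσ : Function.Involutive σ)
    (hinj : ∀ f f', M f → M f' → ct f = ct f' → f = f')
    (hne : ∀ f, M f → σ (ct f) ≠ ct f)
    (hcyc : NoCyc vtx σ g) (hclo : NoClosed vtx σ g)
    (hfar : ∀ f f', M f → M f' → ct f' ≠ ct f → ct f' ≠ σ (ct f) → ∀ n, n < g → ∀ d : ℕ → Fl,
      vtx (d 0) = vtx (ct f) → (∀ i < n, vtx (d (i + 1)) = vtx (σ (d i))) →
      vtx (d n) ≠ vtx (ct f')) :
    NoCyc (insV (KF := KF) vtx) (ins σ M ct) g := by
  intro k hk1 hkg c hper hNB
  by_cases hall : ∀ i, ∃ h, c i = Sum.inl h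
  · -- the closed walk avoids the new vertex
    choose d hd using hall
    refine hcyc k hk1 hkg d ?_ ?_
    · intro i
      have := hper i
      rw [hd, hd] at this
      exact Sum.inl_injective this
    · intro i
      have h := hNB i
      rw [hd, hd] at h
      have hnot : ¬ ∃ f, M f ∧ ct f = d i := by
        rintro ⟨f, hf, hfe⟩
        rw [← hfe, NB, ins_inl_ct hinj hf] at h
        simp [insV] at h
      rw [NB, ins_inl_not hnot] at h
      refine ⟨fun h' => h.1 (by rw [h']), ?_, fun h' => h.2.2 (by rw [h'])⟩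
      have := h.2.1
      simp only [insV, Option.some.injEq] at this
      exact this
  · push Not at hall
    obtain ⟨i0, hi0⟩ := hall
    -- shift
    obtain ⟨f0, hf0⟩ : ∃ f0, c i0 = Sum.inr f0 := by
      rcases hc : c i0 with h | f
      · exact absurd hc (hi0 h)
      · exact ⟨f, rfl⟩
    set e : ℕ → Fl ⊕ KF := fun i => c (i0 + i) with he
    have he0 : e 0 = Sum.inr f0 := by simpa [he] using hf0
    have hek : e k = Sum.inr f0 := by
      simp only [he]; rw [hper]; exact hf0
    have heNB : ∀ i, NB (insV vtx) (ins σ M ct) (e i) (e (i + 1)) := fun i => hNB (i0 + i)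
    -- the first return
    classical
    have hex : ∃ j, 1 ≤ j ∧ ∃ f, e j = Sum.inr f := ⟨k, hk1, f0, hek⟩
    obtain ⟨hj1, fj, hfj⟩ := Nat.find_spec hex
    set j := Nat.find hex with hj
    have hjk : j ≤ k := Nat.find_min' hex ⟨hk1, f0, hek⟩
    have hmin : ∀ i, 1 ≤ i → i < j → ∃ h, e i = Sum.inl h := by
      intro i hi1 hij
      rcases hc : e i with h | f
      · exact ⟨h, rfl⟩
      · exact absurd ⟨hi1, f, hc⟩ (Nat.find_min hex hij)
    -- start
    have h0 := heNB 0
    rw [he0] at h0
    have hM0 : M f0 := by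
      by_contra hn
      exact h0.1 (ins_inr_not hn)
    rw [NB, ins_inr hM0, zero_add] at h0
    obtain ⟨-, h0v, h0n⟩ := h0
    let d : ℕ → Fl := fun i => Sum.elim id (fun _ => ct f0) (e i)
    have hed : ∀ i, 1 ≤ i → i < j → e i = Sum.inl (d i) := by
      intro i hi1 hij
      obtain ⟨h, hh⟩ := hmin i hi1 hij
      simp only [d, hh, Sum.elim_inl, id]
    have he1 : e 1 = Sum.inl (d 1) := by
      rcases hc : e 1 with h | f
      · simp only [d, hc, Sum.elim_inl, id]
      · rw [hc] at h0v
        simp [insV] at h0v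
    have hd1v : vtx (d 1) = vtx (ct f0) := by
      rw [he1] at h0v
      simpa [insV] using h0v
    have hd1n : d 1 ≠ ct f0 := by
      intro h
      apply h0n
      rw [he1, h]
    have hj2 : 2 ≤ j := by
      rcases Nat.lt_or_ge 1 j with h | h
      · exact h
      · have : j = 1 := le_antisymm h hj1
        rw [this, he1] at hfj
        exact absurd hfj (by simp)
    -- middle
    have hmid : ∀ i, 1 ≤ i → i + 1 < j → NB vtx σ (d i) (d (i + 1)) := by
      intro i hi1 hij
      have h := heNB i
      rw [hed i hi1 (by omega), hed (i + 1) (by omega) hij] at h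
      have hnot : ¬ ∃ f, M f ∧ ct f = d i := by
        rintro ⟨f, hf, hfe⟩
        rw [← hfe, NB, ins_inl_ct hinj hf] at h
        simp [insV] at h
      rw [NB, ins_inl_not hnot] at h
      refine ⟨fun h' => h.1 (by rw [h']), ?_, fun h' => h.2.2 (by rw [h'])⟩
      have := h.2.1
      simp only [insV, Option.some.injEq] at this
      exact this
    -- end
    obtain ⟨l, hl⟩ : ∃ l, j = l + 2 := ⟨j - 2, by omega⟩
    have hend := heNB (l + 1)
    rw [show l + 1 + 1 = j by omega, hfj, hed (l + 1) (by omega) (by omega)] at hend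
    have hcut : ∃ f, M f ∧ ct f = d (l + 1) := by
      by_contra hnot
      rw [NB, ins_inl_not hnot] at hend
      simp [insV] at hend
    obtain ⟨f1, hM1, hf1⟩ := hcut
    -- the three cases
    by_cases hc1 : ct f1 = ct f0
    · -- closed walk `d 1, ..., d l`
      have hl1 : 1 ≤ l := by
        rcases Nat.eq_zero_or_pos l with h | h
        · subst h
          exact absurd (hf1 ▸ hc1) hd1n
        · exact h
      obtain ⟨m, rfl⟩ : ∃ m, l = m + 1 := ⟨l - 1, by omega⟩
      refine hclo m (by omega) (fun i => d (i + 1)) (fun i hi => hmid (i + 1) (by omega) (by omega))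
        (hmid (m + 1) (by omega) (by omega)).1 ?_
      have := (hmid (m + 1) (by omega) (by omega)).2.1
      rw [← this, ← hf1, hc1]
      exact hd1v.symm
    · by_cases hc2 : ct f1 = σ (ct f0)
      · -- closed walk `ct f1, d 1, ..., d l`
        let u : ℕ → Fl := fun i => if i = 0 then ct f1 else d i
        have hu0 : u 0 = ct f1 := by simp [u]
        have hus : ∀ i, u (i + 1) = d (i + 1) := by intro i; simp [u]
        have hσ1 : σ (ct f1) = ct f0 := by rw [hc2, hσ]
        refine hclo l (by omega) u ?_ ?_ ?_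
        · intro i hi
          rcases Nat.eq_zero_or_pos i with h | h
          · subst h
            rw [hu0, hus, zero_add]
            exact ⟨hne f1 hM1, by rw [hσ1]; exact hd1v, by rw [hσ1]; exact hd1n⟩
          · obtain ⟨i', rfl⟩ : ∃ i', i = i' + 1 := ⟨i - 1, by omega⟩
            rw [hus, hus]
            exact hmid (i' + 1) (by omega) (by omega)
        · rcases Nat.eq_zero_or_pos l with h | h
          · subst h
            rw [hu0]; exact hne f1 hM1
          · obtain ⟨l', rfl⟩ : ∃ i', l = i' + 1 := ⟨l - 1, by omega⟩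
            rw [hus]
            exact (hmid (l' + 1) (by omega) (by omega)).1
        · rw [hu0]
          rcases Nat.eq_zero_or_pos l with h | h
          · subst h
            rw [hu0, hσ1, ← hd1v, hf1, zero_add]
          · obtain ⟨l', rfl⟩ : ∃ i', l = i' + 1 := ⟨l - 1, by omega⟩
            rw [hus, ← (hmid (l' + 1) (by omega) (by omega)).2.1, hf1]
      · refine hfar f0 f1 hM0 hM1 hc1 hc2 l (by omega) (fun i => d (i + 1)) (by simpa using hd1v)
          ?_ ?_
        · intro i hi
          exact (hmid (i + 1) (by omega) (by omega)).2.1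
        · simp only [hf1]

end ins

end Crest.Agent.R199.Insert
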