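import Crest.Agent.R199.GInput
import Crest.Agent.R199.Insert
import Crest.Agent.R199.H24_IT

/-! Part I (S1 version): construction of the gadgets. -/

set_option autoImplicit false
set_option linter.unusedSectionVars false
set_option linter.unusedVariables false

namespace Crest.Agent.R199

open Finset

/-- orientation of the cut edge -/
lemma exists_pick (A : Finset (Fin 3)) (hA : A.card = 0 ∨ A.card = 2) (c1 c2 : Fin 3)
    (hc : c1 ≠ c2) :
    ∃ pick : Fin 3 → Bool, (∀ k ∈ A, (bif pick k then c1 else c2) ≠ k) ∧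
      (∀ k ∈ A, ∃ k' ∈ A, pick k' ≠ pick k) ∧
      (∀ k ∈ A, ∀ k' ∈ A, pick k = pick k' → k = k') := by
  rcases hA with hA | hA
  · rw [card_eq_zero] at hA
    subst hA
    exact ⟨fun _ => true, by simp, by simp, by simp⟩
  · obtain ⟨k, k', hkk, rfl⟩ := card_eq_two.1 hA
    have h : (c1 ≠ k ∧ c2 ≠ k') ∨ (c2 ≠ k ∧ c1 ≠ k') := by
      revert c1 c2 k k'
      decide
    rcases h with ⟨h1, h2⟩ | ⟨h1, h2⟩
    · refine ⟨fun i => decide (i = k), ?_, ?_, ?_⟩
      · intro i hi
        rcases mem_insert.1 hi with rfl | hi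
        · simpa using h1
        · rw [mem_singleton] at hi
          subst hi
          simpa [Ne.symm hkk] using h2
      · intro i hi
        rcases mem_insert.1 hi with rfl | hi
        · exact ⟨k', by simp, by simp [Ne.symm hkk]⟩
        · rw [mem_singleton] at hi
          subst hi
          exact ⟨k, by simp, by simp [Ne.symm hkk]⟩
      · intro i hi i' hi' h
        simp only [mem_insert, mem_singleton] at hi hi'
        rcases hi with rfl | rfl <;> rcases hi' with rfl | rfl
        · rfl
        · simp [Ne.symm hkk] at h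
        · simp [Ne.symm hkk] at h
        · rfl
    · refine ⟨fun i => decide (i = k'), ?_, ?_, ?_⟩
      · intro i hi
        rcases mem_insert.1 hi with rfl | hi
        · simpa [hkk] using h1
        · rw [mem_singleton] at hi
          subst hi
          simpa using h2
      · intro i hi
        rcases mem_insert.1 hi with rfl | hi
        · exact ⟨k', by simp, by simp [hkk]⟩
        · rw [mem_singleton] at hi
          subst hi
          exact ⟨k, by simp, by simp [hkk]⟩
      · intro i hi i' hi' h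
        simp only [mem_insert, mem_singleton] at hi hi'
        rcases hi with rfl | rfl <;> rcases hi' with rfl | rfl
        · rfl
        · simp [hkk] at h
        · simp [hkk] at h
        · rfl

lemma ones_even : ∀ f : Fin 3 → ZMod 2, ∑ k, f k = 0 →
    (univ.filter fun k => f k = 1).card = 0 ∨ (univ.filter fun k => f k = 1).card = 2 := by
  decide

lemma ones_odd : ∀ f : Fin 3 → ZMod 2, ∑ k, f k = 1 → ∃ k0, f k0 = 1 ∧
    ((univ.filter fun k => f k = 1 ∧ k ≠ k0).card = 0 ∨
      (univ.filter fun k => f k = 1 ∧ k ≠ k0).card = 2) := by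
  decide

/-- independent transversal -/
theorem indep_transversal {ι α : Type} [Fintype ι] [DecidableEq ι] [Fintype α] [DecidableEq α]
    (part : ι → Finset α) (adj : α → α → Prop)
    (hsymm : ∀ a b, adj a b → adj b a) (Δ : ℕ) (hΔ : 0 < Δ)
    (hdeg : ∀ a, {b | adj a b}.ncard ≤ Δ)
    (hdisj : ∀ i j, i ≠ j → Disjoint (part i) (part j))
    (hpart : ∀ i, 4 * Δ ≤ (part i).card) :
    ∃ f : ι → α, (∀ i, f i ∈ part i) ∧ ∀ i j, i ≠ j → ¬ adj (f i) (f j) := by
  classical
  refine IT.exists_transversal adj hsymm part hdisj Δ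
    (fun i => card_pos.1 (by have := hpart i; omega)) hpart ?_
  intro j v _ S hS
  refine le_trans ?_ (hdeg v)
  rw [← Set.ncard_coe_finset]
  exact Set.ncard_le_ncard (fun x hx => hsymm _ _ (hS x hx).1) (Set.toFinite _)

/-- vertex of a bulk flag -/
def vtxB {P Z E S : Type} (t : Z × Fin 3 → P) (b : S → P → E) (f : (Z × Fin 3) × S) : E × S :=
  (b f.2 (t f.1), f.2)

/-- the point of a flag -/
def idx {Z S : Type} : ((Z × Fin 3) × S) ⊕ (Z × Fin 3) → Z × Fin 3
  | Sum.inl f => f.1
  | Sum.inr j => j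

section one

variable {P Z E S : Type} [Fintype P] [Fintype Z] [Fintype E] [Fintype S] [DecidableEq Z]
  [DecidableEq E] [DecidableEq S]

lemma card_vtxB_le (t : Z × Fin 3 → P) (t_inj : Function.Injective t) (b : S → P → E) (q : ℕ)
    (line_card : ∀ s w, (univ.filter fun p : P => b s p = w).card ≤ q) (v : E × S) :
    (univ.filter fun f => vtxB t b f = v).card ≤ q := by
  refine le_trans ?_ (line_card v.2 v.1)
  refine card_le_card_of_injOn (fun f => t f.1) ?_ ?_
  · intro f hf
    rw [mem_coe, mem_filter] at hf ⊢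
    obtain ⟨-, hf⟩ := hf
    unfold vtxB at hf
    refine ⟨mem_univ _, ?_⟩
    rw [← hf]
  · intro f hf f' hf' h
    rw [mem_coe, mem_filter] at hf hf'
    have h1 := t_inj h
    have h2 := hf.2
    have h3 := hf'.2
    unfold vtxB at h2 h3
    have h4 : f.2 = f'.2 := by
      have := congrArg Prod.snd (h2.trans h3.symm)
      exact this
    exact Prod.ext h1 h4

/-- bulk matching -/
lemma exists_bulk (t : Z × Fin 3 → P) (t_inj : Function.Injective t) (b : S → P → E) (q g : ℕ)
    (line_card : ∀ s w, (univ.filter fun p : P => b s p = w).card ≤ q)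
    (even_S : Even (Fintype.card S)) (big : 10 * (q * (q + 1) ^ g) + 20 ≤ Fintype.card S) :
    ∃ σ : (Z × Fin 3) × S → (Z × Fin 3) × S, Function.Involutive σ ∧
      (∀ f, σ f ≠ f ∧ (σ f).1.1 = f.1.1 ∧ (σ f).1.2 ≠ f.1.2 ∧ (σ f).2 ≠ f.2) ∧
      NoCyc (vtxB t b) σ g := by
  have hcol : ∀ (z : Z) (p : Fin 3 → Prop) [DecidablePred p],
      (univ.filter fun f : (Z × Fin 3) × S => f.1.1 = z ∧ p f.1.2).card =
        (univ.filter p).card * Fintype.card S := by
    intro z p _
    have : (univ.filter fun f : (Z × Fin 3) × S => f.1.1 = z ∧ p f.1.2) =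
        ((univ.filter p) ×ˢ (univ : Finset S)).map
          ⟨fun x => ((z, x.1), x.2), by
            intro x y h
            simp only [Prod.mk.injEq, true_and] at h
            exact Prod.ext h.1 h.2⟩ := by
      ext ⟨⟨z', k⟩, s⟩
      simp only [mem_filter, mem_univ, true_and, mem_map, mem_product, and_true, Prod.exists]
      constructor
      · rintro ⟨rfl, hk⟩
        exact ⟨k, s, hk, rfl⟩
      · rintro ⟨k', s', hk, h⟩
        change ((z, k'), s') = ((z', k), s) at h
        simp only [Prod.mk.injEq] at h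
        obtain ⟨⟨rfl, rfl⟩, rfl⟩ := h
        exact ⟨rfl, hk⟩
    rw [this, card_map, card_product, card_univ]
  have hc1 : ∀ a : Fin 3, (univ.filter fun k : Fin 3 => k = a).card = 1 := by decide
  have hc2 : ∀ a : Fin 3, (univ.filter fun k : Fin 3 => k ≠ a).card = 2 := by decide
  obtain ⟨σ, h1, -, h3, h4⟩ := erdos_sachs (vtxB t b) g q
    (card_vtxB_le t t_inj b q line_card) id (fun x => rfl)
    (fun k _ _ c _ h => (h 0).1 rfl) univ (fun x _ => rfl) (fun f => f.1.1) (fun f => f.1.2)
    (fun f => f.2)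
    (by
      intro z
      have := hcol z (fun _ => True)
      simp only [and_true] at this
      rw [this]
      exact Even.mul_left even_S _)
    (by
      rintro ⟨⟨z, k⟩, s⟩ -
      refine le_trans (card_le_card_of_injOn (t := univ) (fun f : (Z × Fin 3) × S => f.1.2)
        (fun f _ => mem_coe.2 (mem_univ _)) ?_) (le_of_eq (by rw [card_univ, Fintype.card_fin]))
      rintro ⟨⟨z', k'⟩, s'⟩ hf ⟨⟨z'', k''⟩, s''⟩ hf' h
      simp only [mem_coe, mem_filter, mem_univ, true_and] at hf hf' h
      obtain ⟨rfl, rfl⟩ := hf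
      obtain ⟨rfl, rfl⟩ := hf'
      subst h
      rfl)
    (by
      rintro ⟨⟨z, k⟩, s⟩ - a
      have e1 := hcol z (fun k => k = a)
      have e2 := hcol z (fun k => k ≠ a)
      simp only at e1 e2 ⊢
      rw [e1, e2]
      rw [hc1 a, hc2 a]
      omega)
  exact ⟨σ, h1, fun f => ⟨(h3 f (mem_univ _)).1, (h3 f (mem_univ _)).2.2.1,
    (h3 f (mem_univ _)).2.2.2.1, (h3 f (mem_univ _)).2.2.2.2⟩, h4⟩

lemma near_end {V Fl : Type} {vtx : Fl → V} {σ : Fl → Fl} {h u : Fl} (hu : u = h ∨ u = σ h)
    (m : ℕ) {c : V} (hn : Near vtx σ m (vtx u) c) : Near vtx σ (m + 1) (vtx h) c := by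
  rcases hu with rfl | rfl
  · exact Near.mono (Nat.le_succ m) hn
  · exact Near.cons h m hn

/-- **One gadget**: bulk flags `((z,k),s)` and flags `(z,k)` of the correction vertex, `M j` : the
flag `j` of the correction vertex has to be matched. -/
theorem exists_gadget (t : Z × Fin 3 → P) (t_inj : Function.Injective t) (b : S → P → E) (q g : ℕ)
    (line_card : ∀ s w, (univ.filter fun p : P => b s p = w).card ≤ q) (hq : 1 ≤ q)
    (even_S : Even (Fintype.card S)) (big : 100 * (q + 1) ^ (g + 8) ≤ Fintype.card S)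
    (M : Z × Fin 3 → Prop) [DecidablePred M]
    (hM : ∀ z, (univ.filter fun k => M (z, k)).card = 0 ∨ (univ.filter fun k => M (z, k)).card = 2) :
    ∃ τ : ((Z × Fin 3) × S) ⊕ (Z × Fin 3) → ((Z × Fin 3) × S) ⊕ (Z × Fin 3),
      Function.Involutive τ ∧
      (∀ h, τ (Sum.inl h) ≠ Sum.inl h) ∧
      (∀ j, ¬ M j → τ (Sum.inr j) = Sum.inr j) ∧
      (∀ j, M j → ∃ h, τ (Sum.inr j) = Sum.inl h) ∧
      (∀ h j, τ (Sum.inl h) = Sum.inr j → M j) ∧
      (∀ a, (idx (τ a)).1 = (idx a).1) ∧
      (∀ a, τ a ≠ a → (idx (τ a)).2 ≠ (idx a).2) ∧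
      (∀ h h', τ (Sum.inl h) = Sum.inl h' → h'.2 ≠ h.2) ∧
      NoCyc (Insert.insV (vtxB t b)) τ g := by
  classical
  have hpow : ∀ i, i ≤ g + 8 → (q + 1) ^ i ≤ (q + 1) ^ (g + 8) := fun i hi =>
    Nat.pow_le_pow_right (Nat.succ_pos q) hi
  have hbig1 : 10 * (q * (q + 1) ^ g) + 20 ≤ Fintype.card S := by
    have h1 : q * (q + 1) ^ g ≤ (q + 1) ^ (g + 1) := by
      rw [pow_succ, mul_comm]
      exact Nat.mul_le_mul_left _ (Nat.le_succ q)
    have h2 := hpow (g + 1) (by omega)
    have h3 : 1 ≤ (q + 1) ^ (g + 8) := Nat.one_le_pow _ _ (Nat.succ_pos q)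
    omega
  have hbig2 : 4 * (q * (q + 1) ^ (g + 2)) ≤ 3 * Fintype.card S := by
    have h1 : q * (q + 1) ^ (g + 2) ≤ (q + 1) ^ (g + 3) := by
      rw [pow_succ _ (g + 2), mul_comm]
      exact Nat.mul_le_mul_left _ (Nat.le_succ q)
    have h2 := hpow (g + 3) (by omega)
    omega
  obtain ⟨σ, hσ, hσp, hcyc⟩ := exists_bulk t t_inj b q g line_card even_S hbig1
  -- the cut edges
  obtain ⟨h, hpart, hindep⟩ := indep_transversal
    (fun z : Z => univ.filter fun f : (Z × Fin 3) × S => f.1.1 = z)
    (fun f f' => Near (vtxB t b) σ (g + 2) (vtxB t b f) (vtxB t b f'))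
    (fun f f' hn => Near.symm hσ _ hn) (q * (q + 1) ^ (g + 2))
    (Nat.mul_pos hq (Nat.pow_pos (Nat.succ_pos q)))
    (fun f => by
      have := card_near_le (vtxB t b) q (card_vtxB_le t t_inj b q line_card) σ (vtxB t b f) (g + 2)
      refine le_trans (le_of_eq ?_) this
      rw [← Set.ncard_coe_finset]
      congr 1
      ext x
      simp)
    (by
      intro z z' hz
      rw [disjoint_left]
      intro f hf hf'
      rw [mem_filter] at hf hf'
      exact hz (hf.2.symm.trans hf'.2))
    (by
      intro z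
      have hc : (univ.filter fun f : (Z × Fin 3) × S => f.1.1 = z).card =
          3 * Fintype.card S := by
        have : (univ.filter fun f : (Z × Fin 3) × S => f.1.1 = z) =
            ((univ : Finset (Fin 3)) ×ˢ (univ : Finset S)).image (fun x => ((z, x.1), x.2)) := by
          ext ⟨⟨z', k⟩, s⟩
          simp only [mem_filter, mem_univ, true_and, mem_image, mem_product, and_true, Prod.exists,
            Prod.mk.injEq]
          constructor
          · rintro rfl
            exact ⟨k, s, ⟨rfl, rfl⟩, rfl⟩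
          · rintro ⟨k', s', ⟨rfl, rfl⟩, rfl⟩
            rfl
        rw [this, card_image_of_injective, card_product, card_univ, card_univ, Fintype.card_fin]
        intro x y hxy
        simp only [Prod.mk.injEq, true_and] at hxy
        exact Prod.ext hxy.1 hxy.2
      rw [hc]
      exact hbig2)
  have hz : ∀ z, (h z).1.1 = z := fun z => (mem_filter.1 (hpart z)).2
  -- orientation
  have hpick : ∀ z, ∃ pick : Fin 3 → Bool,
      (∀ k, M (z, k) → (bif pick k then (h z).1.2 else (σ (h z)).1.2) ≠ k) ∧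
      (∀ k, M (z, k) → ∃ k', M (z, k') ∧ pick k' ≠ pick k) ∧
      (∀ k, M (z, k) → ∀ k', M (z, k') → pick k = pick k' → k = k') := by
    intro z
    obtain ⟨pick, h1, h2, h3⟩ := exists_pick (univ.filter fun k => M (z, k)) (hM z) (h z).1.2
      (σ (h z)).1.2 (hσp (h z)).2.2.1.symm
    simp only [mem_filter, mem_univ, true_and] at h1 h2 h3
    exact ⟨pick, h1, h2, h3⟩
  choose pick hp1 hp2 hp3 using hpick
  let ct : Z × Fin 3 → (Z × Fin 3) × S := fun j => bif pick j.1 j.2 then h j.1 else σ (h j.1)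
  have hct : ∀ j, ct j = h j.1 ∨ ct j = σ (h j.1) := by
    intro j
    simp only [ct]
    cases pick j.1 j.2
    · right; rfl
    · left; rfl
  have hctz : ∀ j, (ct j).1.1 = j.1 := by
    intro j
    rcases hct j with h1 | h1 <;> rw [h1]
    · exact hz j.1
    · rw [(hσp _).2.1]; exact hz j.1
  have hctk : ∀ j, M j → (ct j).1.2 ≠ j.2 := by
    intro j hj
    have := hp1 j.1 j.2 hj
    simp only [ct]
    cases hpk : pick j.1 j.2 <;> rw [hpk] at this <;> exact this
  have hinj : ∀ f f', M f → M f' → ct f = ct f' → f = f' := by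
    intro f f' hf hf' he
    have hz1 : f.1 = f'.1 := by rw [← hctz f, ← hctz f', he]
    have hpp : pick f.1 f.2 = pick f.1 f'.2 := by
      have he' := he
      simp only [ct] at he'
      rw [← hz1] at he'
      cases hp : pick f.1 f.2 <;> cases hp' : pick f.1 f'.2
      · rfl
      · rw [hp, hp'] at he'
        exact absurd he' (hσp _).1
      · rw [hp, hp'] at he'
        exact absurd he'.symm (hσp _).1
      · rfl
    have hk := hp3 f.1 f.2 hf f'.2 (by rw [hz1]; exact hf') hpp
    exact Prod.ext hz1 hk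
  have hclosed : ∀ f, M f → ∃ f', M f' ∧ ct f' = σ (ct f) := by
    intro f hf
    obtain ⟨k', hk', hpk⟩ := hp2 f.1 f.2 hf
    refine ⟨(f.1, k'), hk', ?_⟩
    simp only [ct]
    cases hp : pick f.1 f.2 <;> cases hp' : pick f.1 k'
    · exact absurd (hp'.trans hp.symm) hpk
    · simp only [cond_true, cond_false]; exact (hσ _).symm
    · simp only [cond_true, cond_false]
    · exact absurd (hp'.trans hp.symm) hpk
  have hne : ∀ f, M f → σ (ct f) ≠ ct f := fun f _ => (hσp _).1
  have hfar : ∀ f f', M f → M f' → ct f' ≠ ct f → ct f' ≠ σ (ct f) → ∀ n, n < g →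
      ∀ d : ℕ → (Z × Fin 3) × S, vtxB t b (d 0) = vtxB t b (ct f) →
      (∀ i < n, vtxB t b (d (i + 1)) = vtxB t b (σ (d i))) →
      vtxB t b (d n) ≠ vtxB t b (ct f') := by
    intro f f' hf hf' h1 h2 n hn d hd0 hd hdn
    have hzz : f.1 ≠ f'.1 := by
      intro hzz
      have e1 := hct f
      have e2 := hct f'
      rw [← hzz] at e2
      rcases e1 with e1 | e1 <;> rcases e2 with e2 | e2
      · exact h1 (e2.trans e1.symm)
      · exact h2 (by rw [e2, e1])
      · exact h2 (by rw [e2, e1, hσ])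
      · exact h1 (e2.trans e1.symm)
    apply hindep f.1 f'.1 hzz
    have w1 := near_of_walk (vtx := vtxB t b) (σ := σ) d 0 n (fun j _ hj => hd j (by omega))
    rw [zero_add, hd0, hdn] at w1
    have w2 := near_end (h := h f.1) (u := ct f) (hct f) n w1
    have w3 := Near.symm hσ _ w2
    have w4 := near_end (h := h f'.1) (u := ct f') (hct f') (n + 1) w3
    have w5 := Near.symm hσ _ w4
    exact Near.mono (by omega) w5
  refine ⟨Insert.ins σ M ct, Insert.ins_involutive hσ hinj hclosed, ?_, ?_, ?_, ?_, ?_, ?_, ?_, ?_⟩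
  · intro f hf
    by_cases hh : ∃ j, M j ∧ ct j = f
    · obtain ⟨j, hj, rfl⟩ := hh
      rw [Insert.ins_inl_ct hinj hj] at hf
      exact absurd hf (by simp)
    · rw [Insert.ins_inl_not hh] at hf
      exact (hσp f).1 (Sum.inl_injective hf)
  · intro j hj
    exact Insert.ins_inr_not hj
  · intro j hj
    exact ⟨ct j, Insert.ins_inr hj⟩
  · intro f j hf
    by_cases hh : ∃ j, M j ∧ ct j = f
    · obtain ⟨j', hj', rfl⟩ := hh
      rw [Insert.ins_inl_ct hinj hj'] at hf
      rw [← Sum.inr_injective hf]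
      exact hj'
    · rw [Insert.ins_inl_not hh] at hf
      exact absurd hf (by simp)
  · rintro (f | j)
    · by_cases hh : ∃ j, M j ∧ ct j = f
      · obtain ⟨j, hj, rfl⟩ := hh
        rw [Insert.ins_inl_ct hinj hj]
        exact (hctz j).symm
      · rw [Insert.ins_inl_not hh]
        exact (hσp f).2.1
    · by_cases hj : M j
      · rw [Insert.ins_inr hj]
        exact hctz j
      · rw [Insert.ins_inr_not hj]
  · rintro (f | j) hne'
    · by_cases hh : ∃ j, M j ∧ ct j = f
      · obtain ⟨j, hj, rfl⟩ := hh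
        rw [Insert.ins_inl_ct hinj hj]
        exact (hctk j hj).symm
      · rw [Insert.ins_inl_not hh]
        exact (hσp f).2.2.1
    · by_cases hj : M j
      · rw [Insert.ins_inr hj]
        exact hctk j hj
      · exact absurd (Insert.ins_inr_not hj) hne'
  · intro f f' hff
    by_cases hh : ∃ j, M j ∧ ct j = f
    · obtain ⟨j, hj, rfl⟩ := hh
      rw [Insert.ins_inl_ct hinj hj] at hff
      exact absurd hff (by simp)
    · rw [Insert.ins_inl_not hh] at hff
      rw [← Sum.inl_injective hff]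
      exact (hσp f).2.2.2
  · exact Insert.ins_noCyc (vtxB t b) g hσ hinj hne hcyc (hcyc.noClosed hσ) hfar

end one

end Crest.Agent.R199
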