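import Mathlib

/-!
Row 199, Part II: graphical small cancellation, one step of the BFS model.

`PG S` = partial labelled graph (partial action of letters `S × Bool`), `W` = walks.
`P` is a fixed partial graph (the "positions"), `Mod P m` is a level of the model.
-/

set_option autoImplicit false

open FreeGroup

namespace Crest.Agent.R199.SC

universe u

variable {S : Type}

/-- the inverse letter -/
def bar (a : S × Bool) : S × Bool := (a.1, !a.2)

@[simp] theorem bar_bar (a : S × Bool) : bar (bar a) = a := by simp [bar]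

/-- partial labelled graph: letters act as partial injections -/
structure PG (S : Type) where
  V : Type
  E : V → S × Bool → V → Prop
  det : ∀ {v a v1 v2}, E v a v1 → E v a v2 → v1 = v2
  symm : ∀ {v a v'}, E v a v' → E v' (bar a) v

namespace PG

/-- walks -/
def W (Γ : PG S) : Γ.V → List (S × Bool) → Γ.V → Prop
  | v, [], v' => v = v'
  | v, a :: w, v' => ∃ v1, Γ.E v a v1 ∧ W Γ v1 w v'

variable (Γ : PG S)

@[simp] theorem W_nil {v v' : Γ.V} : Γ.W v [] v' ↔ v = v' := Iff.rfl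

theorem W_cons {v v' : Γ.V} {a w} : Γ.W v (a :: w) v' ↔ ∃ v1, Γ.E v a v1 ∧ Γ.W v1 w v' := Iff.rfl

theorem W_append {v v' : Γ.V} {w1 w2} :
    Γ.W v (w1 ++ w2) v' ↔ ∃ v1, Γ.W v w1 v1 ∧ Γ.W v1 w2 v' := by
  induction w1 generalizing v with
  | nil => simp
  | cons a w ih =>
    simp only [List.cons_append, W_cons, ih]
    constructor
    · rintro ⟨v1, h1, v2, h2, h3⟩
      exact ⟨v2, ⟨v1, h1, h2⟩, h3⟩
    · rintro ⟨v2, ⟨v1, h1, h2⟩, h3⟩
      exact ⟨v1, h1, v2, h2, h3⟩

theorem W_single {v v' : Γ.V} {a} : Γ.W v [a] v' ↔ Γ.E v a v' := by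
  simp [W_cons]

theorem W_concat {v v' : Γ.V} {w a} : Γ.W v (w ++ [a]) v' ↔ ∃ v1, Γ.W v w v1 ∧ Γ.E v1 a v' := by
  simp [W_append, W_single]

theorem W_det {v v1 v2 : Γ.V} {w} (h1 : Γ.W v w v1) (h2 : Γ.W v w v2) : v1 = v2 := by
  induction w generalizing v with
  | nil => simp at h1 h2; rw [← h1, ← h2]
  | cons a w ih =>
    obtain ⟨x, hx, hx'⟩ := h1
    obtain ⟨y, hy, hy'⟩ := h2
    have := Γ.det hx hy
    subst this
    exact ih hx' hy'

theorem W_inv {v v' : Γ.V} {w} (h : Γ.W v w v') : Γ.W v' (invRev w) v := by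
  induction w generalizing v with
  | nil => simp at h ⊢; exact h.symm
  | cons a w ih =>
    obtain ⟨x, hx, hx'⟩ := h
    have h2 := ih hx'
    have : invRev (a :: w) = invRev w ++ [bar a] := by
      simp [invRev, bar]
    rw [this, W_concat]
    exact ⟨x, h2, Γ.symm hx⟩

theorem W_inv_iff {v v' : Γ.V} {w} : Γ.W v' (invRev w) v ↔ Γ.W v w v' := by
  constructor
  · intro h
    have := Γ.W_inv h
    rwa [invRev_invRev] at this
  · exact Γ.W_inv

theorem W_backdet {v v1 v2 : Γ.V} {w} (h1 : Γ.W v1 w v) (h2 : Γ.W v2 w v) : v1 = v2 :=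
  Γ.W_det (Γ.W_inv h1) (Γ.W_inv h2)

theorem E_backdet {v v1 v2 : Γ.V} {a} (h1 : Γ.E v1 a v) (h2 : Γ.E v2 a v) : v1 = v2 :=
  Γ.det (Γ.symm h1) (Γ.symm h2)

theorem W_step {v v' : Γ.V} {w w'} (hs : Red.Step w w') (h : Γ.W v w v') : Γ.W v w' v' := by
  cases hs with
  | @not L1 L2 x b =>
    rw [W_append] at h ⊢
    obtain ⟨v1, h1, v2, h2, v3, h3, h4⟩ := h
    refine ⟨v1, h1, ?_⟩
    have := Γ.det (Γ.symm h2) h3
    subst this
    exact h4

theorem W_red {v v' : Γ.V} {w w'} (hs : Red w w') (h : Γ.W v w v') : Γ.W v w' v' := by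
  induction hs with
  | refl => exact h
  | tail _ hs ih => exact Γ.W_step hs ih

open Classical in
theorem W_reduce {v v' : Γ.V} {w} (h : Γ.W v w v') : Γ.W v (reduce w) v' :=
  Γ.W_red reduce.red h

end PG

/-- two reduced words are equal iff equal in the free group -/
theorem eq_of_mk_eq {w w' : List (S × Bool)} (h : IsReduced w) (h' : IsReduced w')
    (he : FreeGroup.mk w = FreeGroup.mk w') : w = w' := by
  classical
  have := reduce.sound he
  rwa [h.reduce_eq, h'.reduce_eq] at this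

theorem reduce_length_le [DecidableEq S] (w : List (S × Bool)) : (reduce w).length ≤ w.length :=
  (reduce.red (L := w)).length_le

theorem invRev_isReduced {w : List (S × Bool)} (h : IsReduced w) : IsReduced (invRev w) := by
  classical
  rw [isReduced_iff_reduce_eq] at h ⊢
  rw [reduce_invRev, h]

/-- hypotheses on the positions graph -/
structure Small (P : PG S) (m : ℕ) : Prop where
  pos : 1 ≤ m
  girth : ∀ p w, IsReduced w → P.W p w p → w.length ≤ 20 * m → w = []
  uniq : ∀ w p q p' q', IsReduced w → m < w.length → P.W p w q → P.W p' w q' → p = p'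

theorem Small.mk_eq_one {P : PG S} {m : ℕ} (hP : Small P m) {p : P.V} {w}
    (h : P.W p w p) (hl : w.length ≤ 20 * m) : FreeGroup.mk w = 1 := by
  classical
  have h1 := P.W_reduce h
  have h2 := hP.girth p (reduce w) (IsReduced.of_reduce_eq reduce.idem) h1
    ((reduce_length_le w).trans hl)
  rw [← reduce.self, h2]; rfl

/-- same cell -/
def Cell (Γ P : PG S) (v : Γ.V) (p : P.V) (v' : Γ.V) (p' : P.V) : Prop :=
  ∃ t, Γ.W v t v' ∧ P.W p t p'

section Cell
variable {Γ P : PG S}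

theorem Cell.refl (v : Γ.V) (p : P.V) : Cell Γ P v p v p := ⟨[], rfl, rfl⟩

theorem Cell.symm {v : Γ.V} {p : P.V} {v' p'} (h : Cell Γ P v p v' p') : Cell Γ P v' p' v p := by
  obtain ⟨t, h1, h2⟩ := h
  exact ⟨invRev t, Γ.W_inv h1, P.W_inv h2⟩

theorem Cell.trans {v : Γ.V} {p : P.V} {v' p' v'' p''} (h : Cell Γ P v p v' p')
    (h' : Cell Γ P v' p' v'' p'') : Cell Γ P v p v'' p'' := by
  obtain ⟨t, h1, h2⟩ := h
  obtain ⟨t', h1', h2'⟩ := h'
  exact ⟨t ++ t', (Γ.W_append).2 ⟨_, h1, h1'⟩, (P.W_append).2 ⟨_, h2, h2'⟩⟩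

theorem Cell.exists_reduced {v : Γ.V} {p : P.V} {v' p'} (h : Cell Γ P v p v' p') :
    ∃ t, IsReduced t ∧ Γ.W v t v' ∧ P.W p t p' := by
  classical
  obtain ⟨t, h1, h2⟩ := h
  exact ⟨reduce t, IsReduced.of_reduce_eq reduce.idem, Γ.W_reduce h1, P.W_reduce h2⟩

theorem Cell.of_W {v : Γ.V} {p : P.V} {v' p' t} (h1 : Γ.W v t v') (h2 : P.W p t p') :
    Cell Γ P v p v' p' := ⟨t, h1, h2⟩

theorem Cell.step {v : Γ.V} {p : P.V} {v' p' a} (h1 : Γ.E v a v') (h2 : P.E p a p') :
    Cell Γ P v p v' p' := ⟨[a], (Γ.W_single).2 h1, (P.W_single).2 h2⟩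

/-- the whole component of `p` is embedded in `Γ` with `p` at `v` -/
def Filled (Γ P : PG S) (v : Γ.V) (p : P.V) : Prop :=
  ∀ w q w' q', P.W p w q → P.W p w' q' →
    ∃ y y', Γ.W v w y ∧ Γ.W v w' y' ∧ (q = q' ↔ y = y')

theorem Filled.of_cell {v : Γ.V} {p : P.V} {v' p'} (hf : Filled Γ P v p)
    (h : Cell Γ P v p v' p') : Filled Γ P v' p' := by
  obtain ⟨t, h1, h2⟩ := h
  intro w q w' q' hw hw'
  obtain ⟨y, y', hy, hy', h⟩ := hf (t ++ w) q (t ++ w') q' ((P.W_append).2 ⟨_, h2, hw⟩)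
    ((P.W_append).2 ⟨_, h2, hw'⟩)
  rw [PG.W_append] at hy hy'
  obtain ⟨z, hz, hz'⟩ := hy
  obtain ⟨z2, hz2, hz2'⟩ := hy'
  have e1 := Γ.W_det h1 hz
  have e2 := Γ.W_det h1 hz2
  subst e1 e2
  exact ⟨y, y', hz', hz2', h⟩

theorem Filled.exists_W {v : Γ.V} {p : P.V} (hf : Filled Γ P v p) {w q} (hw : P.W p w q) :
    ∃ y, Γ.W v w y := by
  obtain ⟨y, _, hy, _⟩ := hf w q w q hw hw
  exact ⟨y, hy⟩

theorem Filled.eq_iff {v : Γ.V} {p : P.V} (hf : Filled Γ P v p) {w q y w' q' y'}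
    (hw : P.W p w q) (hw' : P.W p w' q') (hy : Γ.W v w y) (hy' : Γ.W v w' y') :
    q = q' ↔ y = y' := by
  obtain ⟨z, z', hz, hz', h⟩ := hf w q w' q' hw hw'
  rw [Γ.W_det hy hz, Γ.W_det hy' hz']
  exact h

end Cell

/-- a level of the model -/
structure Mod (P : PG S) (m : ℕ) where
  Γ : PG S
  F : Γ.V → P.V → Prop
  filled : ∀ {v p}, F v p → Filled Γ P v p
  cell : ∀ {v p v' p'}, F v p → Cell Γ P v p v' p' → F v' p'
  girth : ∀ {v w}, IsReduced w → Γ.W v w v → w.length ≤ 2 * m → w = []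
  small : ∀ {v p w v' p'}, ¬ F v p → IsReduced w → Γ.W v w v' → P.W p w p' → w.length ≤ 2 * m

/-- the first letter of `u` is not readable at `b` -/
def Leaves (Γ : PG S) (b : Γ.V) (u : List (S × Bool)) : Prop :=
  ∀ a ∈ u.head?, ∀ v, ¬ Γ.E b a v

theorem exists_leaves (Γ : PG S) (b : Γ.V) (u : List (S × Bool)) :
    ∃ s u1 b1, u = s ++ u1 ∧ Γ.W b s b1 ∧ Leaves Γ b1 u1 := by
  induction u generalizing b with
  | nil => exact ⟨[], [], b, rfl, rfl, by simp [Leaves]⟩
  | cons a w ih =>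
    by_cases h : ∃ v, Γ.E b a v
    · obtain ⟨v, hv⟩ := h
      obtain ⟨s, u1, b1, h1, h2, h3⟩ := ih v
      exact ⟨a :: s, u1, b1, by simp [h1], ⟨v, hv, h2⟩, h3⟩
    · refine ⟨[], a :: w, b, rfl, rfl, ?_⟩
      intro c hc v hv
      simp at hc
      subst hc
      exact h ⟨v, hv⟩

theorem isReduced_append_of_leaves {Γ : PG S} {b b' : Γ.V} {t u : List (S × Bool)}
    (ht : IsReduced t) (hu : IsReduced u) (hw : Γ.W b t b') (hl : Leaves Γ b' u) :
    IsReduced (t ++ u) := by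
  unfold FreeGroup.IsReduced at *
  rw [List.isChain_append]
  refine ⟨ht, hu, ?_⟩
  intro x hx y hy hxy
  by_contra hne
  have hyx : y = bar x := by
    rcases x with ⟨x1, x2⟩
    rcases y with ⟨y1, y2⟩
    simp only [bar] at *
    subst hxy
    cases x2 <;> cases y2 <;> simp_all
  obtain ⟨t', rfl⟩ : ∃ t', t = t' ++ [x] := by
    rcases List.eq_nil_or_concat t with h | ⟨t', c, h⟩
    · subst h; simp at hx
    · subst h
      simp at hx
      subst hx
      exact ⟨t', by simp⟩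
  rw [PG.W_concat] at hw
  obtain ⟨v1, _, h2⟩ := hw
  exact hl y hy v1 (hyx ▸ Γ.symm h2)

/-- LEMMA U -/
theorem lemmaU {Γ P : PG S} {m : ℕ} (hP : Small P m) {b b' : Γ.V} {p p' q : P.V} {t u u'}
    (hb : Γ.W b t b') (hp : P.W p t p') (hu : P.W p u q) (hu' : P.W p' u' q)
    (rt : IsReduced t) (ru : IsReduced u) (ru' : IsReduced u')
    (hl : Leaves Γ b u) (hl' : Leaves Γ b' u')
    (hlen : t.length + u.length + u'.length ≤ 20 * m) :
    t = [] ∧ b = b' ∧ p = p' ∧ u = u' := by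
  have hr : IsReduced (t ++ u') := isReduced_append_of_leaves rt ru' hb hl'
  have hcl : P.W p ((t ++ u') ++ invRev u) p :=
    (P.W_append).2 ⟨q, (P.W_append).2 ⟨_, hp, hu'⟩, P.W_inv hu⟩
  have h1 := hP.mk_eq_one hcl (by simp [invRev_length]; omega)
  have h2 : FreeGroup.mk (t ++ u') = FreeGroup.mk u := by
    rw [← FreeGroup.mul_mk, ← FreeGroup.inv_mk] at h1
    exact mul_inv_eq_one.1 h1
  have h3 := eq_of_mk_eq hr ru h2
  rcases t with _ | ⟨a, t⟩
  · simp at hb hp h3
    subst hb hp h3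
    exact ⟨rfl, rfl, rfl, rfl⟩
  · exfalso
    obtain ⟨v1, hv1, _⟩ := hb
    exact hl a (by simp [← h3]) v1 hv1

/-! ### The next level -/

section Step

variable {P : PG S} {m : ℕ} (hP : Small P m) (M : Mod P m)

/-- a point `q` of the cell through `(b, p)` -/
structure Z where
  b : M.Γ.V
  p : P.V
  q : P.V
  reach : ∃ w, P.W p w q

variable {M}

def Rel (z z' : Z M) : Prop :=
  ∃ b0 p0 p0' u, Cell M.Γ P z.b z.p b0 p0 ∧ Cell M.Γ P z'.b z'.p b0 p0' ∧
    P.W p0 u z.q ∧ P.W p0' u z'.q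

theorem Rel.symm {z z' : Z M} (h : Rel z z') : Rel z' z := by
  obtain ⟨b0, p0, p0', u, h1, h2, h3, h4⟩ := h
  exact ⟨b0, p0', p0, u, h2, h1, h4, h3⟩

theorem Rel.refl (z : Z M) : Rel z z := by
  obtain ⟨w, hw⟩ := z.reach
  exact ⟨z.b, z.p, z.p, w, Cell.refl _ _, Cell.refl _ _, hw, hw⟩

/-- the point `z` is the vertex `y` of the old level -/
def At (z : Z M) (y : M.Γ.V) : Prop := Cell M.Γ P z.b z.p y z.q

theorem At.of_F {z : Z M} (h : M.F z.b z.p) : ∃ y, At z y := by
  obtain ⟨w, hw⟩ := z.reach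
  obtain ⟨y, hy⟩ := (M.filled h).exists_W hw
  exact ⟨y, w, hy, hw⟩

/-- common reduced words inside an unfilled cell -/
theorem cell_short {v v' : M.Γ.V} {p p' : P.V} (hF : ¬ M.F v p) (h : Cell M.Γ P v p v' p') :
    ∃ t, IsReduced t ∧ M.Γ.W v t v' ∧ P.W p t p' ∧ t.length ≤ 2 * m := by
  obtain ⟨t, ht, h1, h2⟩ := h.exists_reduced
  exact ⟨t, ht, h1, h2, M.small hF ht h1 h2⟩

theorem not_F_of_cell {v v' : M.Γ.V} {p p' : P.V} (hF : ¬ M.F v p) (h : Cell M.Γ P v p v' p') :
    ¬ M.F v' p' := fun h' => hF (M.cell h' h.symm)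

include hP in
theorem Rel.at {z z' : Z M} (h : Rel z z') {y : M.Γ.V} (hz : At z y) : At z' y := by
  classical
  obtain ⟨b0, p0, p0', u, h1, h2, h3, h4⟩ := h
  have h5 : Cell M.Γ P b0 p0 y z.q := h1.symm.trans hz
  by_cases hpp : p0 = p0'
  · subst hpp
    have := P.W_det h3 h4
    unfold At
    rw [← this]
    exact h2.trans h5
  by_cases hF : M.F z.b z.p
  · have hF0 := M.cell hF h1
    obtain ⟨y0, hy0⟩ := (M.filled hF0).exists_W h3
    obtain ⟨t, ht, ht'⟩ := h5
    have := ((M.filled hF0).eq_iff h3 ht' hy0 ht).1 rfl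
    subst this
    exact h2.trans ⟨u, hy0, h4⟩
  · have hF0 := not_F_of_cell hF h1
    obtain ⟨t, rt, ht, ht', hlt⟩ := cell_short hF0 h5
    have h3' := P.W_reduce h3
    have h4' := P.W_reduce h4
    have hred : IsReduced (reduce u) := IsReduced.of_reduce_eq reduce.idem
    have hle : (reduce u).length ≤ m := by
      by_contra hcon
      exact hpp (hP.uniq _ _ _ _ _ hred (not_le.1 hcon) h3' h4')
    have hcl : P.W p0 (t ++ invRev (reduce u)) p0 := (P.W_append).2 ⟨_, ht', P.W_inv h3'⟩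
    have h1' := hP.mk_eq_one hcl (by simp [invRev_length]; omega)
    rw [← FreeGroup.mul_mk, ← FreeGroup.inv_mk, mul_inv_eq_one] at h1'
    have h6 := eq_of_mk_eq rt hred h1'
    exact h2.trans ⟨reduce u, h6 ▸ ht, h4'⟩

/-- classification of the relation at new points -/
theorem Rel.cases (hP : Small P m) {z z' : Z M} (h : Rel z z') (hz : ¬ ∃ y, At z y) :
    (Cell M.Γ P z.b z.p z'.b z'.p ∧ z.q = z'.q) ∨
    ∃ b0 p0 p0' u, Cell M.Γ P z.b z.p b0 p0 ∧ Cell M.Γ P z'.b z'.p b0 p0' ∧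
      P.W p0 u z.q ∧ P.W p0' u z'.q ∧ IsReduced u ∧ Leaves M.Γ b0 u ∧ u.length ≤ m ∧ u ≠ [] := by
  classical
  obtain ⟨b0, p0, p0', u, h1, h2, h3, h4⟩ := h
  by_cases hpp : p0 = p0'
  · subst hpp
    exact Or.inl ⟨h1.trans h2.symm, P.W_det h3 h4⟩
  right
  have h3' := P.W_reduce h3
  have h4' := P.W_reduce h4
  have hred : IsReduced (reduce u) := IsReduced.of_reduce_eq reduce.idem
  have hle : (reduce u).length ≤ m := by
    by_contra hcon
    exact hpp (hP.uniq _ _ _ _ _ hred (not_le.1 hcon) h3' h4')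
  obtain ⟨s, u1, b1, hu, hs, hl⟩ := exists_leaves M.Γ b0 (reduce u)
  rw [hu, PG.W_append] at h3' h4'
  obtain ⟨p1, h5, h6⟩ := h3'
  obtain ⟨p1', h5', h6'⟩ := h4'
  refine ⟨b1, p1, p1', u1, h1.trans ⟨s, hs, h5⟩, h2.trans ⟨s, hs, h5'⟩, h6, h6', ?_, hl, ?_, ?_⟩
  · exact hred.infix ⟨s, [], by simp [hu]⟩
  · rw [hu] at hle; simp at hle; omega
  · rintro rfl
    refine hz ⟨b1, ?_⟩
    simp at h6
    subst h6
    exact h1.trans ⟨s, hs, h5⟩

/-- LEMMA U for an unfilled cell -/
theorem lemmaU' (hP : Small P m) {b b' : M.Γ.V} {p p' q : P.V} {u u'} (hF : ¬ M.F b p)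
    (hc : Cell M.Γ P b p b' p') (hu : P.W p u q) (hu' : P.W p' u' q)
    (ru : IsReduced u) (ru' : IsReduced u')
    (hl : Leaves M.Γ b u) (hl' : Leaves M.Γ b' u')
    (hlen : u.length + u'.length ≤ 18 * m) :
    b = b' ∧ p = p' ∧ u = u' := by
  obtain ⟨t, rt, ht, ht', hlt⟩ := cell_short hF hc
  exact (lemmaU hP ht ht' hu hu' rt ru ru' hl hl' (by omega)).2

theorem Rel.trans (hP : Small P m) {z1 z2 z3 : Z M} (h : Rel z1 z2) (h' : Rel z2 z3) :
    Rel z1 z3 := by
  by_cases hz : ∃ y, At z2 y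
  · obtain ⟨y, hy⟩ := hz
    exact ⟨y, z1.q, z3.q, [], h.symm.at hP hy, h'.at hP hy, rfl, rfl⟩
  · have hF : ¬ M.F z2.b z2.p := fun hF => hz (At.of_F hF)
    rcases h.symm.cases hP hz with ⟨h1, h2⟩ | ⟨b0, p0, p0', u, h1, h2, h3, h4, h5, h6, h7, _⟩
    · obtain ⟨b0, p0, p0', u, k1, k2, k3, k4⟩ := h'
      exact ⟨b0, p0, p0', u, h1.symm.trans k1, k2, h2 ▸ k3, k4⟩
    · rcases h'.cases hP hz with ⟨k1, k2⟩ | ⟨c0, r0, r0', v, k1, k2, k3, k4, k5, k6, k7, _⟩
      · exact ⟨b0, p0', p0, u, h2, k1.symm.trans h1, h4, k2 ▸ h3⟩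
      · obtain ⟨e1, e2, e3⟩ := lemmaU' hP (not_F_of_cell hF h1) (h1.symm.trans k1) h3 k3 h5 k5
          h6 k6 (by omega)
        subst e1 e2 e3
        exact ⟨b0, p0', r0', u, h2, k2, h4, k4⟩

/-- same cell and same point -/
theorem Rel.of_cell {z z' : Z M} (h : Cell M.Γ P z.b z.p z'.b z'.p) (hq : z.q = z'.q) :
    Rel z z' := by
  obtain ⟨w, hw⟩ := z'.reach
  exact ⟨z'.b, z'.p, z'.p, w, h, Cell.refl _ _, hq ▸ hw, hw⟩

/-- the old vertex `y` seen in the cell through `(y,p)` -/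
def zpt (M : Mod P m) (y : M.Γ.V) (p : P.V) : Z M := ⟨y, p, p, [], rfl⟩

theorem zpt_at (y : M.Γ.V) (p : P.V) : At (zpt M y p) y := Cell.refl _ _

theorem rel_of_at {z z' : Z M} {y : M.Γ.V} (h : At z y) (h' : At z' y) : Rel z z' :=
  ⟨y, z.q, z'.q, [], h, h', rfl, rfl⟩

/-- cells inject on unfilled or filled positions -/
theorem cell_pos_unique (hP : Small P m) {b : M.Γ.V} {p p' : P.V} (h : Cell M.Γ P b p b p') :
    p = p' := by
  by_cases hF : M.F b p
  · obtain ⟨t, h1, h2⟩ := h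
    exact (((M.filled hF).eq_iff (w := []) (q := p) (y := b) rfl h2 rfl h1).2 rfl)
  · obtain ⟨t, rt, ht, ht', hlt⟩ := cell_short hF h
    have := M.girth rt ht hlt
    subst this
    exact ht'

theorem cell_vert_unique (hP : Small P m) {b b' : M.Γ.V} {p : P.V} (h : Cell M.Γ P b p b' p) :
    b = b' := by
  by_cases hF : M.F b p
  · obtain ⟨t, h1, h2⟩ := h
    exact (((M.filled hF).eq_iff (w := []) (q := p) (y := b) rfl h2 rfl h1).1 rfl)
  · obtain ⟨t, rt, ht, ht', hlt⟩ := cell_short hF h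
    have := hP.girth _ _ rt ht' (by omega)
    subst this
    exact ht

theorem At.unique (hP : Small P m) {z : Z M} {y y' : M.Γ.V} (h : At z y) (h' : At z y') :
    y = y' := cell_vert_unique hP (h.symm.trans h')

/-- injectivity of a cell in the next level -/
theorem rel_same (hP : Small P m) {z z' : Z M} (h : Rel z z')
    (hc : Cell M.Γ P z.b z.p z'.b z'.p) : z.q = z'.q := by
  obtain ⟨b0, p0, p0', u, h1, h2, h3, h4⟩ := h
  have := cell_pos_unique hP ((h1.symm.trans hc).trans h2)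
  subst this
  exact P.W_det h3 h4

def stp (hP : Small P m) (M : Mod P m) : Setoid (Z M) where
  r := Rel
  iseqv := ⟨Rel.refl, Rel.symm, fun h h' => h.trans hP h'⟩

/-- vertices of the next level -/
def NV (hP : Small P m) (M : Mod P m) : Type := Quotient (stp hP M)

def cls (hP : Small P m) (z : Z M) : NV hP M := Quotient.mk (stp hP M) z

theorem cls_eq {hP : Small P m} {z z' : Z M} : cls hP z = cls hP z' ↔ Rel z z' :=
  ⟨fun h => Quotient.exact h, fun h => Quotient.sound h⟩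

theorem exists_cls {hP : Small P m} (x : NV hP M) : ∃ z : Z M, x = cls hP z := by
  obtain ⟨z, hz⟩ := Quotient.exists_rep x
  exact ⟨z, hz.symm⟩

/-- the point of the cell `(b,p)` at position `q` -/
def pt (M : Mod P m) (b : M.Γ.V) (p q : P.V) (h : ∃ w, P.W p w q) : Z M := ⟨b, p, q, h⟩

/-- cell edges -/
def NEc (hP : Small P m) (M : Mod P m) (x : NV hP M) (a : S × Bool) (x' : NV hP M) : Prop :=
  ∃ z z' : Z M, x = cls hP z ∧ x' = cls hP z' ∧ Cell M.Γ P z.b z.p z'.b z'.p ∧ P.E z.q a z'.q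

/-- old edges -/
def NEo (hP : Small P m) (M : Mod P m) (x : NV hP M) (a : S × Bool) (x' : NV hP M) : Prop :=
  ∃ (z z' : Z M) (y y' : M.Γ.V), x = cls hP z ∧ x' = cls hP z' ∧ At z y ∧ At z' y' ∧ M.Γ.E y a y'

theorem NEc.det {hP : Small P m} {x x1 x2 : NV hP M} {a} (h1 : NEc hP M x a x1)
    (h2 : NEc hP M x a x2) : x1 = x2 := by
  obtain ⟨z, z', e1, e2, h3, h4⟩ := h1
  obtain ⟨w, w', e1', e2', h3', h4'⟩ := h2
  subst e1 e2 e2'
  obtain ⟨b0, p0, p0', u, k1, k2, k3, k4⟩ := cls_eq.1 e1'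
  exact cls_eq.2 ⟨b0, p0, p0', u ++ [a], h3.symm.trans k1, h3'.symm.trans k2,
    (P.W_concat).2 ⟨_, k3, h4⟩, (P.W_concat).2 ⟨_, k4, h4'⟩⟩

theorem NEo.det {hP : Small P m} {x x1 x2 : NV hP M} {a} (h1 : NEo hP M x a x1)
    (h2 : NEo hP M x a x2) : x1 = x2 := by
  obtain ⟨z, z', y, y', e1, e2, h3, h4, h5⟩ := h1
  obtain ⟨w, w', v, v', e1', e2', h3', h4', h5'⟩ := h2
  subst e1 e2 e2'
  have h6 := (cls_eq.1 e1').at hP h3
  have h7 := At.unique hP h6 h3'
  subst h7
  have h8 := M.Γ.det h5 h5'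
  subst h8
  exact cls_eq.2 (rel_of_at h4 h4')

theorem NEco.det {hP : Small P m} {x x1 x2 : NV hP M} {a} (h1 : NEc hP M x a x1)
    (h2 : NEo hP M x a x2) : x1 = x2 := by
  obtain ⟨z, z', e1, e2, h3, h4⟩ := h1
  obtain ⟨w, w', v, v', e1', e2', h3', h4', h5'⟩ := h2
  subst e1 e2 e2'
  have h6 := (cls_eq.1 e1').symm.at hP h3'
  -- (v, z.q) in the cell of z, step
  have h7 : Cell M.Γ P z'.b z'.p v' z'.q := (h3.symm.trans h6).trans (Cell.step h5' h4)
  exact cls_eq.2 (rel_of_at h7 h4')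

theorem NEc.symm {hP : Small P m} {x x' : NV hP M} {a} (h : NEc hP M x a x') :
    NEc hP M x' (bar a) x := by
  obtain ⟨z, z', e1, e2, h3, h4⟩ := h
  exact ⟨z', z, e2, e1, h3.symm, P.symm h4⟩

theorem NEo.symm {hP : Small P m} {x x' : NV hP M} {a} (h : NEo hP M x a x') :
    NEo hP M x' (bar a) x := by
  obtain ⟨z, z', y, y', e1, e2, h3, h4, h5⟩ := h
  exact ⟨z', z, y', y, e2, e1, h4, h3, M.Γ.symm h5⟩

/-- the graph of the next level -/
abbrev NG (hP : Small P m) (M : Mod P m) : PG S where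
  V := NV hP M
  E := fun x a x' => NEc hP M x a x' ∨ NEo hP M x a x'
  det := by
    rintro v a v1 v2 (h1 | h1) (h2 | h2)
    · exact h1.det h2
    · exact NEco.det h1 h2
    · exact (NEco.det h2 h1).symm
    · exact h1.det h2
  symm := by
    rintro v a v' (h | h)
    · exact Or.inl h.symm
    · exact Or.inr h.symm

/-! walks in the next level -/

/-- move the point inside its cell -/
def Z.mv (z : Z M) {w : List (S × Bool)} {q' : P.V} (h : P.W z.q w q') : Z M :=
  ⟨z.b, z.p, q', by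
    obtain ⟨w0, h0⟩ := z.reach
    exact ⟨w0 ++ w, (P.W_append).2 ⟨_, h0, h⟩⟩⟩

/-- change the base position inside the cell -/
def Z.rb (z : Z M) {b : M.Γ.V} {p : P.V} (h : Cell M.Γ P z.b z.p b p) : Z M :=
  ⟨b, p, z.q, by
    obtain ⟨w0, h0⟩ := z.reach
    obtain ⟨t, _, h2⟩ := h
    exact ⟨invRev t ++ w0, (P.W_append).2 ⟨_, P.W_inv h2, h0⟩⟩⟩

theorem cls_rb {hP : Small P m} {z : Z M} {b : M.Γ.V} {p : P.V} (h : Cell M.Γ P z.b z.p b p) :
    cls hP (z.rb h) = cls hP z :=
  cls_eq.2 (Rel.of_cell (z := z.rb h) (z' := z) h.symm rfl)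

theorem NW_cell {hP : Small P m} {z z' : Z M} {w} (hc : Cell M.Γ P z.b z.p z'.b z'.p)
    (h : P.W z.q w z'.q) : (NG hP M).W (cls hP z) w (cls hP z') := by
  induction w generalizing z with
  | nil =>
    exact cls_eq.2 (Rel.of_cell hc h)
  | cons a w ih =>
    obtain ⟨q1, h1, h2⟩ := h
    refine ⟨cls hP (z.mv (w := [a]) (q' := q1) ((P.W_single).2 h1)), Or.inl ?_, ?_⟩
    · exact ⟨z, _, rfl, rfl, Cell.refl _ _, h1⟩
    · exact ih (z := z.mv (w := [a]) (q' := q1) ((P.W_single).2 h1)) hc h2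

/-- filled positions of the next level -/
def NF (hP : Small P m) (M : Mod P m) (x : NV hP M) (q : P.V) : Prop :=
  ∃ z : Z M, x = cls hP z ∧ z.q = q

theorem NF.step {hP : Small P m} {x x' : NV hP M} {q q' : P.V} {a} (h : NF hP M x q)
    (h1 : (NG hP M).E x a x') (h2 : P.E q a q') : NF hP M x' q' := by
  obtain ⟨z, rfl, rfl⟩ := h
  have h3 : (NG hP M).E (cls hP z) a (cls hP (z.mv (w := [a]) (q' := q') ((P.W_single).2 h2))) :=
    Or.inl ⟨z, _, rfl, rfl, Cell.refl _ _, h2⟩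
  exact ⟨_, (NG hP M).det h1 h3, rfl⟩

theorem NF.cell {hP : Small P m} {x x' : NV hP M} {q q' : P.V} (h : NF hP M x q)
    (hc : Cell (NG hP M) P x q x' q') : NF hP M x' q' := by
  obtain ⟨t, h1, h2⟩ := hc
  induction t generalizing x q with
  | nil =>
    simp only [PG.W_nil] at h1 h2
    subst h1 h2
    exact h
  | cons a t ih =>
    obtain ⟨x1, h3, h4⟩ := h1
    obtain ⟨q1, h5, h6⟩ := h2
    exact ih (h.step h3 h5) h4 h6

theorem NF.filled {hP : Small P m} {x : NV hP M} {q : P.V} (h : NF hP M x q) :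
    Filled (NG hP M) P x q := by
  obtain ⟨z, rfl, rfl⟩ := h
  intro w q w' q' h1 h2
  refine ⟨cls hP (z.mv h1), cls hP (z.mv h2), NW_cell (z' := z.mv h1) (Cell.refl _ _) h1,
    NW_cell (z' := z.mv h2) (Cell.refl _ _) h2, ?_, ?_⟩
  · intro h3
    exact cls_eq.2 (Rel.of_cell (z := z.mv h1) (z' := z.mv h2) (Cell.refl _ _) h3)
  · intro h3
    exact rel_same hP (z := z.mv h1) (z' := z.mv h2) (cls_eq.1 h3) (Cell.refl _ _)

/-- `x` is the old vertex `y` -/
def Old (hP : Small P m) (M : Mod P m) (x : NV hP M) (y : M.Γ.V) : Prop :=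
  ∃ z : Z M, x = cls hP z ∧ At z y

theorem Old.of_eq {hP : Small P m} {z : Z M} {y : M.Γ.V} (h : Old hP M (cls hP z) y) :
    At z y := by
  obtain ⟨z', h1, h2⟩ := h
  exact (cls_eq.1 h1).symm.at hP h2

theorem Old.unique {hP : Small P m} {x : NV hP M} {y y' : M.Γ.V} (h : Old hP M x y)
    (h' : Old hP M x y') : y = y' := by
  obtain ⟨z, rfl, h2⟩ := h
  exact At.unique hP h2 h'.of_eq

theorem Old.inj {hP : Small P m} {x x' : NV hP M} {y : M.Γ.V} (h : Old hP M x y)
    (h' : Old hP M x' y) : x = x' := by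
  obtain ⟨z, rfl, h2⟩ := h
  obtain ⟨z', rfl, h2'⟩ := h'
  exact cls_eq.2 (rel_of_at h2 h2')

/-- new vertices -/
def Out (hP : Small P m) (M : Mod P m) (x : NV hP M) : Prop := ¬ ∃ y, Old hP M x y

theorem Out.not_at {hP : Small P m} {z : Z M} (h : Out hP M (cls hP z)) : ¬ ∃ y, At z y :=
  fun ⟨y, hy⟩ => h ⟨y, z, rfl, hy⟩

theorem Out.not_F {hP : Small P m} {z : Z M} (h : Out hP M (cls hP z)) : ¬ M.F z.b z.p :=
  fun hF => h.not_at (At.of_F hF)

theorem NF.of_old {hP : Small P m} {x : NV hP M} {y : M.Γ.V} (h : Old hP M x y) (q : P.V) :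
    NF hP M x q := by
  refine ⟨zpt M y q, ?_, rfl⟩
  exact h.inj ⟨_, rfl, zpt_at y q⟩

/-- edges between old vertices are old -/
theorem old_edge {hP : Small P m} {x x' : NV hP M} {y y' : M.Γ.V} {a} (h : Old hP M x y)
    (h' : Old hP M x' y') (he : (NG hP M).E x a x') : M.Γ.E y a y' := by
  rcases he with ⟨z, z', rfl, rfl, h3, h4⟩ | ⟨z, z', v, v', rfl, rfl, h3, h4, h5⟩
  · have k1 := h.of_eq
    have k2 := h'.of_eq
    have k3 : Cell M.Γ P y z.q y' z'.q := (k1.symm.trans h3).trans k2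
    have h4' : P.W z.q [a] z'.q := (P.W_single).2 h4
    by_cases hF : M.F y z.q
    · obtain ⟨t, ht, ht'⟩ := k3
      obtain ⟨y2, hy2⟩ := (M.filled hF).exists_W h4'
      have := ((M.filled hF).eq_iff ht' h4' ht hy2).1 rfl
      subst this
      exact (M.Γ.W_single).1 hy2
    · obtain ⟨t, rt, ht, ht', hlt⟩ := cell_short hF k3
      have hcl : P.W z.q (t ++ invRev [a]) z.q := (P.W_append).2 ⟨_, ht', P.W_inv h4'⟩
      have hpos := hP.pos
      have h1' := hP.mk_eq_one hcl (by simp [invRev_length]; omega)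
      rw [← FreeGroup.mul_mk, ← FreeGroup.inv_mk, mul_inv_eq_one] at h1'
      have h6 := eq_of_mk_eq rt IsReduced.singleton h1'
      subst h6
      exact (M.Γ.W_single).1 ht
  · have e1 := h.unique ⟨z, rfl, h3⟩
    have e2 := h'.unique ⟨z', rfl, h4⟩
    subst e1 e2
    exact h5

/-- edges at new vertices are cell edges -/
theorem out_edge {hP : Small P m} {x x' : NV hP M} {a} (h : Out hP M x ∨ Out hP M x')
    (he : (NG hP M).E x a x') : NEc hP M x a x' := by
  rcases he with he | ⟨z, z', v, v', rfl, rfl, h3, h4, h5⟩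
  · exact he
  · exfalso
    rcases h with h | h
    · exact h ⟨v, z, rfl, h3⟩
    · exact h ⟨v', z', rfl, h4⟩

/-- the point `b·u` in the star of `b` -/
def StarPt (hP : Small P m) (M : Mod P m) (b : M.Γ.V) (u : List (S × Bool)) (x : NV hP M) : Prop :=
  ∃ (p q : P.V) (h : P.W p u q), x = cls hP ⟨b, p, q, ⟨u, h⟩⟩

theorem star_unique {hP : Small P m} {b b' : M.Γ.V} {u u'} {x : NV hP M} (hx : Out hP M x)
    (h : StarPt hP M b u x) (h' : StarPt hP M b' u' x) (ru : IsReduced u) (ru' : IsReduced u')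
    (hl : Leaves M.Γ b u) (hl' : Leaves M.Γ b' u') (hlen : u.length ≤ 9 * m)
    (hlen' : u'.length ≤ 9 * m) : b = b' ∧ u = u' := by
  obtain ⟨p, q, hw, rfl⟩ := h
  obtain ⟨p', q', hw', he⟩ := h'
  have hF : ¬ M.F b p := hx.not_F
  have hF' : ¬ M.F b' p' := by rw [he] at hx; exact hx.not_F
  rcases (cls_eq.1 he).cases hP hx.not_at with ⟨h1, h2⟩ | ⟨b0, p0, p0', u0, h1, h2, h3, h4, h5, h6, h7, _⟩
  · simp only at h1 h2
    subst h2
    obtain ⟨e1, _, e3⟩ := lemmaU' hP hF h1 hw hw' ru ru' hl hl' (by omega)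
    exact ⟨e1, e3⟩
  · simp only at h1 h2 h3 h4
    obtain ⟨e1, _, e3⟩ := lemmaU' hP hF h1 hw h3 ru h5 hl h6 (by omega)
    obtain ⟨e1', _, e3'⟩ := lemmaU' hP hF' h2 hw' h4 ru' h5 hl' h6 (by omega)
    subst e1 e1' e3 e3'
    exact ⟨rfl, rfl⟩

open Classical in
/-- reduction of `u ++ [a]` -/
theorem reduce_concat_cases {u : List (S × Bool)} (ru : IsReduced u) (a : S × Bool) :
    reduce (u ++ [a]) = u ++ [a] ∨ (∃ u', u = u' ++ [bar a] ∧ reduce (u ++ [a]) = u') := by
  rcases List.eq_nil_or_concat u with h | ⟨u', c, h⟩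
  · subst h
    left
    exact (IsReduced.singleton (a := a)).reduce_eq
  · rw [List.concat_eq_append] at h
    subst h
    by_cases hca : c = bar a
    · right
      subst hca
      refine ⟨u', rfl, ?_⟩
      have ru' : IsReduced u' := ru.infix ⟨[], [bar a], by simp⟩
      have h1 : Red.Step ((u' ++ [bar a]) ++ [a]) u' := by
        have := @Red.Step.not S u' [] a.1 (!a.2)
        simpa [bar] using this
      rw [reduce.Step.eq h1, ru'.reduce_eq]
    · left
      refine IsReduced.reduce_eq ?_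
      unfold FreeGroup.IsReduced at *
      rw [List.isChain_append]
      refine ⟨ru, List.isChain_singleton _, ?_⟩
      intro x hx y hy hxy
      simp at hx hy
      subst hx hy
      by_contra hne
      apply hca
      rcases c with ⟨c1, c2⟩
      rcases a with ⟨a1, a2⟩
      simp only [bar] at *
      subst hxy
      cases c2 <;> cases a2 <;> simp_all

open Classical in
theorem star_step {hP : Small P m} {b : M.Γ.V} {u} {x x' : NV hP M} {a} (hx : Out hP M x)
    (hx' : Out hP M x') (h : StarPt hP M b u x) (ru : IsReduced u) (hl : Leaves M.Γ b u)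
    (hlen : u.length ≤ 9 * m) (he : (NG hP M).E x a x') :
    StarPt hP M b (reduce (u ++ [a])) x' ∧ Leaves M.Γ b (reduce (u ++ [a])) := by
  obtain ⟨z, z', e1, e2, h3, h4⟩ := out_edge (Or.inl hx) he
  obtain ⟨p, q, hw, e0⟩ := h
  -- first: there is a position `p'` at `b` reading `u ++ [a]`
  have key : ∃ p' q' , P.W p' u z.q ∧ ∃ hc : Cell M.Γ P z.b z.p b p', q' = z'.q := by
    have hr : Rel ⟨b, p, q, ⟨u, hw⟩⟩ z := (cls_eq (hP := hP)).1 (e0.symm.trans e1)
    have hx0 : Out hP M (cls hP ⟨b, p, q, ⟨u, hw⟩⟩) := e0 ▸ hx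
    rcases hr.cases hP hx0.not_at with ⟨h1, h2⟩ | ⟨b0, p0, p0', u0, h1, h2, h3', h4', h5, h6, h7, _⟩
    · simp only at h1 h2
      exact ⟨p, z'.q, h2 ▸ hw, h1.symm, rfl⟩
    · simp only at h1 h3'
      obtain ⟨e5, e6, e7⟩ := lemmaU' hP (M := M) hx0.not_F h1 hw h3' ru h5 hl h6
        (by omega)
      subst e5 e6 e7
      exact ⟨p0', z'.q, h4', h2, rfl⟩
  obtain ⟨p', _, hp', hc, rfl⟩ := key
  have hwa : P.W p' (u ++ [a]) z'.q := (P.W_concat).2 ⟨_, hp', h4⟩
  have hwr := P.W_reduce hwa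
  have hxe : x' = cls hP ⟨b, p', z'.q, ⟨_, hwr⟩⟩ := by
    rw [e2]
    exact cls_eq.2 (Rel.of_cell (z := z') (h3.symm.trans hc) rfl)
  refine ⟨⟨p', z'.q, hwr, hxe⟩, ?_⟩
  -- the reduced word is non-empty
  have hne : reduce (u ++ [a]) ≠ [] := by
    intro h0
    rw [h0] at hwr
    simp at hwr
    subst hwr
    apply hx'
    exact ⟨b, _, hxe, Cell.refl _ _⟩
  rcases reduce_concat_cases ru a with h5 | ⟨u', h5, h6⟩
  · rw [h5]
    rcases u with _ | ⟨c, u⟩
    · exfalso
      simp at hw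
      subst hw
      exact hx ⟨b, _, e0, Cell.refl _ _⟩
    · intro c' hc' v hv
      exact hl c' (by simpa using hc') v hv
  · rw [h6] at hne ⊢
    intro c hc' v hv
    refine hl c ?_ v hv
    rw [h5]
    rcases u' with _ | ⟨c', u'⟩
    · exact absurd rfl hne
    · simpa using hc'

/-- all vertices of the walk are new -/
def OutW (hP : Small P m) (M : Mod P m) (x : NV hP M) (w : List (S × Bool)) : Prop :=
  ∀ w1 w2 x1, w = w1 ++ w2 → (NG hP M).W x w1 x1 → Out hP M x1

theorem OutW.left {hP : Small P m} {x : NV hP M} {w1 w2} (h : OutW hP M x (w1 ++ w2)) :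
    OutW hP M x w1 := by
  intro v1 v2 x1 hv hw
  exact h v1 (v2 ++ w2) x1 (by rw [hv, List.append_assoc]) hw

theorem OutW.start {hP : Small P m} {x : NV hP M} {w} (h : OutW hP M x w) : Out hP M x :=
  h [] w x rfl rfl

theorem OutW.end_ {hP : Small P m} {x y : NV hP M} {w} (h : OutW hP M x w)
    (hw : (NG hP M).W x w y) : Out hP M y :=
  h w [] y (by simp) hw

theorem OutW.inv {hP : Small P m} {x y : NV hP M} {w} (h : OutW hP M x w)
    (hw : (NG hP M).W x w y) : OutW hP M y (invRev w) := by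
  intro w1 w2 x1 he h1
  have e : w = invRev w2 ++ invRev w1 := by
    rw [← invRev_append, ← he, invRev_invRev]
  rw [e, PG.W_append] at hw
  obtain ⟨x2, h2, h3⟩ := hw
  have h4 : (NG hP M).W x1 (invRev w1) y := (NG hP M).W_inv h1
  have : x1 = x2 := (NG hP M).W_backdet h4 h3
  subst this
  exact h _ _ _ e h2

theorem OutW.right {hP : Small P m} {x y : NV hP M} {w1 w2} (h : OutW hP M x (w1 ++ w2))
    (hw : (NG hP M).W x w1 y) : OutW hP M y w2 := by
  intro v1 v2 x1 hv h1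
  exact h (w1 ++ v1) v2 x1 (by rw [hv, List.append_assoc]) ((PG.W_append _).2 ⟨_, hw, h1⟩)

theorem OutW.append {hP : Small P m} {x y : NV hP M} {w1 w2} (h : OutW hP M x w1)
    (hw : (NG hP M).W x w1 y) (h2 : OutW hP M y w2) : OutW hP M x (w1 ++ w2) := by
  intro v1 v2 x1 hv h1
  rcases List.append_eq_append_iff.1 hv with ⟨c, hc, hc'⟩ | ⟨c, hc, hc'⟩
  · -- v1 = w1 ++ c, w2 = c ++ v2
    rw [hc, PG.W_append] at h1
    obtain ⟨y', h3, h4⟩ := h1
    have := (NG hP M).W_det hw h3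
    subst this
    exact h2 c v2 x1 hc' h4
  · exact h v1 c x1 hc h1

/-- subwalks after reduction -/
theorem OutW.step {hP : Small P m} {x : NV hP M} {w w'} (h : OutW hP M x w)
    (hs : Red.Step w w') {y} (hw : (NG hP M).W x w y) : OutW hP M x w' := by
  cases hs with
  | @not L1 L2 c b =>
    rw [PG.W_append] at hw
    obtain ⟨x1, h1, x2, h2, x3, h3, h4⟩ := hw
    have e := (NG hP M).det ((NG hP M).symm h2) h3
    subst e
    have k1 : OutW hP M x L1 := h.left
    refine k1.append h1 ?_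
    have k2 : OutW hP M x ((L1 ++ [(c, b), (c, !b)]) ++ L2) := by simpa using h
    refine k2.right ?_
    rw [PG.W_append]
    exact ⟨x1, h1, x2, h2, x1, h3, rfl⟩

theorem OutW.red {hP : Small P m} {x : NV hP M} {w w'} (h : OutW hP M x w)
    (hs : Red w w') {y} (hw : (NG hP M).W x w y) : OutW hP M x w' := by
  induction hs with
  | refl => exact h
  | tail h1 hs ih => exact ih.step hs ((NG hP M).W_red h1 hw)

open Classical in
/-- LEMMA L -/
theorem star_walk {hP : Small P m} {b : M.Γ.V} {u} {x y : NV hP M} {w} (hx : OutW hP M x w)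
    (hw : (NG hP M).W x w y) (h : StarPt hP M b u x) (ru : IsReduced u) (hl : Leaves M.Γ b u)
    (hlen : u.length + w.length ≤ 9 * m) :
    StarPt hP M b (reduce (u ++ w)) y ∧ Leaves M.Γ b (reduce (u ++ w)) := by
  induction w using List.reverseRecOn generalizing y with
  | nil =>
    simp only [PG.W_nil] at hw
    subst hw
    simp only [List.append_nil]
    rw [ru.reduce_eq]
    exact ⟨h, hl⟩
  | append_singleton w a ih =>
    rw [PG.W_concat] at hw
    obtain ⟨y1, h1, h2⟩ := hw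
    simp only [List.length_append, List.length_singleton] at hlen
    obtain ⟨h3, h4⟩ := ih hx.left h1 (by omega)
    have e : reduce (u ++ (w ++ [a])) = reduce (reduce (u ++ w) ++ [a]) := by
      rw [← List.append_assoc]
      conv_lhs => rw [← reduce_append_reduce_reduce]
      rw [reduce_singleton]
    rw [e]
    refine star_step (hx.left.end_ h1) (hx.end_ ((PG.W_concat _).2 ⟨y1, h1, h2⟩)) h3
      (IsReduced.of_reduce_eq reduce.idem) h4 ?_ h2
    have := reduce_length_le (u ++ w)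
    simp only [List.length_append] at this
    omega

open Classical in
/-- LEMMA L1 -/
theorem cell_or_star {hP : Small P m} {z : Z M} {y : NV hP M} {w} (hx : OutW hP M (cls hP z) w)
    (hw : (NG hP M).W (cls hP z) w y) (hlen : w.length ≤ 4 * m) :
    (∃ z' : Z M, y = cls hP z' ∧ Cell M.Γ P z.b z.p z'.b z'.p ∧ P.W z.q w z'.q) ∨
    (∃ b p u, Cell M.Γ P z.b z.p b p ∧ P.W p u z.q ∧ IsReduced u ∧ Leaves M.Γ b u ∧
      u.length ≤ m + w.length) := by
  induction w using List.reverseRecOn generalizing y with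
  | nil =>
    simp only [PG.W_nil] at hw
    exact Or.inl ⟨z, hw.symm, Cell.refl _ _, rfl⟩
  | append_singleton w a ih =>
    rw [PG.W_concat] at hw
    obtain ⟨y1, h1, h2⟩ := hw
    simp only [List.length_append, List.length_singleton] at hlen ⊢
    rcases ih hx.left h1 (by omega) with ⟨z1, rfl, h3, h4⟩ | ⟨b, p, u, k1, k2, k3, k4, k5⟩
    · have hy1 : Out hP M (cls hP z1) := hx.left.end_ h1
      obtain ⟨z2, z2', e1, rfl, h5, h6⟩ := out_edge (Or.inl hy1) h2
      rcases (cls_eq.1 e1).cases hP hy1.not_at with ⟨k1, k2⟩ |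
        ⟨b0, p0, p0', u0, k1, k2, k3, k4, k5, k6, k7, k8⟩
      · left
        exact ⟨z2', rfl, (h3.trans k1).trans h5, (P.W_concat).2 ⟨_, h4, k2 ▸ h6⟩⟩
      · right
        have hs : StarPt hP M b0 u0 (cls hP z1) :=
          ⟨p0, z1.q, k3, cls_eq.2 (Rel.of_cell k1 rfl)⟩
        obtain ⟨_, hl⟩ := star_walk (hx.left.inv h1) ((NG hP M).W_inv h1) hs k5 k6
          (by rw [invRev_length]; omega)
        refine ⟨b0, p0, _, h3.trans k1, P.W_reduce ((P.W_append).2 ⟨_, k3, P.W_inv h4⟩),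
          IsReduced.of_reduce_eq reduce.idem, hl, ?_⟩
        have := reduce_length_le (u0 ++ invRev w)
        rw [List.length_append, invRev_length] at this
        omega
    · right
      exact ⟨b, p, u, k1, k2, k3, k4, by omega⟩

theorem starPt_of_cell {hP : Small P m} {z : Z M} {b p u} (hc : Cell M.Γ P z.b z.p b p)
    (hu : P.W p u z.q) : StarPt hP M b u (cls hP z) :=
  ⟨p, z.q, hu, cls_eq.2 (Rel.of_cell hc rfl)⟩

open Classical in
/-- LEMMA P1 -/
theorem old_walk {hP : Small P m} {x x' : NV hP M} {y : M.Γ.V} {w} (hx : Old hP M x y)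
    (hw : (NG hP M).W x w x') (rw_ : IsReduced w) (hlen : w.length ≤ 8 * m) :
    (∃ y', Old hP M x' y' ∧ M.Γ.W y w y') ∨
    (∃ b0 w0 w1, w = w0 ++ w1 ∧ M.Γ.W y w0 b0 ∧ StarPt hP M b0 w1 x' ∧ Leaves M.Γ b0 w1 ∧
      Out hP M x') := by
  induction w using List.reverseRecOn generalizing x' with
  | nil =>
    simp only [PG.W_nil] at hw
    subst hw
    exact Or.inl ⟨y, hx, rfl⟩
  | append_singleton w a ih =>
    have hw' := hw
    rw [PG.W_concat] at hw
    obtain ⟨x1, h1, h2⟩ := hw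
    simp only [List.length_append, List.length_singleton] at hlen
    have hpos := hP.pos
    rcases ih h1 (rw_.infix ⟨[], [a], by simp⟩) (by omega) with
      ⟨y1, h3, h4⟩ | ⟨b0, w0, w1, e, k1, k2, k3, k4⟩
    · by_cases hO : ∃ y', Old hP M x' y'
      · obtain ⟨y', hy'⟩ := hO
        exact Or.inl ⟨y', hy', (PG.W_concat _).2 ⟨_, h4, old_edge h3 hy' h2⟩⟩
      · right
        obtain ⟨z, z', rfl, rfl, h5, h6⟩ := out_edge (Or.inr hO) h2
        have h7 := h3.of_eq
        refine ⟨y1, w, [a], rfl, h4, ?_, ?_, hO⟩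
        · exact starPt_of_cell (z := z') (h5.symm.trans h7) ((P.W_single).2 h6)
        · intro c hc v hv
          simp at hc
          subst hc
          apply hO
          have h8 : (NG hP M).E (cls hP z) a (cls hP (zpt M v z.q)) :=
            Or.inr ⟨z, _, y1, v, rfl, rfl, h7, zpt_at _ _, hv⟩
          exact ⟨v, _, (NG hP M).det h2 h8, zpt_at _ _⟩
    · by_cases hO : ∃ y', Old hP M x' y'
      · exfalso
        obtain ⟨y', hy'⟩ := hO
        obtain ⟨z, z', e1, e2, h5, h6⟩ := out_edge (Or.inl k4) h2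
        subst e1 e2
        have h7 := hy'.of_eq
        have hs : StarPt hP M y' [bar a] (cls hP z) :=
          starPt_of_cell (z := z) (h5.trans h7) ((P.W_single).2 (P.symm h6))
        have hl : Leaves M.Γ y' [bar a] := by
          intro c hc v hv
          simp at hc
          subst hc
          apply k4
          have h8 : (NG hP M).E (cls hP z') (bar a) (cls hP (zpt M v z.q)) :=
            Or.inr ⟨z', _, y', v, rfl, rfl, h7, zpt_at _ _, hv⟩
          exact ⟨v, _, (NG hP M).det ((NG hP M).symm h2) h8, zpt_at _ _⟩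
        have hw1 : w1.length ≤ w.length := by rw [e]; simp
        obtain ⟨_, e3⟩ := star_unique k4 k2 hs
          (rw_.infix ⟨w0, [a], by simp [e]⟩) IsReduced.singleton k3 hl (by omega)
          (by simp; omega)
        subst e3
        rw [e] at rw_
        have h9 : IsReduced [bar a, a] := rw_.infix ⟨w0, [], by simp⟩
        rw [FreeGroup.isReduced_cons_cons] at h9
        have := h9.1 rfl
        simp [bar] at this
      · right
        have hw1 : w1.length ≤ w.length := by rw [e]; simp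
        have r1 : IsReduced w1 := rw_.infix ⟨w0, [a], by simp [e]⟩
        have r2 : IsReduced (w1 ++ [a]) := rw_.infix ⟨w0, [], by simp [e]⟩
        obtain ⟨h3, h4⟩ := star_step k4 hO k2 r1 k3 (by omega) h2
        rw [r2.reduce_eq] at h3 h4
        exact ⟨b0, w0, w1 ++ [a], by rw [e, List.append_assoc], k1, h3, h4, hO⟩

/-- the old level is convex for short walks -/
theorem old_walk' {hP : Small P m} {x x' : NV hP M} {y y' : M.Γ.V} {w} (hx : Old hP M x y)
    (hx' : Old hP M x' y')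
    (hw : (NG hP M).W x w x') (rw_ : IsReduced w) (hlen : w.length ≤ 8 * m) :
    M.Γ.W y w y' := by
  rcases old_walk hx hw rw_ hlen with ⟨y1, h1, h2⟩ | ⟨_, _, _, _, _, _, _, h⟩
  · rwa [hx'.unique h1]
  · exact absurd ⟨y', hx'⟩ h

/-- girth of the next level -/
theorem N_girth {hP : Small P m} {x : NV hP M} {w} (rw_ : IsReduced w)
    (hw : (NG hP M).W x w x) (hlen : w.length ≤ 2 * m) : w = [] := by
  classical
  by_cases hO : OutW hP M x w
  · obtain ⟨z, rfl⟩ := exists_cls x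
    rcases cell_or_star hO hw (by omega) with ⟨z', e, h3, h4⟩ | ⟨b, p, u, k1, k2, k3, k4, k5⟩
    · have h5 := rel_same hP (cls_eq.1 e) h3
      rw [← h5] at h4
      exact hP.girth _ _ rw_ h4 (by omega)
    · have hs := starPt_of_cell (hP := hP) k1 k2
      obtain ⟨h1, h2⟩ := star_walk hO hw hs k3 k4 (by omega)
      have hle := reduce_length_le (u ++ w)
      rw [List.length_append] at hle
      obtain ⟨_, e⟩ := star_unique hO.start hs h1 k3 (IsReduced.of_reduce_eq reduce.idem) k4 h2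
        (by omega) (by omega)
      have e2 : FreeGroup.mk u = FreeGroup.mk (u ++ w) := by
        conv_lhs => rw [e]
        exact reduce.self
      rw [← FreeGroup.mul_mk, left_eq_mul] at e2
      exact eq_of_mk_eq rw_ IsReduced.nil e2
  · unfold OutW at hO
    push Not at hO
    obtain ⟨w1, w2, x1, rfl, h1, h2⟩ := hO
    unfold Out at h2
    push Not at h2
    obtain ⟨y, hy⟩ := h2
    rw [PG.W_append] at hw
    obtain ⟨x1', h3, h4⟩ := hw
    have := (NG hP M).W_det h1 h3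
    subst this
    have h5 : (NG hP M).W x1 (w2 ++ w1) x1 := (PG.W_append _).2 ⟨_, h4, h1⟩
    have h6 := (NG hP M).W_reduce h5
    have hle := reduce_length_le (w2 ++ w1)
    simp only [List.length_append] at hle hlen
    have h7 := old_walk' hy hy h6 (IsReduced.of_reduce_eq reduce.idem) (by omega)
    have h8 := M.girth (IsReduced.of_reduce_eq reduce.idem) h7 (by omega)
    have h9 : FreeGroup.mk (w2 ++ w1) = 1 := by
      rw [← reduce.self, h8]; rfl
    rw [← FreeGroup.mul_mk] at h9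
    have h10 : FreeGroup.mk (w1 ++ w2) = 1 := by
      rw [← FreeGroup.mul_mk]
      exact mul_eq_one_comm.1 h9
    exact eq_of_mk_eq rw_ IsReduced.nil h10

theorem outW_of_not_NF {hP : Small P m} {x x' : NV hP M} {p p' : P.V} {w}
    (hF : ¬ NF hP M x p) (hw : (NG hP M).W x w x') (hp : P.W p w p') : OutW hP M x w := by
  intro w1 w2 x1 e h1 ⟨y, hy⟩
  subst e
  rw [PG.W_append] at hp
  obtain ⟨p1, h2, _⟩ := hp
  exact hF ((NF.of_old hy p1).cell (Cell.symm ⟨w1, h1, h2⟩))

open Classical in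
theorem reduce_append_decomp {u w : List (S × Bool)} (ru : IsReduced u) (rw_ : IsReduced w) :
    ∃ u' c w', u = u' ++ invRev c ∧ w = c ++ w' ∧ reduce (u ++ w) = u' ++ w' := by
  induction w generalizing u with
  | nil => exact ⟨u, [], [], by simp, rfl, by simpa using ru.reduce_eq⟩
  | cons y w ih =>
    rcases List.eq_nil_or_concat u with h | ⟨u1, x, h⟩
    · subst h
      exact ⟨[], [], y :: w, by simp, rfl, by simpa using rw_.reduce_eq⟩
    · rw [List.concat_eq_append] at h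
      subst h
      have ru1 : IsReduced u1 := ru.infix ⟨[], [x], by simp⟩
      have rw1 : IsReduced w := rw_.infix ⟨[y], [], by simp⟩
      by_cases hxy : x = bar y
      · subst hxy
        obtain ⟨u', c, w', h1, h2, h3⟩ := ih ru1 rw1
        refine ⟨u', y :: c, w', ?_, by simp [h2], ?_⟩
        · rw [h1]
          simp [invRev, bar]
        · rw [← h3]
          have h4 : Red.Step ((u1 ++ [bar y]) ++ y :: w) (u1 ++ w) := by
            have := @Red.Step.not S u1 w y.1 (!y.2)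
            simpa [bar] using this
          exact reduce.Step.eq h4
      · refine ⟨u1 ++ [x], [], y :: w, by simp, rfl, ?_⟩
        refine IsReduced.reduce_eq ?_
        unfold FreeGroup.IsReduced at *
        rw [List.isChain_append]
        refine ⟨ru, rw_, ?_⟩
        intro c hc d hd hcd
        simp at hc hd
        subst hc hd
        by_contra hne
        apply hxy
        rcases x with ⟨c1, c2⟩
        rcases y with ⟨a1, a2⟩
        simp only [bar] at *
        subst hcd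
        cases c2 <;> cases a2 <;> simp_all

theorem N_small' {hP : Small P m} {x x' : NV hP M} {p p' : P.V} {w} (hF : ¬ NF hP M x p)
    (rw_ : IsReduced w) (hw : (NG hP M).W x w x') (hp : P.W p w p') (hlen : w.length ≤ 4 * m) :
    w.length ≤ 2 * m := by
  classical
  have hO := outW_of_not_NF hF hw hp
  obtain ⟨z, rfl⟩ := exists_cls x
  rcases cell_or_star hO hw hlen with ⟨z', e, h3, h4⟩ | ⟨b, p1, u, k1, k2, k3, k4, k5⟩
  · by_contra hcon
    apply hF
    have := hP.uniq w p p' z.q z'.q rw_ (by omega) hp h4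
    subst this
    exact ⟨z, rfl, rfl⟩
  · have hs := starPt_of_cell (hP := hP) k1 k2
    obtain ⟨⟨p2, q2, h1, h1'⟩, h2⟩ := star_walk hO hw hs k3 k4 (by omega)
    obtain ⟨u', c, w', e1, e2, e3⟩ := reduce_append_decomp k3 rw_
    subst e1 e2
    -- first part
    have hc : c.length ≤ m := by
      by_contra hcon
      apply hF
      rw [PG.W_append] at k2 hp
      obtain ⟨q3, h5, h6⟩ := k2
      obtain ⟨p3, h7, _⟩ := hp
      have := hP.uniq c p p3 z.q q3 (rw_.infix ⟨[], w', by simp⟩) (by omega) h7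
        ((P.W_inv_iff).1 h6)
      subst this
      exact ⟨z, rfl, rfl⟩
    have hw' : w'.length ≤ m := by
      by_contra hcon
      apply hF
      have hwp : P.W p2 (u' ++ w') q2 := by rw [← e3]; exact h1
      rw [PG.W_append] at hw hp hwp
      obtain ⟨x1, h5, h6⟩ := hw
      obtain ⟨p3, h7, h8⟩ := hp
      obtain ⟨q3, h9, h10⟩ := hwp
      have := hP.uniq w' p3 p' q3 q2 (rw_.infix ⟨c, [], by simp⟩) (by omega) h8 h10
      subst this
      have h11 : (NG hP M).W (cls hP ⟨b, p2, p3, ⟨u', h9⟩⟩) w' x' := by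
        rw [h1']
        exact NW_cell (Cell.refl _ _) h10
      have h12 := (NG hP M).W_backdet h6 h11
      have h13 : NF hP M x1 p3 := ⟨_, h12, rfl⟩
      exact h13.cell (Cell.symm ⟨c, h5, h7⟩)
    rw [List.length_append]
    omega

theorem N_small {hP : Small P m} {x x' : NV hP M} {p p' : P.V} {w} (hF : ¬ NF hP M x p)
    (rw_ : IsReduced w) (hw : (NG hP M).W x w x') (hp : P.W p w p') : w.length ≤ 2 * m := by
  by_contra hcon
  have hpos := hP.pos
  have e : w = w.take (2 * m + 1) ++ w.drop (2 * m + 1) := (List.take_append_drop _ _).symm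
  have hw2 := hw
  have hp2 := hp
  rw [e, PG.W_append] at hw2 hp2
  obtain ⟨x1, h1, _⟩ := hw2
  obtain ⟨p1, h2, _⟩ := hp2
  have hl : (w.take (2 * m + 1)).length = 2 * m + 1 := by
    rw [List.length_take]; omega
  have := N_small' hF (rw_.infix ⟨[], w.drop (2 * m + 1), by simp⟩) h1 h2 (by omega)
  omega

/-- the next level -/
def nextMod (hP : Small P m) (M : Mod P m) : Mod P m where
  Γ := NG hP M
  F := NF hP M
  filled := fun h => h.filled
  cell := fun h hc => h.cell hc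
  girth := fun h1 h2 h3 => N_girth h1 h2 h3
  small := fun h1 h2 h3 h4 => N_small h1 h2 h3 h4

theorem base_conn {hP : Small P m} {x x' : NV hP M} {b b' : M.Γ.V} {p p' : P.V} {w}
    (hx : Old hP M x b) (hx' : Old hP M x' b') (hw : (NG hP M).W x w x') (hp : P.W p w p') :
    Cell M.Γ P b p b' p' := by
  have e : x = cls hP (zpt M b p) := hx.inj ⟨_, rfl, zpt_at b p⟩
  subst e
  have h1 : (NG hP M).W (cls hP (zpt M b p)) w (cls hP ((zpt M b p).mv hp)) :=
    NW_cell (z' := (zpt M b p).mv hp) (Cell.refl _ _) hp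
  have e2 := (NG hP M).W_det hw h1
  subst e2
  exact hx'.of_eq

open Classical in
theorem share {hP : Small P m} {x : NV hP M} {q q' : P.V} (h : NF hP M x q) (h' : NF hP M x q') :
    ∃ b p p' w xb, Old hP M xb b ∧ IsReduced w ∧ (NG hP M).W xb w x ∧ P.W p w q ∧ P.W p' w q' ∧
      (q ≠ q' → w.length ≤ m) := by
  obtain ⟨z, rfl, rfl⟩ := h
  obtain ⟨z', e, rfl⟩ := h'
  obtain ⟨b0, p0, p0', u, h1, h2, h3, h4⟩ := cls_eq.1 e
  refine ⟨b0, p0, p0', reduce u, cls hP (zpt M b0 p0), ⟨_, rfl, zpt_at _ _⟩,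
    IsReduced.of_reduce_eq reduce.idem, ?_, P.W_reduce h3, P.W_reduce h4, ?_⟩
  · exact NW_cell (z := zpt M b0 p0) h1.symm (P.W_reduce h3)
  · intro hne
    by_contra hcon
    apply hne
    have := hP.uniq _ _ _ _ _ (IsReduced.of_reduce_eq reduce.idem) (not_le.1 hcon)
      (P.W_reduce h3) (P.W_reduce h4)
    subst this
    exact P.W_det h3 h4

theorem N_clique {hP : Small P m} {g h h' : NV hP M} {x x' y y' e e' : P.V}
    (hx : ¬ NF hP M g x) (hx' : ¬ NF hP M g x') (c1 : Cell (NG hP M) P g x h y)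
    (c2 : Cell (NG hP M) P g x' h' y') (he : NF hP M h e) (he' : NF hP M h' e') :
    ∃ k q q', Cell (NG hP M) P h e k q ∧ Cell (NG hP M) P h' e' k q' := by
  classical
  have hy : ¬ NF hP M h y := fun hh => hx (hh.cell c1.symm)
  obtain ⟨t1, rt1, h1, h2⟩ := c1.symm.exists_reduced
  obtain ⟨t2, rt2, h3, h4⟩ := c2.exists_reduced
  have l1 := N_small hy rt1 h1 h2
  have l2 := N_small hx' rt2 h3 h4
  have o1 := outW_of_not_NF hy h1 h2
  have o2 := outW_of_not_NF hx' h3 h4
  have ww : (NG hP M).W h (t1 ++ t2) h' := (PG.W_append _).2 ⟨_, h1, h3⟩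
  have oo : OutW hP M h (t1 ++ t2) := o1.append h1 o2
  have w' := (NG hP M).W_reduce ww
  have o' := oo.red reduce.red ww
  have r' : IsReduced (reduce (t1 ++ t2)) := IsReduced.of_reduce_eq reduce.idem
  have l' : (reduce (t1 ++ t2)).length ≤ 4 * m := by
    have := reduce_length_le (t1 ++ t2)
    rw [List.length_append] at this
    omega
  obtain ⟨z, rfl, rfl⟩ := he
  obtain ⟨z2, rfl, rfl⟩ := he'
  rcases cell_or_star o' w' l' with ⟨z', e, k3, k4⟩ | ⟨b, p1, u, k1, k2, k3, k4, k5⟩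
  · exact ⟨_, z'.q, z2.q, ⟨_, w', k4⟩, Cell.refl _ _⟩
  · rcases cell_or_star (o'.inv w') ((NG hP M).W_inv w') (by rw [invRev_length]; exact l') with
      ⟨z', e, j3, j4⟩ | ⟨b', p1', u', j1, j2, j3, j4, j5⟩
    · exact ⟨_, z.q, z'.q, Cell.refl _ _, ⟨_, (NG hP M).W_inv w', j4⟩⟩
    · have hs := starPt_of_cell (hP := hP) k1 k2
      have hs' := starPt_of_cell (hP := hP) j1 j2
      obtain ⟨i1, i2⟩ := star_walk o' w' hs k3 k4 (by omega)
      rw [invRev_length] at j5
      have hle := reduce_length_le (u ++ reduce (t1 ++ t2))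
      rw [List.length_append] at hle
      obtain ⟨e1, _⟩ := star_unique (o'.end_ w') i1 hs' (IsReduced.of_reduce_eq reduce.idem) j3 i2 j4
        (by omega) (by omega)
      subst e1
      have n1 : (NG hP M).W (cls hP (zpt M b p1)) u (cls hP z) :=
        NW_cell (z := zpt M b p1) k1.symm k2
      have n2 : (NG hP M).W (cls hP (zpt M b p1')) u' (cls hP z2) :=
        NW_cell (z := zpt M b p1') j1.symm j2
      have e5 : cls hP (zpt M b p1) = cls hP (zpt M b p1') :=
        cls_eq.2 (rel_of_at (zpt_at _ _) (zpt_at _ _))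
      rw [← e5] at n2
      exact ⟨cls hP (zpt M b p1), p1, p1', Cell.symm ⟨u, n1, k2⟩, Cell.symm ⟨u', n2, j2⟩⟩

/-! developing map -/

/-- `d` is a developing map -/
def IsDevHom {G : Type} [Group G] (Γ : PG S) (φ : FreeGroup S →* G) (d : Γ.V → G) : Prop :=
  ∀ v a v', Γ.E v a v' → d v' = d v * φ (FreeGroup.mk [a])

theorem IsDevHom.walk {G : Type} [Group G] {Γ : PG S} {φ : FreeGroup S →* G} {d : Γ.V → G}
    (h : IsDevHom Γ φ d) {v w v'} (hw : Γ.W v w v') : d v' = d v * φ (FreeGroup.mk w) := by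
  induction w generalizing v with
  | nil =>
    simp only [PG.W_nil] at hw
    subst hw
    rw [← FreeGroup.one_eq_mk, _root_.map_one, mul_one]
  | cons a w ih =>
    obtain ⟨v1, h1, h2⟩ := hw
    rw [ih h2, h _ _ _ h1, mul_assoc, ← _root_.map_mul, FreeGroup.mul_mk]
    rfl

theorem N_dev {hP : Small P m} {G : Type} [Group G] {φ : FreeGroup S →* G}
    (hφ : ∀ p w, P.W p w p → φ (FreeGroup.mk w) = 1) {d : M.Γ.V → G} (hd : IsDevHom M.Γ φ d) :
    ∃ d' : NV hP M → G, IsDevHom (NG hP M) φ d' ∧ ∀ x y, Old hP M x y → d' x = d y := by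
  classical
  let f : Z M → G := fun z => d z.b * φ (FreeGroup.mk z.reach.choose)
  have key : ∀ (z : Z M) b0 p0 u, Cell M.Γ P z.b z.p b0 p0 → P.W p0 u z.q →
      f z = d b0 * φ (FreeGroup.mk u) := by
    intro z b0 p0 u h1 h2
    obtain ⟨t, h3, h4⟩ := h1
    have h5 := z.reach.choose_spec
    have h6 : P.W z.p ((t ++ u) ++ invRev z.reach.choose) z.p :=
      (P.W_append).2 ⟨_, (P.W_append).2 ⟨_, h4, h2⟩, P.W_inv h5⟩
    have h7 := hφ _ _ h6
    rw [← FreeGroup.mul_mk, ← FreeGroup.inv_mk, _root_.map_mul, _root_.map_inv, mul_inv_eq_one,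
      ← FreeGroup.mul_mk, _root_.map_mul] at h7
    show d z.b * φ (FreeGroup.mk z.reach.choose) = _
    rw [← h7, hd.walk h3, mul_assoc]
  let d' : NV hP M → G := Quotient.lift f (by
    intro z z' h
    obtain ⟨b0, p0, p0', u, h1, h2, h3, h4⟩ := h
    rw [key z b0 p0 u h1 h3, key z' b0 p0' u h2 h4])
  have hd' : ∀ z, d' (cls hP z) = f z := fun z => rfl
  have hold : ∀ x y, Old hP M x y → d' x = d y := by
    rintro x y ⟨z, rfl, hz⟩
    rw [hd', key z y z.q [] hz rfl, ← FreeGroup.one_eq_mk, _root_.map_one, mul_one]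
  refine ⟨d', ?_, hold⟩
  rintro v a v' (⟨z, z', rfl, rfl, h3, h4⟩ | ⟨z, z', y, y', rfl, rfl, h3, h4, h5⟩)
  · obtain ⟨w, hw⟩ := z.reach
    rw [hd', hd', key z z.b z.p w (Cell.refl _ _) hw,
      key z' z.b z.p (w ++ [a]) h3.symm ((P.W_concat).2 ⟨_, hw, h4⟩), ← FreeGroup.mul_mk, _root_.map_mul,
      mul_assoc]
  · rw [hold _ y' ⟨z', rfl, h4⟩, hold _ y ⟨z, rfl, h3⟩, hd _ _ _ h5]

end Step

end Crest.Agent.R199.SC
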