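import Mathlib

/-!
# Row 199, Part II (limit): a tower of labelled partial graphs and the presented group

A tower `V 0 → V 1 → ...` of labelled graphs (partial actions of the letters) with injective
label preserving maps, such that every letter is readable one level up and every relator read at a
vertex of level `n` is closed one level up.  Given compatible developing maps into the presented
group, these maps are injective and jointly surjective.
-/

set_option autoImplicit false

namespace Crest.Agent.R199.Lim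

variable {S : Type*}

/-- Walks in a labelled relation. -/
def Wk {V : Type*} (E : V → S × Bool → V → Prop) : V → List (S × Bool) → V → Prop
  | v, [], v' => v = v'
  | v, a :: w, v' => ∃ u, E v a u ∧ Wk E u w v'

theorem Wk_append {V : Type*} {E : V → S × Bool → V → Prop} {v v' : V} {w w' : List (S × Bool)} :
    Wk E v (w ++ w') v' ↔ ∃ u, Wk E v w u ∧ Wk E u w' v' := by
  induction w generalizing v with
  | nil => simp [Wk]
  | cons a w ih =>
    simp only [List.cons_append, Wk, ih]
    constructor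
    · rintro ⟨u, h, t, h1, h2⟩; exact ⟨t, ⟨u, h, h1⟩, h2⟩
    · rintro ⟨t, ⟨u, h, h1⟩, h2⟩; exact ⟨u, h, t, h1, h2⟩

theorem Wk_map {V V' : Type*} {E : V → S × Bool → V → Prop} {E' : V' → S × Bool → V' → Prop}
    (f : V → V') (hf : ∀ v a w, E v a w → E' (f v) a (f w)) {v v' : V} {w : List (S × Bool)}
    (h : Wk E v w v') : Wk E' (f v) w (f v') := by
  induction w generalizing v with
  | nil => exact congrArg f h
  | cons a w ih =>
    obtain ⟨u, h1, h2⟩ := h
    exact ⟨f u, hf _ _ _ h1, ih h2⟩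

theorem Wk_det {V : Type*} {E : V → S × Bool → V → Prop}
    (det : ∀ v a w w', E v a w → E v a w' → w = w') {v x y : V} {w : List (S × Bool)}
    (h : Wk E v w x) (h' : Wk E v w y) : x = y := by
  induction w generalizing v with
  | nil => exact h.symm.trans h'
  | cons a w ih =>
    obtain ⟨u, h1, h2⟩ := h
    obtain ⟨u', h1', h2'⟩ := h'
    obtain rfl := det _ _ _ _ h1 h1'
    exact ih h2 h2'

/-- A tower of labelled graphs. -/
structure Tower (S : Type*) where
  V : ℕ → Type*
  E : ∀ n, V n → S × Bool → V n → Prop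
  det : ∀ n v a w w', E n v a w → E n v a w' → w = w'
  symm : ∀ n v a w, E n v a w → E n w (a.1, !a.2) v
  ι : ∀ n, V n → V (n + 1)
  inj : ∀ n, Function.Injective (ι n)
  map : ∀ n v a w, E n v a w → E (n + 1) (ι n v) a (ι n w)
  total : ∀ n v a, ∃ w, E (n + 1) (ι n v) a w
  o : V 0

namespace Tower

variable (T : Tower S)

/-- The base point at level `n`. -/
def base (T : Tower S) : ∀ n, T.V n
  | 0 => T.o
  | n + 1 => T.ι n (base T n)

theorem base_succ (n : ℕ) : T.base (n + 1) = T.ι n (T.base n) := rfl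

theorem walk_succ {n : ℕ} {w : List (S × Bool)} {v v' : T.V n} (h : Wk (T.E n) v w v') :
    Wk (T.E (n + 1)) (T.ι n v) w (T.ι n v') := Wk_map (T.ι n) (T.map n) h

/-- Words `w w'` from the base point ending at the same vertex. -/
def EqAt (n : ℕ) (w w' : List (S × Bool)) : Prop :=
  ∃ v, Wk (T.E n) (T.base n) w v ∧ Wk (T.E n) (T.base n) w' v

theorem EqAt.succ {n : ℕ} {w w' : List (S × Bool)} (h : T.EqAt n w w') : T.EqAt (n + 1) w w' := by
  obtain ⟨v, h1, h2⟩ := h
  exact ⟨T.ι n v, T.walk_succ h1, T.walk_succ h2⟩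

theorem EqAt.mono {n m : ℕ} {w w' : List (S × Bool)} (h : T.EqAt n w w') (hnm : n ≤ m) :
    T.EqAt m w w' := by
  induction hnm with
  | refl => exact h
  | step _ ih => exact EqAt.succ T ih

theorem EqAt.symm' {n : ℕ} {w w' : List (S × Bool)} (h : T.EqAt n w w') : T.EqAt n w' w := by
  obtain ⟨v, h1, h2⟩ := h
  exact ⟨v, h2, h1⟩

/-- Eventually equal endpoints. -/
def Eqv (w w' : List (S × Bool)) : Prop := ∃ n, T.EqAt n w w'

theorem Eqv.symm {w w' : List (S × Bool)} (h : T.Eqv w w') : T.Eqv w' w := by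
  obtain ⟨n, h⟩ := h
  exact ⟨n, EqAt.symm' T h⟩

theorem EqAt.trans' {n : ℕ} {w w' w'' : List (S × Bool)} (h : T.EqAt n w w')
    (h' : T.EqAt n w' w'') : T.EqAt n w w'' := by
  obtain ⟨v, h1, h2⟩ := h
  obtain ⟨v', h1', h2'⟩ := h'
  obtain rfl := Wk_det (T.det n) h2 h1'
  exact ⟨v, h1, h2'⟩

theorem Eqv.trans {w w' w'' : List (S × Bool)} (h : T.Eqv w w') (h' : T.Eqv w' w'') :
    T.Eqv w w'' := by
  obtain ⟨n, h⟩ := h
  obtain ⟨m, h'⟩ := h'
  exact ⟨max n m, EqAt.trans' T (EqAt.mono T h (le_max_left _ _))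
    (EqAt.mono T h' (le_max_right _ _))⟩

/-- Injectivity: eventually equal and readable now implies equal now. -/
theorem eqAt_of_succ {n : ℕ} {w w' : List (S × Bool)} {v v' : T.V n}
    (h : Wk (T.E n) (T.base n) w v) (h' : Wk (T.E n) (T.base n) w' v')
    (he : T.EqAt (n + 1) w w') : v = v' := by
  obtain ⟨u, h1, h2⟩ := he
  rw [base_succ] at h1 h2
  have e1 := Wk_det (T.det (n + 1)) (T.walk_succ h) h1
  have e2 := Wk_det (T.det (n + 1)) (T.walk_succ h') h2
  exact T.inj n (e1.trans e2.symm)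

theorem eq_of_eqv {n : ℕ} {w w' : List (S × Bool)} {v v' : T.V n}
    (h : Wk (T.E n) (T.base n) w v) (h' : Wk (T.E n) (T.base n) w' v')
    (he : T.Eqv w w') : v = v' := by
  obtain ⟨m, he⟩ := he
  have key : ∀ k (n : ℕ) (v v' : T.V n), Wk (T.E n) (T.base n) w v →
      Wk (T.E n) (T.base n) w' v' → T.EqAt (n + k) w w' → v = v' := by
    intro k
    induction k with
    | zero =>
      intro n v v' h h' he
      obtain ⟨u, h1, h2⟩ := he
      exact (Wk_det (T.det n) h h1).trans (Wk_det (T.det n) h2 h')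
    | succ k ih =>
      intro n v v' h h' he
      apply T.inj n
      apply ih (n + 1) _ _ (T.walk_succ h) (T.walk_succ h')
      have : n + 1 + k = n + (k + 1) := by omega
      rw [this]
      exact he
  exact key m n v v' h h' (EqAt.mono T he (by omega))

/-- Every word can be read from every vertex at some later level. -/
theorem exists_walk (n : ℕ) (w u : List (S × Bool)) {v : T.V n}
    (h : Wk (T.E n) (T.base n) w v) :
    ∃ m, n ≤ m ∧ ∃ x y, Wk (T.E m) (T.base m) w x ∧ Wk (T.E m) x u y := by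
  induction u generalizing n w with
  | nil => exact ⟨n, le_rfl, v, v, h, rfl⟩
  | cons a u ih =>
    obtain ⟨z, hz⟩ := T.total n v a
    have h1 : Wk (T.E (n + 1)) (T.base (n + 1)) (w ++ [a]) z :=
      Wk_append.2 ⟨T.ι n v, T.walk_succ h, z, hz, rfl⟩
    obtain ⟨m, hm, x, y, hx, hy⟩ := ih (n + 1) (w ++ [a]) h1
    obtain ⟨t, ht1, ht2⟩ := Wk_append.1 hx
    obtain ⟨x', hx1, hx2⟩ := ht2
    refine ⟨m, by omega, t, y, ht1, x', hx1, ?_⟩
    have : x' = x := hx2
    rw [this]; exact hy

theorem exists_read (w : List (S × Bool)) : ∃ n v, Wk (T.E n) (T.base n) w v := by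
  obtain ⟨m, _, x, y, hx, hy⟩ := T.exists_walk 0 [] w (v := T.base 0) rfl
  refine ⟨m, y, ?_⟩
  have : T.base m = x := hx
  rw [this]; exact hy

theorem Eqv.refl (w : List (S × Bool)) : T.Eqv w w := by
  obtain ⟨n, v, h⟩ := T.exists_read w
  exact ⟨n, v, h, h⟩

theorem Eqv.append {w w' : List (S × Bool)} (h : T.Eqv w w') (u : List (S × Bool)) :
    T.Eqv (w ++ u) (w' ++ u) := by
  obtain ⟨n, v, h1, h2⟩ := h
  obtain ⟨m, hm, x, y, hx, hy⟩ := T.exists_walk n w u h1
  obtain ⟨x', hx', hx''⟩ := EqAt.mono T (⟨v, h1, h2⟩ : T.EqAt n w w') hm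
  obtain rfl := Wk_det (T.det m) hx hx'
  exact ⟨m, y, Wk_append.2 ⟨x, hx, hy⟩, Wk_append.2 ⟨x, hx'', hy⟩⟩

theorem Eqv.step {w w' : List (S × Bool)} (h : FreeGroup.Red.Step w w') : T.Eqv w w' := by
  cases h with
  | @not L₁ L₂ s b =>
    have h1 : T.Eqv (L₁ ++ (s, b) :: (s, !b) :: []) L₁ := by
      obtain ⟨n, v, hv⟩ := T.exists_read (L₁ ++ (s, b) :: (s, !b) :: [])
      obtain ⟨u, hu1, x, hx1, y, hy1, hy2⟩ := Wk_append.1 hv
      have hy2' : y = v := hy2
      subst hy2'
      obtain rfl : y = u := T.det n _ _ _ _ hy1 (T.symm n _ _ _ hx1)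
      exact ⟨n, y, hv, hu1⟩
    have h2 := h1.append T L₂
    simpa using h2

theorem Eqv.red {w w' : List (S × Bool)} (h : FreeGroup.Red w w') : T.Eqv w w' := by
  induction h with
  | refl => exact Eqv.refl T _
  | tail _ h2 ih => exact ih.trans T (Eqv.step T h2)

theorem Eqv.of_mk_eq {w w' : List (S × Bool)} (h : FreeGroup.mk w = FreeGroup.mk w') :
    T.Eqv w w' := by
  obtain ⟨c, h1, h2⟩ := FreeGroup.Red.exact.1 h
  exact (Eqv.red T h1).trans T (Eqv.red T h2).symm

/-- Relators fix every vertex one level up. -/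
def Closed (R : Set (List (S × Bool))) : Prop :=
  ∀ n (v : T.V n), ∀ r ∈ R, Wk (T.E (n + 1)) (T.ι n v) r (T.ι n v)

variable {T}

theorem Closed.eqv {R : Set (List (S × Bool))} (hR : T.Closed R) (w r : List (S × Bool))
    (hr : r ∈ R) : T.Eqv (w ++ r) w := by
  obtain ⟨n, v, hv⟩ := T.exists_read w
  exact ⟨n + 1, T.ι n v, Wk_append.2 ⟨_, T.walk_succ hv, hR n v r hr⟩, T.walk_succ hv⟩

/-- The normal subgroup of elements fixing all vertices. -/
def fixer (T : Tower S) : Subgroup (FreeGroup S) where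
  carrier := {g | ∀ w u : List (S × Bool), FreeGroup.mk u = g → T.Eqv (w ++ u) w}
  one_mem' := by
    intro w u hu
    apply Eqv.of_mk_eq
    rw [← FreeGroup.mul_mk, hu, mul_one]
  mul_mem' := by
    intro a b ha hb w u hu
    obtain ⟨x, rfl⟩ := Quot.exists_rep a
    obtain ⟨y, rfl⟩ := Quot.exists_rep b
    have h1 : T.Eqv (w ++ u) (w ++ x ++ y) := by
      apply Eqv.of_mk_eq
      rw [← FreeGroup.mul_mk, hu, ← FreeGroup.mul_mk, ← FreeGroup.mul_mk, mul_assoc]
      rfl
    exact h1.trans T ((hb _ y rfl).trans T (ha _ x rfl))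
  inv_mem' := by
    intro a ha w u hu
    obtain ⟨x, rfl⟩ := Quot.exists_rep a
    have h1 := ha (w ++ u) x rfl
    have h2 : T.Eqv (w ++ u ++ x) w := by
      apply Eqv.of_mk_eq
      rw [← FreeGroup.mul_mk, ← FreeGroup.mul_mk, hu, mul_assoc]
      exact (congrArg _ (inv_mul_cancel _)).trans (mul_one _)
    exact h1.symm.trans T h2

instance fixer_normal (T : Tower S) : T.fixer.Normal := by
  constructor
  intro a ha g w u hu
  have hrep : ∀ g : FreeGroup S, ∃ y, FreeGroup.mk y = g := fun g => Quot.exists_rep g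
  obtain ⟨x, hx⟩ := hrep a
  obtain ⟨y, hy'⟩ := hrep g
  obtain ⟨z, hz'⟩ := hrep g⁻¹
  have h1 : T.Eqv (w ++ u) (w ++ y ++ x ++ z) := by
    apply Eqv.of_mk_eq
    simp only [← FreeGroup.mul_mk]
    rw [hu, hy', hz', hx]
    simp only [mul_assoc]
  have h2 := (ha (w ++ y) x hx).append T z
  have h3 : T.Eqv (w ++ y ++ z) w := by
    apply Eqv.of_mk_eq
    simp only [← FreeGroup.mul_mk]
    rw [hy', hz', mul_assoc, mul_inv_cancel, mul_one]
  exact h1.trans T (h2.trans T h3)

/-- The set of relators as elements of the free group. -/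
def relSet (R : Set (List (S × Bool))) : Set (FreeGroup S) := FreeGroup.mk '' R

theorem Closed.le_fixer {R : Set (List (S × Bool))} (hR : T.Closed R) :
    Subgroup.normalClosure (relSet R) ≤ T.fixer := by
  apply Subgroup.normalClosure_le_normal
  rintro _ ⟨r, hr, rfl⟩ w u hu
  have h1 : T.Eqv (w ++ u) (w ++ r) := by
    apply Eqv.of_mk_eq
    rw [← FreeGroup.mul_mk, ← FreeGroup.mul_mk, hu]
  exact h1.trans T (hR.eqv w r hr)

/-- The image of a letter in the presented group. -/
def lt (R : Set (List (S × Bool))) (a : S × Bool) : PresentedGroup (relSet R) :=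
  PresentedGroup.mk (relSet R) (FreeGroup.mk [a])

theorem dev_walk {R : Set (List (S × Bool))} {n : ℕ} (dev : T.V n → PresentedGroup (relSet R))
    (hdev : ∀ v a v', T.E n v a v' → dev v' = dev v * lt R a) {v v' : T.V n}
    {w : List (S × Bool)} (h : Wk (T.E n) v w v') :
    dev v' = dev v * PresentedGroup.mk (relSet R) (FreeGroup.mk w) := by
  induction w generalizing v with
  | nil =>
    have : v = v' := h
    rw [this, show (FreeGroup.mk ([] : List (S × Bool))) = 1 from rfl, map_one, mul_one]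
  | cons a w ih =>
    obtain ⟨u, h1, h2⟩ := h
    rw [ih h2, hdev _ _ _ h1, lt, mul_assoc, ← map_mul, FreeGroup.mul_mk]
    rfl

/-- **Main limit theorem.** -/
theorem Closed.dev_injective {R : Set (List (S × Bool))} (hR : T.Closed R)
    (dev : ∀ n, T.V n → PresentedGroup (relSet R))
    (hdev : ∀ n v a v', T.E n v a v' → dev n v' = dev n v * lt R a)
    (reach : ∀ n (v : T.V n), ∃ w, Wk (T.E n) (T.base n) w v) (n : ℕ) :
    Function.Injective (dev n) := by
  intro v v' h
  obtain ⟨w, hw⟩ := reach n v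
  obtain ⟨w', hw'⟩ := reach n v'
  have e1 := dev_walk (dev n) (hdev n) hw
  have e2 := dev_walk (dev n) (hdev n) hw'
  rw [h, e2] at e1
  have e3 := mul_left_cancel e1
  have e4 : (FreeGroup.mk w)⁻¹ * FreeGroup.mk w' ∈ Subgroup.normalClosure (relSet R) :=
    QuotientGroup.eq.1 e3.symm
  obtain ⟨u, hu⟩ := Quot.exists_rep ((FreeGroup.mk w)⁻¹ * FreeGroup.mk w')
  have hu' : FreeGroup.mk u = (FreeGroup.mk w)⁻¹ * FreeGroup.mk w' := hu
  have e5 := hR.le_fixer e4 w u hu'
  have e6 : T.Eqv w' (w ++ u) := by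
    apply Eqv.of_mk_eq
    rw [← FreeGroup.mul_mk, hu', mul_inv_cancel_left]
  exact (T.eq_of_eqv hw' hw (e6.trans T e5)).symm

theorem Closed.dev_surjective {R : Set (List (S × Bool))}
    (dev : ∀ n, T.V n → PresentedGroup (relSet R))
    (hdev : ∀ n v a v', T.E n v a v' → dev n v' = dev n v * lt R a)
    (hbase : ∀ n, dev n (T.base n) = 1) (g : PresentedGroup (relSet R)) :
    ∃ n v, dev n v = g := by
  obtain ⟨x, rfl⟩ := PresentedGroup.mk_surjective (relSet R) g
  obtain ⟨u, rfl⟩ := Quot.exists_rep x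
  obtain ⟨n, v, hv⟩ := T.exists_read u
  refine ⟨n, v, ?_⟩
  rw [dev_walk (dev n) (hdev n) hv, hbase, one_mul]
  rfl

end Tower

end Crest.Agent.R199.Lim
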