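import Crest.Agent.R199.SC
import Crest.Agent.R199.SCLimit

/-!
# Row 199, Part II: the levels of the model inside the presented group

`Grp P` is the group presented by the closed words of `P`.  The levels `lv n` (iterated `NG`) embed
in `Grp P` by the developing maps; `Y n` is the image of level `n`.
-/

set_option autoImplicit false

open FreeGroup

namespace Crest.Agent.R199.SC

variable {S : Type}

/-! ### The group -/

/-- closed words of the positions graph -/
def clw (P : PG S) : Set (List (S × Bool)) := {w | ∃ p, P.W p w p}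

/-- the relators -/
def rels (P : PG S) : Set (FreeGroup S) := Lim.Tower.relSet (clw P)

theorem mem_rels {P : PG S} {r : FreeGroup S} :
    r ∈ rels P ↔ ∃ p w, P.W p w p ∧ FreeGroup.mk w = r := by
  constructor
  · rintro ⟨w, ⟨p, h⟩, rfl⟩; exact ⟨p, w, h, rfl⟩
  · rintro ⟨p, w, h, rfl⟩; exact ⟨w, ⟨p, h⟩, rfl⟩

/-- the group presented by the closed words -/
abbrev Grp (P : PG S) : Type := PresentedGroup (rels P)

/-- the group element of a word -/
def gw (P : PG S) (w : List (S × Bool)) : Grp P := PresentedGroup.mk (rels P) (FreeGroup.mk w)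

section gw
variable {P : PG S}

@[simp] theorem gw_nil : gw P [] = 1 := _root_.map_one _

theorem gw_append (w w' : List (S × Bool)) : gw P (w ++ w') = gw P w * gw P w' := by
  rw [gw, gw, gw, ← _root_.map_mul, FreeGroup.mul_mk]

theorem gw_invRev (w : List (S × Bool)) : gw P (invRev w) = (gw P w)⁻¹ := by
  rw [gw, gw, ← FreeGroup.inv_mk, _root_.map_inv]

theorem gw_closed {p : P.V} {w} (h : P.W p w p) : gw P w = 1 :=
  (QuotientGroup.eq_one_iff _).2 (Subgroup.subset_normalClosure ⟨w, ⟨p, h⟩, rfl⟩)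

theorem gw_eq {p q : P.V} {w w'} (h : P.W p w q) (h' : P.W p w' q) : gw P w = gw P w' := by
  have h1 : gw P (w ++ invRev w') = 1 := gw_closed ((P.W_append).2 ⟨q, h, P.W_inv h'⟩)
  rw [gw_append, gw_invRev] at h1
  exact mul_inv_eq_one.1 h1

theorem gw_surj (g : Grp P) : ∃ w, gw P w = g := by
  obtain ⟨x, rfl⟩ := PresentedGroup.mk_surjective (rels P) g
  obtain ⟨w, rfl⟩ := Quot.exists_rep x
  exact ⟨w, rfl⟩

end gw

theorem Wk_iff {Γ : PG S} {v v' : Γ.V} {w} : Lim.Wk Γ.E v w v' ↔ Γ.W v w v' := by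
  induction w generalizing v with
  | nil => exact Iff.rfl
  | cons a w ih =>
    show (∃ u, Γ.E v a u ∧ Lim.Wk Γ.E u w v') ↔ ∃ u, Γ.E v a u ∧ Γ.W u w v'
    simp only [ih]

/-! ### Developing one step -/

/-- label preserving maps into the group -/
def IsDev (P : PG S) (Γ : PG S) (d : Γ.V → Grp P) : Prop :=
  ∀ v a v', Γ.E v a v' → d v' = d v * gw P [a]

theorem IsDev.walk {P Γ : PG S} {d : Γ.V → Grp P} (hd : IsDev P Γ d) {v v' : Γ.V} {w}
    (h : Γ.W v w v') : d v' = d v * gw P w := by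
  induction w generalizing v with
  | nil =>
    have : v = v' := h
    rw [this, gw_nil, mul_one]
  | cons a w ih =>
    obtain ⟨u, h1, h2⟩ := h
    rw [ih h2, hd _ _ _ h1, mul_assoc, ← gw_append]
    rfl

section Step

variable {P : PG S} {m : ℕ} (hP : Small P m) (M : Mod P m)

variable {M}

/-- the value of a point of a cell -/
noncomputable def zval (d : M.Γ.V → Grp P) (z : Z M) : Grp P := d z.b * gw P z.reach.choose

theorem zval_eq (d : M.Γ.V → Grp P) {z : Z M} {w} (h : P.W z.p w z.q) :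
    zval d z = d z.b * gw P w := by
  rw [zval, gw_eq z.reach.choose_spec h]

theorem dev_cell {Γ : PG S} {d : Γ.V → Grp P} (hd : IsDev P Γ d) {v v' : Γ.V} {p p' q : P.V} {w w'}
    (hc : Cell Γ P v p v' p') (h : P.W p w q) (h' : P.W p' w' q) :
    d v * gw P w = d v' * gw P w' := by
  obtain ⟨t, h1, h2⟩ := hc
  rw [hd.walk h1, mul_assoc, ← gw_append, gw_eq h ((P.W_append).2 ⟨_, h2, h'⟩)]

theorem zval_cell {d : M.Γ.V → Grp P} (hd : IsDev P M.Γ d) {z : Z M} {v : M.Γ.V} {p : P.V} {w}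
    (hc : Cell M.Γ P z.b z.p v p) (h : P.W p w z.q) : zval d z = d v * gw P w :=
  dev_cell hd hc z.reach.choose_spec h

theorem zval_rel {d : M.Γ.V → Grp P} (hd : IsDev P M.Γ d) {z z' : Z M} (h : Rel z z') :
    zval d z = zval d z' := by
  obtain ⟨b0, p0, p0', u, h1, h2, h3, h4⟩ := h
  rw [zval_cell hd h1 h3, zval_cell hd h2 h4]

theorem zval_at {d : M.Γ.V → Grp P} (hd : IsDev P M.Γ d) {z : Z M} {y : M.Γ.V} (h : At z y) :
    zval d z = d y := by
  rw [zval_cell hd (w := []) h rfl, gw_nil, mul_one]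

/-- the developing map of the next level -/
noncomputable def ndev (d : M.Γ.V → Grp P) (hd : IsDev P M.Γ d) : (NG hP M).V → Grp P :=
  Quotient.lift (zval d) (fun _ _ h => zval_rel hd h)

theorem ndev_cls {d : M.Γ.V → Grp P} (hd : IsDev P M.Γ d) (z : Z M) :
    ndev hP d hd (cls hP z) = zval d z := rfl

theorem isDev_ndev {d : M.Γ.V → Grp P} (hd : IsDev P M.Γ d) : IsDev P (NG hP M) (ndev hP d hd) := by
  rintro x a x' (⟨z, z', rfl, rfl, h3, h4⟩ | ⟨z, z', y, y', rfl, rfl, h3, h4, h5⟩)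
  · rw [ndev_cls, ndev_cls]
    obtain ⟨w, hw⟩ := z.reach
    rw [zval_cell hd (z := z') h3.symm ((P.W_append).2 ⟨_, hw, (P.W_single).2 h4⟩), zval_eq d hw,
      gw_append, mul_assoc]
  · rw [ndev_cls, ndev_cls, zval_at hd h3, zval_at hd h4]
    exact hd _ _ _ h5

variable [Nonempty P.V]

/-- old vertices in the next level -/
noncomputable def emb (M : Mod P m) (y : M.Γ.V) : (NG hP M).V :=
  cls hP (zpt M y (Classical.arbitrary P.V))

theorem emb_eq (y : M.Γ.V) (p : P.V) : emb hP M y = cls hP (zpt M y p) :=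
  cls_eq.2 (rel_of_at (zpt_at y _) (zpt_at y p))

theorem old_emb (y : M.Γ.V) : Old hP M (emb hP M y) y := ⟨_, rfl, zpt_at y _⟩

theorem emb_inj : Function.Injective (emb hP M) := by
  intro y y' h
  exact (old_emb hP y).unique (h ▸ old_emb hP y')

theorem emb_of_old {x : (NG hP M).V} {y : M.Γ.V} (h : Old hP M x y) : x = emb hP M y :=
  h.inj (old_emb hP y)

theorem emb_map {y y' : M.Γ.V} {a} (h : M.Γ.E y a y') : (NG hP M).E (emb hP M y) a (emb hP M y') :=
  Or.inr ⟨_, _, y, y', rfl, rfl, zpt_at y _, zpt_at y' _, h⟩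

theorem emb_walk {y y' : M.Γ.V} {w} (h : M.Γ.W y w y') :
    (NG hP M).W (emb hP M y) w (emb hP M y') := by
  rw [← Wk_iff] at h ⊢
  exact Lim.Wk_map (emb hP M) (fun _ _ _ h => emb_map hP h) h

theorem emb_closed (y : M.Γ.V) {p : P.V} {w} (h : P.W p w p) :
    (NG hP M).W (emb hP M y) w (emb hP M y) := by
  rw [emb_eq hP y p]
  exact NW_cell (Cell.refl _ _) h

theorem emb_total (y : M.Γ.V) {p q : P.V} {a} (h : P.E p a q) :
    ∃ x, (NG hP M).E (emb hP M y) a x :=
  ⟨cls hP ((zpt M y p).mv (w := [a]) ((P.W_single).2 h)),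
    Or.inl ⟨zpt M y p, _, emb_eq hP y p, rfl, Cell.refl _ _, h⟩⟩

theorem ndev_emb {d : M.Γ.V → Grp P} (hd : IsDev P M.Γ d) (y : M.Γ.V) :
    ndev hP d hd (emb hP M y) = d y := by
  rw [emb, ndev_cls, zval_at hd (zpt_at y _)]

end Step

/-! ### The levels -/

/-- the one point level -/
def start (P : PG S) (m : ℕ) : Mod P m where
  Γ := ⟨PUnit, fun _ _ _ => False, fun h _ => h.elim, fun h => h⟩
  F := fun _ _ => False
  filled := fun h => h.elim
  cell := fun h _ => h.elim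
  girth := by
    intro v w _ h _
    rcases w with _ | ⟨a, w⟩
    · rfl
    · obtain ⟨_, h, _⟩ := h; exact h.elim
  small := by
    intro v p w v' p' _ _ h _
    rcases w with _ | ⟨a, w⟩
    · simp
    · obtain ⟨_, h, _⟩ := h; exact h.elim

/-- the two facts about the next level (proved by the small cancellation analysis) -/
structure NextOK {P : PG S} {m : ℕ} (hP : Small P m) : Prop where
  girth : ∀ (M : Mod P m) {v : (NG hP M).V} {w}, IsReduced w → (NG hP M).W v w v →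
    w.length ≤ 2 * m → w = []
  small : ∀ (M : Mod P m) {v : (NG hP M).V} {p w v' p'}, ¬ NF hP M v p → IsReduced w →
    (NG hP M).W v w v' → P.W p w p' → w.length ≤ 2 * m

theorem nextOK {P : PG S} {m : ℕ} (hP : Small P m) : NextOK hP :=
  ⟨fun _ => N_girth, fun _ => N_small⟩

section Levels

variable {P : PG S} {m : ℕ} {hP : Small P m} (hN : NextOK hP)

/-- the next level -/
def next (M : Mod P m) : Mod P m where
  Γ := NG hP M
  F := NF hP M
  filled := NF.filled
  cell := NF.cell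
  girth := hN.girth M
  small := hN.small M

/-- the levels -/
def lv : ℕ → Mod P m
  | 0 => start P m
  | n + 1 => next hN (lv n)

/-- the developing maps -/
noncomputable def devs : ∀ n, {d : (lv hN n).Γ.V → Grp P // IsDev P (lv hN n).Γ d}
  | 0 => ⟨fun _ => 1, fun _ _ _ h => h.elim⟩
  | n + 1 => ⟨ndev hP (devs n).1 (devs n).2, isDev_ndev hP (devs n).2⟩

/-- the developing map of level `n` -/
noncomputable def dev (n : ℕ) : (lv hN n).Γ.V → Grp P := (devs hN n).1

theorem isDev_dev (n : ℕ) : IsDev P (lv hN n).Γ (dev hN n) := (devs hN n).2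

theorem dev_succ_cls (n : ℕ) (z : Z (lv hN n)) : dev hN (n + 1) (cls hP z) = zval (dev hN n) z := rfl

variable [Nonempty P.V]

theorem dev_emb (n : ℕ) (v : (lv hN n).Γ.V) : dev hN (n + 1) (emb hP (lv hN n) v) = dev hN n v :=
  ndev_emb hP (isDev_dev hN n) v

/-- the tower of levels -/
noncomputable def tow (hlet : ∀ a, ∃ p q, P.E p a q) : Lim.Tower S where
  V := fun n => (lv hN n).Γ.V
  E := fun n => (lv hN n).Γ.E
  det := fun n _ _ _ _ h h' => (lv hN n).Γ.det h h'
  symm := fun n _ _ _ h => (lv hN n).Γ.symm h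
  ι := fun n => emb hP (lv hN n)
  inj := fun n => emb_inj hP
  map := fun n _ _ _ h => emb_map hP h
  total := by
    intro n v a
    obtain ⟨p, q, h⟩ := hlet a
    exact emb_total hP v h
  o := PUnit.unit

theorem tow_closed (hlet : ∀ a, ∃ p q, P.E p a q) : (tow hN hlet).Closed (clw P) := by
  rintro n v r ⟨p, hr⟩
  exact Wk_iff.2 (emb_closed hP v hr)

theorem dev_base (hlet : ∀ a, ∃ p q, P.E p a q) (n : ℕ) : dev hN n ((tow hN hlet).base n) = 1 := by
  induction n with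
  | zero => rfl
  | succ n ih =>
    rw [← ih]
    exact dev_emb hN n _

theorem reach_base (hlet : ∀ a, ∃ p q, P.E p a q) (n : ℕ) (v : (lv hN n).Γ.V) :
    ∃ w, (lv hN n).Γ.W ((tow hN hlet).base n) w v := by
  induction n with
  | zero => exact ⟨[], Subsingleton.elim (α := PUnit) _ _⟩
  | succ n ih =>
    obtain ⟨z, rfl⟩ := exists_cls (hP := hP) v
    obtain ⟨w, hw⟩ := ih z.b
    obtain ⟨w', hw'⟩ := z.reach
    refine ⟨w ++ w', (PG.W_append _).2 ⟨emb hP (lv hN n) z.b, emb_walk hP hw, ?_⟩⟩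
    rw [emb_eq hP z.b z.p]
    exact NW_cell (z := zpt (lv hN n) z.b z.p) (z' := z) (Cell.refl _ _) hw'

theorem dev_inj (hlet : ∀ a, ∃ p q, P.E p a q) (n : ℕ) : Function.Injective (dev hN n) := by
  refine (tow_closed hN hlet).dev_injective (dev hN) ?_ ?_ n
  · intro n v a v' h
    exact isDev_dev hN n v a v' h
  · intro n v
    obtain ⟨w, hw⟩ := reach_base hN hlet n v
    exact ⟨w, Wk_iff.2 hw⟩

theorem dev_surj (hlet : ∀ a, ∃ p q, P.E p a q) (g : Grp P) : ∃ n v, dev hN n v = g :=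
  Lim.Tower.Closed.dev_surjective (T := tow hN hlet) (R := clw P) (dev hN)
    (fun n v a v' h => isDev_dev hN n v a v' h) (dev_base hN hlet) g

end Levels

/-! ### The levels in the group -/

/-- position `q` at `h` is in the cell of position `p` at `g` -/
def Same (P : PG S) (g : Grp P) (p : P.V) (h : Grp P) (q : P.V) : Prop :=
  ∃ w, P.W p w q ∧ h = g * gw P w

section Same
variable {P : PG S}

theorem Same.refl (g : Grp P) (p : P.V) : Same P g p g p := ⟨[], rfl, by simp⟩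

theorem Same.symm {g h : Grp P} {p q : P.V} (hs : Same P g p h q) : Same P h q g p := by
  obtain ⟨w, h1, rfl⟩ := hs
  exact ⟨invRev w, P.W_inv h1, by rw [gw_invRev, mul_inv_cancel_right]⟩

theorem Same.trans {g h k : Grp P} {p q r : P.V} (hs : Same P g p h q) (hs' : Same P h q k r) :
    Same P g p k r := by
  obtain ⟨w, h1, rfl⟩ := hs
  obtain ⟨w', h1', rfl⟩ := hs'
  exact ⟨w ++ w', (P.W_append).2 ⟨_, h1, h1'⟩, by rw [gw_append, mul_assoc]⟩

end Same

/-- the edge `(x, a)` lies in a cell over the set `A` -/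
def EdgeOver (P : PG S) (A : Set (Grp P)) (x : Grp P) (a : S × Bool) : Prop :=
  ∃ b ∈ A, ∃ p q q', Same P b p x q ∧ P.E q a q'

/-- Levels of the group, seen from `1`. -/
structure Levels (P : PG S) (m : ℕ) where
  Y : ℕ → Set (Grp P)
  zero : Y 0 = {1}
  succ : ∀ n x, x ∈ Y (n + 1) ↔ ∃ b ∈ Y n, ∃ p q, Same P b p x q
  cover : ∀ x, ∃ n, x ∈ Y n
  /-- cells embed -/
  inj : ∀ {p q q' w w'}, P.W p w q → P.W p w' q' → gw P w = gw P w' → q = q'
  /-- gluing -/
  glue : ∀ {n g p g' p' b q b' q' x r r'}, b ∈ Y n → b' ∈ Y n → Same P g p b q → Same P g' p' b' q' →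
    Same P g p x r → Same P g' p' x r' →
    ∃ c ∈ Y n, ∃ s s' u, Same P g p c s ∧ Same P g' p' c s' ∧ P.W s u r ∧ P.W s' u r' ∧
      x = c * gw P u
  /-- the part of a new cell of level `n + 1` in `Y n` is connected in `Y n` by short words -/
  short : ∀ {n g p x q}, g ∈ Y n → x ∈ Y n → Same P g p x q →
    (∀ k, n = k + 1 → ∀ b r, Same P g p b r → b ∉ Y k) →
    ∃ w, IsReduced w ∧ w.length ≤ 2 * m ∧ P.W p w q ∧ x = g * gw P w ∧
      (n = 0 → w = []) ∧
      (∀ k, n = k + 1 → ∀ t a t', w = t ++ a :: t' → EdgeOver P (Y k) (g * gw P t) a)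

section Final

variable {P : PG S} {m : ℕ} {hP : Small P m} (hN : NextOK hP) [Nonempty P.V]

omit [Nonempty P.V] in
theorem lv_edge (hlet : ∀ a, ∃ p q, P.E p a q) {k : ℕ} {v v' : (lv hN (k + 1)).Γ.V} {a}
    (h : (lv hN (k + 1)).Γ.E v a v') :
    EdgeOver P (Set.range (dev hN k)) (dev hN (k + 1) v) a := by
  rcases h with ⟨z, z', rfl, rfl, h3, h4⟩ | ⟨z, z', y, y', rfl, rfl, h3, h4, h5⟩
  · obtain ⟨w, hw⟩ := z.reach
    refine ⟨dev hN k z.b, ⟨_, rfl⟩, z.p, z.q, z'.q, ⟨w, hw, ?_⟩, h4⟩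
    rw [dev_succ_cls, zval_eq _ hw]
  · obtain ⟨p, q, hpq⟩ := hlet a
    refine ⟨dev hN k y, ⟨_, rfl⟩, p, p, q, ?_, hpq⟩
    rw [dev_succ_cls, zval_at (isDev_dev hN k) h3]
    exact Same.refl _ _

omit [Nonempty P.V] in
theorem lv_walk_edges (hlet : ∀ a, ∃ p q, P.E p a q) {k : ℕ} {v v' : (lv hN (k + 1)).Γ.V} {w}
    (h : (lv hN (k + 1)).Γ.W v w v') {t a t'} (hw : w = t ++ a :: t') :
    EdgeOver P (Set.range (dev hN k)) (dev hN (k + 1) v * gw P t) a := by
  subst hw
  obtain ⟨u, h1, u', h2, _⟩ := (PG.W_append _).1 h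
  rw [← (isDev_dev hN (k + 1)).walk h1]
  exact lv_edge hN hlet h2

/-- **The levels in the group.** -/
noncomputable def levels (hlet : ∀ a, ∃ p q, P.E p a q) : Levels P m where
  Y := fun n => Set.range (dev hN n)
  zero := by
    ext x
    constructor
    · rintro ⟨_, rfl⟩; rfl
    · rintro rfl; exact ⟨PUnit.unit, rfl⟩
  succ := by
    intro n x
    constructor
    · rintro ⟨v, rfl⟩
      obtain ⟨z, rfl⟩ := exists_cls (hP := hP) v
      obtain ⟨w, hw⟩ := z.reach
      exact ⟨_, ⟨z.b, rfl⟩, z.p, z.q, w, hw, by rw [dev_succ_cls, zval_eq _ hw]⟩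
    · rintro ⟨_, ⟨b, rfl⟩, p, q, w, hw, rfl⟩
      refine ⟨cls hP ⟨b, p, q, w, hw⟩, ?_⟩
      rw [dev_succ_cls, zval_eq _ (z := ⟨b, p, q, w, hw⟩) hw]
  cover := by
    intro x
    obtain ⟨n, v, h⟩ := dev_surj hN hlet x
    exact ⟨n, v, h⟩
  inj := by
    intro p q q' w w' h h' he
    have h1 : dev hN 1 (cls hP (⟨PUnit.unit, p, q, w, h⟩ : Z (lv hN 0))) =
        dev hN 1 (cls hP (⟨PUnit.unit, p, q', w', h'⟩ : Z (lv hN 0))) := by
      rw [dev_succ_cls, dev_succ_cls,
        zval_eq _ (z := (⟨PUnit.unit, p, q, w, h⟩ : Z (lv hN 0))) h,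
        zval_eq _ (z := (⟨PUnit.unit, p, q', w', h'⟩ : Z (lv hN 0))) h', he]
    have h2 := cls_eq.1 (dev_inj hN hlet 1 h1)
    exact rel_same hP h2 (Cell.refl _ _)
  glue := by
    rintro n g p g' p' _ q _ q' x r r' ⟨b, rfl⟩ ⟨b', rfl⟩ hb hb' hx hx'
    obtain ⟨w, hw, hxw⟩ := hb.symm.trans hx
    obtain ⟨w', hw', hxw'⟩ := hb'.symm.trans hx'
    have h1 : dev hN (n + 1) (cls hP (⟨b, q, r, w, hw⟩ : Z (lv hN n))) =
        dev hN (n + 1) (cls hP (⟨b', q', r', w', hw'⟩ : Z (lv hN n))) := by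
      rw [dev_succ_cls, dev_succ_cls, zval_eq _ (z := (⟨b, q, r, w, hw⟩ : Z (lv hN n))) hw,
        zval_eq _ (z := (⟨b', q', r', w', hw'⟩ : Z (lv hN n))) hw', ← hxw, ← hxw']
    obtain ⟨c, s, s', u, k1, k2, k3, k4⟩ := cls_eq.1 (dev_inj hN hlet (n + 1) h1)
    obtain ⟨t, t1, t2⟩ := k1
    obtain ⟨t', t1', t2'⟩ := k2
    have e1 : Same P g p (dev hN n c) s :=
      hb.trans ⟨t, t2, (isDev_dev hN n).walk t1⟩
    have e2 : Same P g' p' (dev hN n c) s' :=
      hb'.trans ⟨t', t2', (isDev_dev hN n).walk t1'⟩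
    refine ⟨dev hN n c, ⟨c, rfl⟩, s, s', u, e1, e2, k3, k4, ?_⟩
    rw [hxw, (isDev_dev hN n).walk t1, mul_assoc, ← gw_append]
    congr 1
    exact gw_eq hw ((P.W_append).2 ⟨_, t2, k3⟩)
  short := by
    rintro n _ p _ q ⟨v, rfl⟩ ⟨v', rfl⟩ ⟨w, hw, hx⟩ hnew
    have hF : ¬ (lv hN n).F v p := by
      cases n with
      | zero => exact fun h => h
      | succ k =>
        rintro ⟨z, rfl, hz⟩
        obtain ⟨w0, h0⟩ := z.reach
        refine hnew k rfl (dev hN k z.b) z.p ?_ ⟨_, rfl⟩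
        refine Same.symm ⟨w0, hz ▸ h0, ?_⟩
        rw [dev_succ_cls, zval_eq _ h0]
    have h1 : dev hN (n + 1) (cls hP (⟨v, p, q, w, hw⟩ : Z (lv hN n))) =
        dev hN (n + 1) (cls hP (zpt (lv hN n) v' q)) := by
      rw [dev_succ_cls, dev_succ_cls, zval_eq _ (z := (⟨v, p, q, w, hw⟩ : Z (lv hN n))) hw,
        zval_at (isDev_dev hN n) (zpt_at v' q), hx]
    have h2 := (cls_eq.1 (dev_inj hN hlet (n + 1) h1)).symm.at hP (zpt_at v' q)
    have h3 : Cell (lv hN n).Γ P v p v' q := h2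
    obtain ⟨t, rt, ht, ht', hlt⟩ := cell_short hF h3
    refine ⟨t, rt, hlt, ht', (isDev_dev hN n).walk ht, ?_, ?_⟩
    · rintro rfl
      rcases t with _ | ⟨a, t⟩
      · rfl
      · obtain ⟨_, h, _⟩ := ht; exact h.elim
    · rintro k rfl s a s' hs
      exact lv_walk_edges hN hlet ht hs

end Final

end Crest.Agent.R199.SC
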