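import Crest.Agent.R199.Defs
import Crest.Agent.R199.SC
import Crest.Agent.R199.SCGroup

/-!
Part II-d: the exported model (through SC.lean / SCGroup.lean).
-/

set_option autoImplicit false

open FreeGroup

namespace Crest.Agent.R199.SC

variable {S : Type}

theorem nextOK' {P : PG S} {m : ℕ} (hP : Small P m) : NextOK hP where
  girth := fun _ _ _ h1 h2 h3 => N_girth h1 h2 h3
  small := fun _ _ _ _ _ _ h1 h2 h3 h4 => N_small h1 h2 h3 h4

/-- the exported facts, for a `PG` -/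
structure PModel (P : PG S) (m : ℕ) where
  lev : Grp P → ℕ
  cl : Grp P → P.V → ℕ
  lev_eq_zero : ∀ g, lev g = 0 ↔ g = 1
  cl_same : ∀ g x h y, Same P g x h y → cl h y = cl g x
  cl_le : ∀ g x, cl g x ≤ lev g
  lev_le : ∀ g x, lev g ≤ cl g x + 1
  base : ∀ g x, ∃ h y, Same P g x h y ∧ lev h = cl g x
  down : ∀ g n, lev g = n + 1 → ∃ x, cl g x = n
  share : ∀ g x y, cl g x = cl g y →
    ∃ h x' y', Same P g x h x' ∧ Same P g y h y' ∧ lev h = cl g x
  clique : ∀ g x x' h y e h' y' e', cl g x = lev g → cl g x' = lev g →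
    Same P g x h y → Same P g x' h' y' → lev h = lev g → lev h' = lev g →
    cl h e + 1 = lev g → cl h' e' + 1 = lev g →
    ∃ k q q', Same P h e k q ∧ Same P h' e' k q'
  embed : ∀ (w : List (S × Bool)) (x y : P.V), P.W x w y → gw P w = 1 → y = x
  near : ∀ g x, ∃ x₀ : P.V, ∀ h y y', Same P g x h y → y' ≠ y → cl h y' ≤ cl h y →
    ∃ w : List (S × Bool), w.length ≤ 3 * m ∧ P.W x₀ w y

section

variable {P : PG S} {m : ℕ} {hP : Small P m} (hN : NextOK hP) [Nonempty P.V]
  (hlet : ∀ a, ∃ p q, P.E p a q)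

include hlet in
theorem cell_lift {n : ℕ} {v v' : (lv hN n).Γ.V} {p q : P.V}
    (h : Same P (dev hN n v) p (dev hN n v') q) : Cell (lv hN n).Γ P v p v' q := by
  obtain ⟨w, hw, hx⟩ := h
  have h1 : dev hN (n + 1) (cls hP (⟨v, p, q, w, hw⟩ : Z (lv hN n))) =
      dev hN (n + 1) (cls hP (zpt (lv hN n) v' q)) := by
    rw [dev_succ_cls, dev_succ_cls, zval_eq _ (z := (⟨v, p, q, w, hw⟩ : Z (lv hN n))) hw,
      zval_at (isDev_dev hN n) (zpt_at v' q), hx]
  exact (cls_eq.1 (dev_inj hN hlet (n + 1) h1)).symm.at hP (zpt_at v' q)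

omit [Nonempty P.V] in
theorem cell_same {n : ℕ} {v v' : (lv hN n).Γ.V} {p q : P.V}
    (h : Cell (lv hN n).Γ P v p v' q) : Same P (dev hN n v) p (dev hN n v') q := by
  obtain ⟨t, h1, h2⟩ := h
  exact ⟨t, h2, (isDev_dev hN n).walk h1⟩

include hlet in
theorem F_iff {n : ℕ} {v : (lv hN (n + 1)).Γ.V} {p : P.V} :
    (lv hN (n + 1)).F v p ↔ ∃ b q, Same P (dev hN (n + 1) v) p (dev hN n b) q := by
  constructor
  · rintro ⟨z, rfl, hz⟩
    obtain ⟨w0, h0⟩ := z.reach
    refine ⟨z.b, z.p, Same.symm ⟨w0, hz ▸ h0, ?_⟩⟩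
    rw [dev_succ_cls, zval_eq _ h0]
  · rintro ⟨b, q, h⟩
    obtain ⟨w, hw, hx⟩ := h.symm
    refine ⟨⟨b, q, p, w, hw⟩, dev_inj hN hlet (n + 1) ?_, rfl⟩
    rw [dev_succ_cls, zval_eq _ (z := (⟨b, q, p, w, hw⟩ : Z (lv hN n))) hw, hx]

omit [Nonempty P.V] in
theorem not_F_zero {v : (lv hN 0).Γ.V} {p : P.V} : ¬ (lv hN 0).F v p := fun h => h

theorem dev_mono {n : ℕ} {v : (lv hN n).Γ.V} :
    ∃ v' : (lv hN (n + 1)).Γ.V, dev hN (n + 1) v' = dev hN n v :=
  ⟨emb hP (lv hN n) v, dev_emb hN n v⟩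

theorem dev_mono' {n k : ℕ} (hnk : n ≤ k) (v : (lv hN n).Γ.V) :
    ∃ v' : (lv hN k).Γ.V, dev hN k v' = dev hN n v := by
  induction hnk with
  | refl => exact ⟨v, rfl⟩
  | step _ ih =>
    obtain ⟨v', h⟩ := ih
    obtain ⟨v'', h'⟩ := dev_mono hN (v := v')
    exact ⟨v'', h'.trans h⟩

/-- level of a group element -/
noncomputable def glev (g : Grp P) : ℕ := sInf {n | ∃ v, dev hN n v = g}

include hlet in
theorem glev_spec (g : Grp P) : ∃ v, dev hN (glev hN g) v = g :=
  Nat.sInf_mem (s := {n | ∃ v, dev hN n v = g}) (dev_surj hN hlet g)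

omit [Nonempty P.V] in
theorem glev_le {n : ℕ} (v : (lv hN n).Γ.V) : glev hN (dev hN n v) ≤ n :=
  Nat.sInf_le (s := {k | ∃ v', dev hN k v' = dev hN n v}) ⟨v, rfl⟩

include hlet in
theorem exists_of_glev_le {g : Grp P} {n : ℕ} (h : glev hN g ≤ n) : ∃ v, dev hN n v = g := by
  obtain ⟨v, hv⟩ := glev_spec hN hlet g
  obtain ⟨v', hv'⟩ := dev_mono' hN h v
  exact ⟨v', hv'.trans hv⟩

/-- level of a cell -/
noncomputable def gcl (g : Grp P) (x : P.V) : ℕ := sInf {n | ∃ h y, Same P g x h y ∧ glev hN h = n}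

omit [Nonempty P.V] in
theorem gcl_spec (g : Grp P) (x : P.V) : ∃ h y, Same P g x h y ∧ glev hN h = gcl hN g x :=
  Nat.sInf_mem (s := {n | ∃ h y, Same P g x h y ∧ glev hN h = n}) ⟨_, g, x, Same.refl g x, rfl⟩

omit [Nonempty P.V] in
theorem gcl_le {g h : Grp P} {x y : P.V} (hs : Same P g x h y) : gcl hN g x ≤ glev hN h :=
  Nat.sInf_le (s := {n | ∃ h y, Same P g x h y ∧ glev hN h = n}) ⟨h, y, hs, rfl⟩

omit [Nonempty P.V] in
theorem gcl_same {g h : Grp P} {x y : P.V} (hs : Same P g x h y) : gcl hN h y = gcl hN g x := by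
  apply le_antisymm
  · obtain ⟨k, z, h1, h2⟩ := gcl_spec hN g x
    rw [← h2]
    exact gcl_le hN (hs.symm.trans h1)
  · obtain ⟨k, z, h1, h2⟩ := gcl_spec hN h y
    rw [← h2]
    exact gcl_le hN (hs.trans h1)

include hlet in
theorem F_iff_gcl {n : ℕ} {v : (lv hN (n + 1)).Γ.V} {p : P.V} :
    (lv hN (n + 1)).F v p ↔ gcl hN (dev hN (n + 1) v) p ≤ n := by
  rw [F_iff hN hlet]
  constructor
  · rintro ⟨b, q, h⟩
    exact (gcl_le hN h).trans (glev_le hN b)
  · intro h
    obtain ⟨k, z, h1, h2⟩ := gcl_spec hN (dev hN (n + 1) v) p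
    obtain ⟨b, rfl⟩ := exists_of_glev_le hN hlet (g := k) (n := n) (by omega)
    exact ⟨b, z, h1⟩

include hlet in
theorem glev_le_succ {g h : Grp P} {x y : P.V} {n : ℕ} (hs : Same P g x h y)
    (hh : glev hN h ≤ n) : glev hN g ≤ n + 1 := by
  obtain ⟨b, rfl⟩ := exists_of_glev_le hN hlet hh
  obtain ⟨w, hw, rfl⟩ := hs.symm
  have : dev hN (n + 1) (cls hP (⟨b, y, x, w, hw⟩ : Z (lv hN n))) = dev hN n b * gw P w := by
    rw [dev_succ_cls, zval_eq _ (z := (⟨b, y, x, w, hw⟩ : Z (lv hN n))) hw]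
  rw [← this]
  exact glev_le hN _

include hlet in
theorem glev_le_gcl (g : Grp P) (x : P.V) : glev hN g ≤ gcl hN g x + 1 := by
  obtain ⟨k, z, h1, h2⟩ := gcl_spec hN g x
  exact glev_le_succ hN hlet h1 h2.le

include hlet in
theorem not_F_of_gcl {n : ℕ} {v : (lv hN n).Γ.V} {p : P.V} (h : n ≤ gcl hN (dev hN n v) p) :
    ¬ (lv hN n).F v p := by
  cases n with
  | zero => exact not_F_zero hN
  | succ n =>
    intro hF
    have := (F_iff_gcl hN hlet).1 hF
    omega

/-- the exported model -/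
noncomputable def pmodel : PModel P m where
  lev := glev hN
  cl := gcl hN
  lev_eq_zero := by
    intro g
    constructor
    · intro h
      obtain ⟨v, hv⟩ := exists_of_glev_le hN hlet (g := g) (n := 0) (by omega)
      exact hv.symm
    · rintro rfl
      have := glev_le hN (n := 0) PUnit.unit
      have h1 : dev hN 0 PUnit.unit = 1 := rfl
      rw [h1] at this
      omega
  cl_same := fun g x h y hs => gcl_same hN hs
  cl_le := fun g x => gcl_le hN (Same.refl g x)
  lev_le := glev_le_gcl hN hlet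
  base := gcl_spec hN
  down := by
    intro g n hn
    obtain ⟨v, hv⟩ := exists_of_glev_le hN hlet (g := g) (n := n + 1) (by omega)
    obtain ⟨z, rfl⟩ := exists_cls (hP := hP) v
    refine ⟨z.q, ?_⟩
    have h1 : (lv hN (n + 1)).F (cls hP z) z.q := ⟨z, rfl, rfl⟩
    have h2 := (F_iff_gcl hN hlet).1 h1
    rw [hv] at h2
    have h3 := glev_le_gcl hN hlet g z.q
    omega
  share := by
    intro g x y hxy
    obtain ⟨v, hv⟩ := exists_of_glev_le hN hlet (glev_le_gcl hN hlet g x)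
    have h1 : (lv hN (gcl hN g x + 1)).F v x := (F_iff_gcl hN hlet).2 (by rw [hv])
    have h2 : (lv hN (gcl hN g x + 1)).F v y := (F_iff_gcl hN hlet).2 (by rw [hv, hxy])
    obtain ⟨b, p, p', w, xb, h3, _, h5, h6, h7, _⟩ := SC.share (hP := hP) h1 h2
    have e : dev hN (gcl hN g x + 1) xb = dev hN (gcl hN g x) b := by
      obtain ⟨z, rfl, hz⟩ := h3
      rw [dev_succ_cls, zval_at (isDev_dev hN _) hz]
    have h8 := (isDev_dev hN (gcl hN g x + 1)).walk h5
    rw [hv, e] at h8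
    refine ⟨dev hN (gcl hN g x) b, p, p', Same.symm ⟨w, h6, h8⟩, Same.symm ⟨w, h7, h8⟩, ?_⟩
    apply le_antisymm
    · exact glev_le hN b
    · exact gcl_le hN (Same.symm ⟨w, h6, h8⟩)
  clique := by
    intro g x x' h y e h' y' e' h1 h2 h3 h4 h5 h6 h7 h8
    obtain ⟨n, hn⟩ : ∃ n, glev hN g = n + 1 := ⟨gcl hN h e, h7.symm⟩
    rw [hn] at h1 h2 h5 h6 h7 h8
    obtain ⟨v, rfl⟩ := exists_of_glev_le hN hlet hn.le
    obtain ⟨vh, rfl⟩ := exists_of_glev_le hN hlet h5.le
    obtain ⟨vh', rfl⟩ := exists_of_glev_le hN hlet h6.le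
    have f1 : ¬ (lv hN (n + 1)).F v x := not_F_of_gcl hN hlet h1.ge
    have f2 : ¬ (lv hN (n + 1)).F v x' := not_F_of_gcl hN hlet h2.ge
    have c1 := cell_lift hN hlet h3
    have c2 := cell_lift hN hlet h4
    have g1 : (lv hN (n + 1)).F vh e := (F_iff_gcl hN hlet).2 (by omega)
    have g2 : (lv hN (n + 1)).F vh' e' := (F_iff_gcl hN hlet).2 (by omega)
    obtain ⟨k, q, q', k1, k2⟩ := N_clique (hP := hP) f1 f2 c1 c2 g1 g2
    exact ⟨dev hN (n + 1) k, q, q', cell_same hN k1, cell_same hN k2⟩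
  embed := by
    intro w x y h h1
    exact (levels hN hlet).inj (w := w) (w' := []) (p := x) h rfl (by rw [h1, gw_nil])
  near := by
    intro g x
    obtain ⟨b, x₀, hb, hbl⟩ := gcl_spec hN g x
    refine ⟨x₀, ?_⟩
    intro h y y' hs hne hle
    obtain ⟨k, hk⟩ : ∃ k, gcl hN g x = k := ⟨_, rfl⟩
    rw [hk] at hbl
    have e1 : gcl hN h y = k := (gcl_same hN hs).trans hk
    rw [e1] at hle
    obtain ⟨vb, rfl⟩ := exists_of_glev_le hN hlet hbl.le
    have hl : glev hN h ≤ k + 1 := (glev_le_gcl hN hlet h y).trans (by omega)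
    obtain ⟨vh, rfl⟩ := exists_of_glev_le hN hlet hl
    have f1 : (lv hN (k + 1)).F vh y := (F_iff_gcl hN hlet).2 (by omega)
    have f2 : (lv hN (k + 1)).F vh y' := (F_iff_gcl hN hlet).2 (by omega)
    obtain ⟨c, p, p', w, xc, h3, _, h5, h6, h7, h8⟩ := SC.share (hP := hP) f1 f2
    have e : dev hN (k + 1) xc = dev hN k c := by
      obtain ⟨z, rfl, hz⟩ := h3
      rw [dev_succ_cls, zval_at (isDev_dev hN _) hz]
    have h9 := (isDev_dev hN (k + 1)).walk h5
    rw [e] at h9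
    have s1 : Same P (dev hN k vb) x₀ (dev hN k c) p :=
      (hb.symm.trans hs).trans (Same.symm ⟨w, h6, h9⟩)
    have c1 := cell_lift hN hlet s1
    have f3 : ¬ (lv hN k).F vb x₀ := by
      apply not_F_of_gcl hN hlet
      rw [gcl_same hN hb, hk]
    obtain ⟨t, _, _, ht, htl⟩ := cell_short f3 c1
    refine ⟨t ++ w, ?_, (P.W_append).2 ⟨_, ht, h6⟩⟩
    have := h8 hne.symm
    rw [List.length_append]
    omega

end

end Crest.Agent.R199.SC

namespace Crest.Agent.R199

open SC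

variable {S : Type}

/-- the positions as a `PG` -/
def toPG (D : SCData S) : PG S where
  V := D.Pos
  E := fun x a y => D.A.st a x = some y
  det := by
    intro v a v1 v2 h1 h2
    rw [h1] at h2
    exact Option.some.inj h2
  symm := fun h => D.A.symm _ _ _ h

theorem W_iff_read (D : SCData S) {x y : D.Pos} {w : List (S × Bool)} :
    (toPG D).W x w y ↔ D.A.read w x = some y := by
  induction w generalizing x with
  | nil =>
    show x = y ↔ some x = some y
    exact Option.some_inj.symm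
  | cons a w ih =>
    show (∃ v, D.A.st a x = some v ∧ (toPG D).W v w y) ↔ (D.A.st a x).bind (D.A.read w) = some y
    rw [Option.bind_eq_some_iff]
    simp only [ih]

theorem small_toPG (D : SCData S) : Small (toPG D) (D.m - 1) where
  pos := by have := D.two_le_m; omega
  girth := by
    intro p w hr hw hl
    by_contra hne
    have := D.two_le_m
    exact D.girth p w hr hne (by omega) ((W_iff_read D).1 hw)
  uniq := by
    intro w p q p' q' hr hl hw hw'
    have h2 := D.two_le_m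
    have e : w = w.take D.m ++ w.drop D.m := (List.take_append_drop _ _).symm
    rw [e, PG.W_append] at hw hw'
    obtain ⟨r, h1, _⟩ := hw
    obtain ⟨r', h1', _⟩ := hw'
    have k1 := (W_iff_read D).1 h1
    have k1' := (W_iff_read D).1 h1'
    refine D.uniq p p' (w.take D.m) (hr.infix ⟨[], w.drop D.m, by simp⟩) ?_ ?_ ?_
    · rw [List.length_take]; omega
    · rw [k1]; rfl
    · rw [k1']; rfl

theorem rels_toPG (D : SCData S) : SC.rels (toPG D) = D.rels := by
  ext r
  rw [SC.mem_rels]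
  constructor
  · rintro ⟨p, w, h, rfl⟩
    exact ⟨p, w, (W_iff_read D).1 h, rfl⟩
  · rintro ⟨p, w, h, rfl⟩
    exact ⟨p, w, (W_iff_read D).2 h, rfl⟩

/-- the fields of the exported model for a group `PresentedGroup R` with `R = rels P` -/
theorem exists_model_aux (P : PG S) (m : ℕ) (hP : Small P m) (hne : Nonempty P.V)
    (hlet : ∀ a, ∃ p q, P.E p a q) (R : Set (FreeGroup S)) (hR : SC.rels P = R)
    (Sm : PresentedGroup R → P.V → PresentedGroup R → P.V → Prop)
    (hS : ∀ g x h y, Sm g x h y ↔ ∃ w, P.W x w y ∧ h = g * PresentedGroup.mk R (FreeGroup.mk w)) :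
    ∃ (lev : PresentedGroup R → ℕ) (cl : PresentedGroup R → P.V → ℕ),
      (∀ g, lev g = 0 ↔ g = 1) ∧
      (∀ g x h y, Sm g x h y → cl h y = cl g x) ∧
      (∀ g x, cl g x ≤ lev g) ∧
      (∀ g x, lev g ≤ cl g x + 1) ∧
      (∀ g x, ∃ h y, Sm g x h y ∧ lev h = cl g x) ∧
      (∀ g n, lev g = n + 1 → ∃ x, cl g x = n) ∧
      (∀ g x y, cl g x = cl g y → ∃ h x' y', Sm g x h x' ∧ Sm g y h y' ∧ lev h = cl g x) ∧
      (∀ g x x' h y e h' y' e', cl g x = lev g → cl g x' = lev g →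
        Sm g x h y → Sm g x' h' y' → lev h = lev g → lev h' = lev g →
        cl h e + 1 = lev g → cl h' e' + 1 = lev g →
        ∃ k q q', Sm h e k q ∧ Sm h' e' k q') ∧
      (∀ (w : List (S × Bool)) (x y : P.V), P.W x w y →
        PresentedGroup.mk R (FreeGroup.mk w) = 1 → y = x) ∧
      (∀ g x, ∃ x₀ : P.V, ∀ h y y', Sm g x h y → y' ≠ y → cl h y' ≤ cl h y →
        ∃ w : List (S × Bool), w.length ≤ 3 * m ∧ P.W x₀ w y) := by
  subst hR
  have hSm : Sm = SC.Same P := by
    funext g x h y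
    exact propext (hS g x h y)
  subst hSm
  have M := SC.pmodel (SC.nextOK' hP) hlet
  exact ⟨M.lev, M.cl, M.lev_eq_zero, M.cl_same, M.cl_le, M.lev_le, M.base, M.down, M.share,
    M.clique, M.embed, M.near⟩

theorem exists_model (D : SCData S) : Nonempty D.Model := by
  by_cases hS : Nonempty D.Pos
  · have hlet : ∀ a, ∃ p q, (toPG D).E p a q := by
      intro a
      obtain ⟨x, hx⟩ := D.letters a
      obtain ⟨y, hy⟩ := Option.isSome_iff_exists.1 hx
      exact ⟨x, y, hy⟩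
    obtain ⟨lev, cl, h1, h2, h3, h4, h5, h6, h7, h8, h9, h10⟩ :=
      exists_model_aux (toPG D) (D.m - 1) (small_toPG D) hS hlet D.rels (rels_toPG D) D.Same
        (fun g x h y => by
          unfold SCData.Same
          constructor
          · rintro ⟨w, k1, k2⟩
            exact ⟨w, (W_iff_read D).2 k1, k2⟩
          · rintro ⟨w, k1, k2⟩
            exact ⟨w, (W_iff_read D).1 k1, k2⟩)
    refine ⟨⟨lev, cl, h1, h2, h3, h4, h5, h6, h7, ?_, ?_, ?_⟩⟩
    · intro g x x' h y e h' y' e' a1 a2 a3 a4 a5 a6 a7 a8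
      obtain ⟨k, q, q', b1, b2⟩ := h8 g x x' h y e h' y' e' a1 a2 a3 a4 a5 a6 a7 a8
      exact ⟨k, q, q', b1, b2⟩
    · intro w x y hw hg
      exact h9 w x y ((W_iff_read D).2 hw) hg
    · intro g x
      obtain ⟨x₀, hx⟩ := h10 g x
      refine ⟨x₀, fun h y y' a1 a2 a3 => ?_⟩
      obtain ⟨w, hw1, hw2⟩ := hx h y y' a1 a2 a3
      exact ⟨w, by omega, (W_iff_read D).1 hw2⟩
  · -- no positions: the alphabet is empty and the group is trivial
    have hSe : IsEmpty S := ⟨fun s => hS (by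
      obtain ⟨x, _⟩ := D.letters (s, true)
      exact ⟨x⟩)⟩
    have hsub : ∀ g : D.Grp, g = 1 := by
      intro g
      obtain ⟨x, rfl⟩ := PresentedGroup.mk_surjective D.rels g
      have : x = 1 := Subsingleton.elim _ _
      rw [this]
      exact map_one _
    have hE : D.Pos → False := fun x => hS ⟨x⟩
    exact ⟨{
      lev := fun _ => 0
      cl := fun _ _ => 0
      lev_eq_zero := fun g => ⟨fun _ => hsub g, fun _ => rfl⟩
      cl_same := fun _ _ _ _ _ => rfl
      cl_le := fun _ _ => le_rfl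
      lev_le := fun _ _ => by simp
      base := fun _ x => (hE x).elim
      down := fun _ _ h => by simp at h
      share := fun _ x => (hE x).elim
      clique := fun _ x => (hE x).elim
      embed := fun _ x => (hE x).elim
      near := fun _ x => (hE x).elim }⟩

end Crest.Agent.R199
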