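import Mathlib

/-!
# Row 199, Part III: a surjective, non-injective square matrix over the group ring kills
residual finiteness

* `delta β D : (G →₀ C) →ₗ[K] (G →₀ W)`, `c·[g] ↦ ∑ i, D i c · [g * β i]`.
* `not_RF` : `finrank C = finrank W`, every `w·[1]` is hit, the kernel is nonzero ⇒ `G` is not
  residually finite.
* `not_RF_of_section` : same with a section `ρ`, the kernel element being
  `c·[1] - ∑ i, β i · ρ (D i c)`.
-/

set_option autoImplicit false

namespace Crest.Agent.R199.AlgIII

open Finset

variable {K : Type*} [Field K] {C W : Type*} [AddCommGroup C] [Module K C]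
  [AddCommGroup W] [Module K W] {I : Type*} [Fintype I]

section defs
variable {G : Type*} [Group G]

/-- Right multiplication by a matrix over the group ring. -/
noncomputable def delta (β : I → G) (D : I → C →ₗ[K] W) : (G →₀ C) →ₗ[K] (G →₀ W) :=
  ∑ i, (Finsupp.lmapDomain W K (fun g => g * β i)) ∘ₗ (Finsupp.mapRange.linearMap (D i))

/-- Left translation. -/
noncomputable def lt (K : Type*) [Field K] (C : Type*) [AddCommGroup C] [Module K C] (h : G) :
    (G →₀ C) →ₗ[K] (G →₀ C) :=
  Finsupp.lmapDomain C K (fun g => h * g)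

theorem lt_single (h g : G) (c : C) :
    lt K C h (Finsupp.single g c) = Finsupp.single (h * g) c := by
  simp [lt]

theorem delta_single (β : I → G) (D : I → C →ₗ[K] W) (g : G) (c : C) :
    delta β D (Finsupp.single g c) = ∑ i, Finsupp.single (g * β i) (D i c) := by
  simp [delta, LinearMap.sum_apply]

theorem delta_lt (β : I → G) (D : I → C →ₗ[K] W) (h : G) (f : G →₀ C) :
    delta β D (lt K C h f) = lt K W h (delta β D f) := by
  have : (delta β D) ∘ₗ (lt K C h) = (lt K W h) ∘ₗ (delta β D) := by
    ext g c : 2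
    simp only [LinearMap.comp_apply, Finsupp.lsingle_apply, lt_single, delta_single, map_sum]
    refine sum_congr rfl fun i _ => ?_
    rw [mul_assoc]
  exact congrArg (fun L => L f) this

end defs

section map
variable {G Q : Type*} [Group G] [Group Q]

/-- Push-forward along a homomorphism. -/
noncomputable def push (K : Type*) [Field K] (C : Type*) [AddCommGroup C] [Module K C]
    (π : G →* Q) : (G →₀ C) →ₗ[K] (Q →₀ C) :=
  Finsupp.lmapDomain C K π

theorem push_single (π : G →* Q) (g : G) (c : C) :
    push K C π (Finsupp.single g c) = Finsupp.single (π g) c := by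
  simp [push]

theorem delta_push (π : G →* Q) (β : I → G) (D : I → C →ₗ[K] W) (f : G →₀ C) :
    delta (fun i => π (β i)) D (push K C π f) = push K W π (delta β D f) := by
  have : (delta (fun i => π (β i)) D) ∘ₗ (push K C π) = (push K W π) ∘ₗ (delta β D) := by
    ext g c : 2
    simp only [LinearMap.comp_apply, Finsupp.lsingle_apply, push_single, delta_single, map_sum,
      map_mul]
  exact congrArg (fun L => L f) this

end map

/-- In a residually finite group a finite set is separated by a finite quotient. -/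
theorem exists_finite_quotient {G : Type*} [Group G] [Group.ResiduallyFinite G] (s : Finset G) :
    ∃ N : Subgroup G, ∃ _ : N.Normal, N.FiniteIndex ∧
      ∀ g ∈ s, ∀ h ∈ s, (g : G ⧸ N) = (h : G ⧸ N) → g = h := by
  classical
  have key : ∀ t : Finset G, (∀ g ∈ t, g ≠ 1) →
      ∃ N : Subgroup G, N.Normal ∧ N.FiniteIndex ∧ ∀ g ∈ t, g ∉ N := by
    intro t
    induction t using Finset.induction_on with
    | empty =>
      intro _
      exact ⟨⊤, inferInstance, inferInstance, by simp⟩
    | insert a t ha ih =>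
      intro h
      obtain ⟨N, hN, hf, hN'⟩ := ih (fun g hg => h g (mem_insert_of_mem hg))
      obtain ⟨H, hH⟩ := Group.exists_finiteIndexNormalSubgroup_notMem a (h a (mem_insert_self _ _))
      have := hN
      have := hf
      have : H.toSubgroup.Normal := H.isNormal'
      have : H.toSubgroup.FiniteIndex := H.isFiniteIndex'
      refine ⟨N ⊓ H.toSubgroup, inferInstance, inferInstance, ?_⟩
      intro g hg hgN
      rcases mem_insert.1 hg with rfl | hg
      · exact hH hgN.2
      · exact hN' g hg hgN.1
  obtain ⟨N, hN, hf, hN'⟩ := key (((s ×ˢ s).image (fun x => x.1⁻¹ * x.2)).filter (fun g => g ≠ 1))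
    (by intro g hg; exact (mem_filter.1 hg).2)
  refine ⟨N, hN, hf, ?_⟩
  intro g hg h hh hgh
  by_contra hne
  have h1 : g⁻¹ * h ∈ N := (QuotientGroup.eq).1 hgh
  refine hN' (g⁻¹ * h) ?_ h1
  rw [mem_filter]
  refine ⟨mem_image.2 ⟨(g, h), mem_product.2 ⟨hg, hh⟩, rfl⟩, ?_⟩
  intro h2
  apply hne
  exact (inv_mul_eq_one.1 h2)

/-- **Part III, abstract form.** -/
theorem not_RF [FiniteDimensional K C] [FiniteDimensional K W]
    (hrank : Module.finrank K C = Module.finrank K W)
    {G : Type*} [Group G] (β : I → G) (D : I → C →ₗ[K] W)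
    (hsurj : ∀ w : W, ∃ ξ : G →₀ C, delta β D ξ = Finsupp.single 1 w)
    (κ : G →₀ C) (hκ : κ ≠ 0) (hδ : delta β D κ = 0) : ¬ Group.ResiduallyFinite G := by
  classical
  intro hRF
  obtain ⟨N, hN, hf, hsep⟩ := exists_finite_quotient κ.support
  have := hN
  have := hf
  have : Finite (G ⧸ N) := Subgroup.finite_quotient_of_finiteIndex
  have := Fintype.ofFinite (G ⧸ N)
  set π : G →* G ⧸ N := QuotientGroup.mk' N with hπ
  set δ : ((G ⧸ N) →₀ C) →ₗ[K] ((G ⧸ N) →₀ W) := delta (fun i => π (β i)) D with hδdef
  -- surjectivity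
  have hs : Function.Surjective δ := by
    rw [← LinearMap.range_eq_top, eq_top_iff]
    intro f _
    rw [← Finsupp.sum_single f]
    refine Submodule.sum_mem _ fun q _ => ?_
    obtain ⟨ξ, hξ⟩ := hsurj (f q)
    refine ⟨lt K C q (push K C π ξ), ?_⟩
    rw [hδdef, delta_lt, delta_push, hξ, push_single, lt_single, map_one, mul_one]
  have hfr : Module.finrank K ((G ⧸ N) →₀ C) = Module.finrank K ((G ⧸ N) →₀ W) := by
    rw [(Finsupp.linearEquivFunOnFinite K C (G ⧸ N)).finrank_eq,
      (Finsupp.linearEquivFunOnFinite K W (G ⧸ N)).finrank_eq,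
      Module.finrank_pi_fintype, Module.finrank_pi_fintype, hrank]
  have hi : Function.Injective δ :=
    (LinearMap.injective_iff_surjective_of_finrank_eq_finrank hfr).2 hs
  have h0 : push K C π κ = 0 := by
    apply hi
    rw [map_zero, hδdef, delta_push, hδ, map_zero]
  apply hκ
  ext g
  by_cases hg : g ∈ κ.support
  · have h1 := congrArg (fun f => f (π g)) h0
    have h2 : (push K C π κ) (π g) = κ g := by
      show (Finsupp.mapDomain π κ) (π g) = κ g
      rw [Finsupp.mapDomain, Finsupp.sum_apply, Finsupp.sum, Finset.sum_eq_single g]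
      · exact Finsupp.single_eq_same
      · intro b hb hbg
        apply Finsupp.single_eq_of_ne
        intro h
        exact hbg (hsep b hb g hg h.symm)
      · intro h
        exact absurd hg h
    rw [← h2]
    simpa using h1
  · simpa using hg

/-- **Part III with an explicit section.** -/
theorem not_RF_of_section [FiniteDimensional K C] [FiniteDimensional K W]
    (hrank : Module.finrank K C = Module.finrank K W)
    {G : Type*} [Group G] (β : I → G) (D : I → C →ₗ[K] W)
    (ρ : W → (G →₀ C)) (hρ : ∀ w : W, delta β D (ρ w) = Finsupp.single 1 w)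
    (c : C) (hne : Finsupp.single 1 c ≠ ∑ i, lt K C (β i) (ρ (D i c))) :
    ¬ Group.ResiduallyFinite G := by
  classical
  refine not_RF hrank β D (fun w => ⟨ρ w, hρ w⟩)
    (Finsupp.single 1 c - ∑ i, lt K C (β i) (ρ (D i c))) (sub_ne_zero.2 hne) ?_
  rw [map_sub, map_sum, delta_single, sub_eq_zero]
  refine sum_congr rfl fun i _ => ?_
  rw [delta_lt, hρ, lt_single, one_mul, mul_one]

/-! ### The form used for gadgets: `K = ZMod 2`, flags are pairs `(z, k)` -/

section gadget

variable {P : Type*} {Z : Type*} [Fintype Z] [DecidableEq Z] {κ : Type*} [Fintype κ]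
variable (C' : Submodule (ZMod 2) (P → ZMod 2)) (t : Z × κ → P)

/-- The component of the twisted class map at the flag type `i = (z, k)`. -/
def Dmap (i : Z × κ) : C' →ₗ[ZMod 2] (Z → ZMod 2) :=
  (LinearMap.single (ZMod 2) (fun _ : Z => ZMod 2) i.1) ∘ₗ (LinearMap.proj (t i)) ∘ₗ C'.subtype

omit [Fintype Z] [Fintype κ] in
theorem Dmap_apply (i : Z × κ) (c : C') : Dmap C' t i c = Pi.single i.1 ((c : P → ZMod 2) (t i)) :=
  rfl

/-- The chain of a labelled vertex family. -/
noncomputable def chain {G V : Type*} [Group G] [Fintype V] (γ : V → G) (ℓ : V → C') :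
    G →₀ C' :=
  ∑ v, Finsupp.single (γ v) (ℓ v)

theorem zmod2_eq_one {x : ZMod 2} (h : x ≠ 0) : x = 1 := by
  revert h
  revert x
  decide

/-- Matched flags cancel. -/
theorem delta_chain {G V : Type*} [Group G] [Fintype V] [DecidableEq V] [DecidableEq κ]
    (β : Z × κ → G) (γ : V → G) (ℓ : V → C')
    (f0 : V × (Z × κ)) (hf0 : (ℓ f0.1 : P → ZMod 2) (t f0.2) ≠ 0) (hγ0 : γ f0.1 * β f0.2 = 1)
    (τ : V × (Z × κ) → V × (Z × κ))
    (hτ : ∀ f, (ℓ f.1 : P → ZMod 2) (t f.2) ≠ 0 → f ≠ f0 →
      (ℓ (τ f).1 : P → ZMod 2) (t (τ f).2) ≠ 0 ∧ τ f ≠ f0 ∧ τ (τ f) = f ∧ τ f ≠ f ∧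
      (τ f).2.1 = f.2.1 ∧ γ (τ f).1 * β (τ f).2 = γ f.1 * β f.2) :
    delta β (Dmap C' t) (chain C' γ ℓ) = Finsupp.single 1 (Pi.single f0.2.1 1) := by
  classical
  rw [chain, map_sum]
  simp only [delta_single, Dmap_apply]
  rw [← Finset.sum_product' (s := univ) (t := univ)
    (f := fun v i => Finsupp.single (γ v * β i) (Pi.single i.1 ((ℓ v : P → ZMod 2) (t i)) :
      Z → ZMod 2))]
  have hsub : ∑ x ∈ (univ ×ˢ univ : Finset (V × (Z × κ))),
      Finsupp.single (γ x.1 * β x.2) (Pi.single x.2.1 ((ℓ x.1 : P → ZMod 2) (t x.2)) :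
        Z → ZMod 2) =
      ∑ x ∈ (univ : Finset (V × (Z × κ))).filter
        (fun f => (ℓ f.1 : P → ZMod 2) (t f.2) ≠ 0),
      Finsupp.single (γ x.1 * β x.2) (Pi.single x.2.1 1 : Z → ZMod 2) := by
    rw [univ_product_univ, sum_filter]
    refine sum_congr rfl fun f _ => ?_
    split_ifs with h
    · rw [zmod2_eq_one h]
    · push Not at h
      rw [h]
      simp
  rw [hsub, ← Finset.add_sum_erase (a := f0)]
  · have hz : ∑ x ∈ ((univ : Finset (V × (Z × κ))).filter
        (fun f => (ℓ f.1 : P → ZMod 2) (t f.2) ≠ 0)).erase f0,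
      Finsupp.single (γ x.1 * β x.2) (Pi.single x.2.1 1 : Z → ZMod 2) = 0 := by
      refine Finset.sum_involution (fun f _ => τ f) ?_ ?_ ?_ ?_
      · intro f hf
        rw [mem_erase, mem_filter] at hf
        obtain ⟨-, -, -, -, h5, h6⟩ := hτ f hf.2.2 hf.1
        rw [h6, h5, ← Finsupp.single_add]
        have : (Pi.single f.2.1 1 : Z → ZMod 2) + Pi.single f.2.1 1 = 0 := by
          rw [← Pi.single_add]
          have h : (1 : ZMod 2) + 1 = 0 := by decide
          rw [h]
          simp
        rw [this, Finsupp.single_zero]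
      · intro f hf _
        rw [mem_erase, mem_filter] at hf
        exact (hτ f hf.2.2 hf.1).2.2.2.1
      · intro f hf
        rw [mem_erase, mem_filter] at hf ⊢
        have := hτ f hf.2.2 hf.1
        exact ⟨this.2.1, mem_univ _, this.1⟩
      · intro f hf
        rw [mem_erase, mem_filter] at hf
        exact (hτ f hf.2.2 hf.1).2.2.1
    rw [hz, add_zero, hγ0]
  · rw [mem_filter]
    exact ⟨mem_univ _, hf0⟩

/-- **Part III, gadget form.** `Ξ z` is the gadget of class `z`: vertices `V z`, positions
`γ z : V z → G`, lines `ℓ z : V z → C'`. -/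
theorem not_RF_of_gadgets [Finite P] (hrank : Module.finrank (ZMod 2) C' = Fintype.card Z)
    {G : Type*} [Group G] (β : Z × κ → G)
    (V : Z → Type*) [∀ z, Fintype (V z)] (γ : ∀ z, V z → G) (ℓ : ∀ z, V z → C')
    (hg : ∀ z, delta β (Dmap C' t) (chain C' (γ z) (ℓ z)) = Finsupp.single 1 (Pi.single z 1))
    (c : C') (i0 : Z × κ) (hi0 : (c : P → ZMod 2) (t i0) ≠ 0) (v0 : V i0.1)
    (hv0 : ℓ i0.1 v0 ≠ 0) (h1 : β i0 * γ i0.1 v0 ≠ 1)
    (huniq : ∀ (i : Z × κ) (v : V i.1), (c : P → ZMod 2) (t i) ≠ 0 →
      β i * γ i.1 v = β i0 * γ i0.1 v0 → (⟨i, v⟩ : Σ i : Z × κ, V i.1) = ⟨i0, v0⟩) :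
    ¬ Group.ResiduallyFinite G := by
  classical
  set ρ : (Z → ZMod 2) → (G →₀ C') := fun w => ∑ z, w z • chain C' (γ z) (ℓ z) with hρdef
  refine not_RF_of_section (by rw [hrank, Module.finrank_pi]) β (Dmap C' t) ρ ?_ c ?_
  · intro w
    rw [hρdef]
    simp only [map_sum, map_smul, hg]
    have : w = ∑ z, w z • (Pi.single z 1 : Z → ZMod 2) := by
      ext z
      rw [Finset.sum_apply, Finset.sum_eq_single z]
      · simp
      · intro b _ hb
        simp [Pi.single_eq_of_ne hb.symm]
      · intro h
        exact absurd (mem_univ _) h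
    conv_rhs => rw [this, Finsupp.single_finsetSum]
    simp only [Finsupp.smul_single]
  · intro hcon
    have h2 := congrArg (fun f => f (β i0 * γ i0.1 v0)) hcon
    rw [Finsupp.single_eq_of_ne h1, Finsupp.finsetSum_apply] at h2
    have hterm : ∀ i ∈ (univ : Finset (Z × κ)), (lt (ZMod 2) C' (β i) (ρ (Dmap C' t i c)))
        (β i0 * γ i0.1 v0) =
        if i = i0 then ℓ i0.1 v0 else 0 := by
      intro i _
      have hρi : ρ (Dmap C' t i c) = (c : P → ZMod 2) (t i) • chain C' (γ i.1) (ℓ i.1) := by
        rw [hρdef]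
        simp only [Dmap_apply]
        rw [Finset.sum_eq_single i.1]
        · simp
        · intro b _ hb
          simp [Pi.single_eq_of_ne hb]
        · intro h
          exact absurd (mem_univ _) h
      rw [hρi, map_smul, chain, map_sum]
      simp only [lt_single]
      rw [Finsupp.smul_apply, Finsupp.finsetSum_apply]
      by_cases hc : (c : P → ZMod 2) (t i) ≠ 0
      · rw [zmod2_eq_one hc, one_smul]
        by_cases hii : i = i0
        · subst hii
          rw [if_pos rfl, Finset.sum_eq_single v0]
          · exact Finsupp.single_eq_same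
          · intro v _ hv
            apply Finsupp.single_eq_of_ne
            intro h
            have := huniq i v hc h.symm
            rw [Sigma.mk.injEq] at this
            exact hv (eq_of_heq this.2)
          · intro h
            exact absurd (mem_univ _) h
        · rw [if_neg hii]
          refine Finset.sum_eq_zero fun v _ => ?_
          apply Finsupp.single_eq_of_ne
          intro h
          have := huniq i v hc h.symm
          rw [Sigma.mk.injEq] at this
          exact hii this.1
      · push Not at hc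
        rw [hc, zero_smul, if_neg]
        intro h
        exact hi0 (h ▸ hc)
    rw [Finset.sum_congr rfl hterm, Finset.sum_ite_eq' univ i0] at h2
    simp only [mem_univ, if_true] at h2
    exact hv0 h2.symm

end gadget

end Crest.Agent.R199.AlgIII
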