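import Mathlib

/-! I.4: direction blocks: many injective maps `Fin M → (Q → E)`, two different blocks share at most one
value. Lines of the affine 3-space over the field with `card Q = 2 ^ a` elements. -/

set_option autoImplicit false

namespace Crest.Agent.R199

theorem exists_blocks (a : ℕ) (ha : a ≠ 0) (E : Type) [Fintype E]
    (hE : Fintype.card E = (2 ^ a) ^ 3) (I : Type) [Fintype I] (hI : Fintype.card I ≤ (2 ^ a) ^ 4) :
    ∃ δ : I → Fin (2 ^ a) → E, (∀ i, Function.Injective (δ i)) ∧
      ∀ i i' s s' t t', δ i s = δ i' t → δ i s' = δ i' t' → s ≠ s' → i = i' := by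
  classical
  have : Fact (Nat.Prime 2) := ⟨Nat.prime_two⟩
  obtain ⟨F, _, _, hF⟩ : ∃ (F : Type) (_ : Field F) (_ : Fintype F), Fintype.card F = 2 ^ a := by
    have : Fintype (GaloisField 2 a) := Fintype.ofFinite _
    refine ⟨GaloisField 2 a, inferInstance, inferInstance, ?_⟩
    rw [← Nat.card_eq_fintype_card, GaloisField.card 2 a ha]
  -- enumerate the field
  have eF : Fin (2 ^ a) ≃ F := (Fintype.equivFinOfCardEq hF).symm
  have eE : (F × F × F) ≃ E := by
    apply Fintype.equivOfCardEq
    rw [Fintype.card_prod, Fintype.card_prod, hF, hE]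
    ring
  have hI' : Fintype.card I ≤ Fintype.card (F × F × F × F) := by
    rw [Fintype.card_prod, Fintype.card_prod, Fintype.card_prod, hF]
    calc Fintype.card I ≤ (2 ^ a) ^ 4 := hI
      _ = 2 ^ a * (2 ^ a * (2 ^ a * 2 ^ a)) := by ring
  obtain ⟨j⟩ : Nonempty (I ↪ F × F × F × F) := Function.Embedding.nonempty_of_card_le hI'
  refine ⟨fun i s => eE (eF s, (j i).1 + (j i).2.1 * eF s, (j i).2.2.1 + (j i).2.2.2 * eF s), ?_, ?_⟩
  · intro i s s' h
    have h1 := eE.injective h
    simp only [Prod.mk.injEq] at h1
    exact eF.injective h1.1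
  · intro i i' s s' t t' h h' hne
    have h1 := eE.injective h
    have h2 := eE.injective h'
    simp only [Prod.mk.injEq] at h1 h2
    obtain ⟨a1, b1, c1⟩ := h1
    obtain ⟨a2, b2, c2⟩ := h2
    rw [← a1] at b1 c1
    rw [← a2] at b2 c2
    have hne' : eF s - eF s' ≠ 0 := sub_ne_zero.mpr (fun h => hne (eF.injective h))
    have e1 : (j i).2.1 = (j i').2.1 := by
      have : ((j i).2.1 - (j i').2.1) * (eF s - eF s') = 0 := by linear_combination b1 - b2
      rcases mul_eq_zero.mp this with h | h
      · exact sub_eq_zero.mp h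
      · exact absurd h hne'
    have e2 : (j i).2.2.2 = (j i').2.2.2 := by
      have : ((j i).2.2.2 - (j i').2.2.2) * (eF s - eF s') = 0 := by linear_combination c1 - c2
      rcases mul_eq_zero.mp this with h | h
      · exact sub_eq_zero.mp h
      · exact absurd h hne'
    have e3 : (j i).1 = (j i').1 := by
      rw [e1] at b1
      exact add_right_cancel b1
    have e4 : (j i).2.2.1 = (j i').2.2.1 := by
      rw [e2] at c1
      exact add_right_cancel c1
    apply j.injective
    exact Prod.ext e3 (Prod.ext e1 (Prod.ext e4 e2))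

end Crest.Agent.R199
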