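import Mathlib
import Crest.Prelude.Def_WordHyperbolic

/-!
# Row 199, Part IV: graded graphs and hyperbolicity

A connected graph with a level function such that
* adjacent vertices differ by at most one level,
* every vertex of positive level has a down neighbour,
* vertices of level zero are pairwise equal or adjacent,
* adjacent vertices of the same positive level have a common down neighbour,
* for equal or adjacent vertices `a b` of the same level every down neighbour of `a` is equal or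
  adjacent to every down neighbour of `b`,

satisfies the four-point condition.  Then the transfer to the word metric of a group.
-/

set_option autoImplicit false

namespace Crest.Agent.R199

variable {V : Type*}

/-- The axioms of a graded graph. -/
structure Graded (Γ : SimpleGraph V) (lev : V → ℕ) : Prop where
  adj_le : ∀ {a b : V}, Γ.Adj a b → lev a ≤ lev b + 1
  down : ∀ a : V, lev a ≠ 0 → ∃ b, Γ.Adj a b ∧ lev b + 1 = lev a
  base : ∀ a b : V, lev a = 0 → lev b = 0 → a = b ∨ Γ.Adj a b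
  common : ∀ a b : V, Γ.Adj a b → lev a = lev b → lev a ≠ 0 →
    ∃ c, Γ.Adj a c ∧ Γ.Adj b c ∧ lev c + 1 = lev a
  clique : ∀ a b p r : V, (a = b ∨ Γ.Adj a b) → lev a = lev b →
    Γ.Adj a p → lev p + 1 = lev a → Γ.Adj b r → lev r + 1 = lev b → p = r ∨ Γ.Adj p r

namespace Graded

/-- Lazy horizontal paths of length `n`. -/
inductive Hor (Γ : SimpleGraph V) (lev : V → ℕ) : ℕ → V → V → Prop
  | nil (a : V) : Hor Γ lev 0 a a
  | cons {n : ℕ} {a b c : V} : (a = b ∨ Γ.Adj a b) → lev a = lev b → Hor Γ lev n b c →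
      Hor Γ lev (n + 1) a c

variable {Γ : SimpleGraph V} {lev : V → ℕ}

namespace Hor

theorem lev_eq {n : ℕ} {a b : V} (h : Hor Γ lev n a b) : lev a = lev b := by
  induction h with
  | nil => rfl
  | cons _ h1 _ ih => exact h1.trans ih

theorem succ {n : ℕ} {a b : V} (h : Hor Γ lev n a b) : Hor Γ lev (n + 1) a b :=
  Hor.cons (Or.inl rfl) rfl h

theorem mono {n m : ℕ} {a b : V} (h : Hor Γ lev n a b) (hnm : n ≤ m) : Hor Γ lev m a b := by
  induction hnm with
  | refl => exact h
  | step _ ih => exact ih.succ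

theorem trans {n m : ℕ} {a b c : V} (h : Hor Γ lev n a b) (h' : Hor Γ lev m b c) :
    Hor Γ lev (n + m) a c := by
  induction h with
  | nil => simpa using h'
  | @cons n a b c h1 h2 _ ih =>
    have := Hor.cons h1 h2 (ih h')
    have e : n + m + 1 = n + 1 + m := by omega
    exact e ▸ this

theorem one {a b : V} (h : a = b ∨ Γ.Adj a b) (hl : lev a = lev b) : Hor Γ lev 1 a b :=
  Hor.cons h hl (Hor.nil b)

theorem eq_of_zero {a b : V} (h : Hor Γ lev 0 a b) : a = b := by
  cases h; rfl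

theorem eq_or_adj {a b : V} (h : Hor Γ lev 1 a b) : a = b ∨ Γ.Adj a b := by
  cases h with
  | cons h1 _ h3 =>
    have := h3.eq_of_zero
    subst this
    exact h1

theorem walk {n : ℕ} {a b : V} (h : Hor Γ lev n a b) : ∃ w : Γ.Walk a b, w.length ≤ n := by
  induction h with
  | nil a => exact ⟨SimpleGraph.Walk.nil, by simp⟩
  | @cons n a b c h1 _ _ ih =>
    obtain ⟨w, hw⟩ := ih
    rcases h1 with h1 | h1
    · subst h1; exact ⟨w, by omega⟩
    · exact ⟨SimpleGraph.Walk.cons h1 w, by simp; omega⟩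

end Hor

/-- The descending relation: `b` is a down neighbour of `a`. -/
def Dn (Γ : SimpleGraph V) (lev : V → ℕ) (a b : V) : Prop := Γ.Adj a b ∧ lev b + 1 = lev a

/-- Descendants. -/
abbrev Desc (Γ : SimpleGraph V) (lev : V → ℕ) : V → V → Prop := Relation.ReflTransGen (Dn Γ lev)

theorem common' (H : Graded Γ lev) {a b : V} (h : a = b ∨ Γ.Adj a b) (hl : lev a = lev b)
    (h0 : lev a ≠ 0) : ∃ c, Dn Γ lev a c ∧ Dn Γ lev b c := by
  rcases h with h | h
  · subst h
    obtain ⟨c, hc⟩ := H.down a h0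
    exact ⟨c, hc, hc⟩
  · obtain ⟨c, h1, h2, h3⟩ := H.common a b h hl h0
    exact ⟨c, ⟨h1, h3⟩, ⟨h2, by omega⟩⟩

theorem clique' (H : Graded Γ lev) {a b p r : V} (h : a = b ∨ Γ.Adj a b) (hl : lev a = lev b)
    (hp : Dn Γ lev a p) (hr : Dn Γ lev b r) : Hor Γ lev 1 p r :=
  Hor.one (H.clique a b p r h hl hp.1 hp.2 hr.1 hr.2) (by have := hp.2; have := hr.2; omega)

/-- Projection of a horizontal path one level down. -/
theorem proj (H : Graded Γ lev) : ∀ (n : ℕ) {a b p r : V}, Hor Γ lev n a b → Dn Γ lev a p →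
    Dn Γ lev b r → Hor Γ lev (n / 2 + 1) p r := by
  intro n
  induction n using Nat.strong_induction_on with
  | _ n ih =>
    intro a b p r h hp hr
    match n, h, ih with
    | 0, h, _ =>
      have := h.eq_of_zero
      subst this
      exact H.clique' (Or.inl rfl) rfl hp hr
    | 1, h, _ => exact H.clique' h.eq_or_adj h.lev_eq hp hr
    | n + 2, h, ih =>
      cases h with
      | @cons _ _ x _ h1 h2 h3 =>
        cases h3 with
        | @cons _ _ y _ h4 h5 h6 =>
          have h0 : lev x ≠ 0 := by have := hp.2; omega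
          obtain ⟨q, hq1, hq2⟩ := H.common' h4 h5 h0
          have e1 : Hor Γ lev 1 p q := H.clique' h1 h2 hp hq1
          have e2 := ih n (by omega) h6 hq2 hr
          have := e1.trans e2
          exact this.mono (by omega)

theorem Desc.lev_le {a b : V} (h : Desc Γ lev a b) : lev b ≤ lev a := by
  induction h with
  | refl => exact le_rfl
  | tail _ h ih => have := h.2; omega

theorem Desc.eq_of_lev {a b : V} (h : Desc Γ lev a b) (hl : lev a ≤ lev b) : b = a := by
  rcases Relation.ReflTransGen.cases_tail h with h1 | ⟨c, h1, h2⟩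
  · exact h1
  · have := Desc.lev_le h1
    have := h2.2
    omega

theorem Desc.walk {a b : V} (h : Desc Γ lev a b) :
    ∃ w : Γ.Walk a b, w.length + lev b = lev a := by
  induction h using Relation.ReflTransGen.head_induction_on with
  | refl => exact ⟨SimpleGraph.Walk.nil, by simp⟩
  | head h _ ih =>
    obtain ⟨w, hw⟩ := ih
    exact ⟨SimpleGraph.Walk.cons h.1 w, by simp; have := h.2; omega⟩

theorem exists_desc (H : Graded Γ lev) (m : ℕ) (a : V) (hm : m ≤ lev a) :
    ∃ b, Desc Γ lev a b ∧ lev b = m := by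
  obtain ⟨k, hk⟩ : ∃ k, lev a = m + k := ⟨lev a - m, by omega⟩
  induction k generalizing a with
  | zero => exact ⟨a, Relation.ReflTransGen.refl, by omega⟩
  | succ k ih =>
    obtain ⟨c, hc1, hc2⟩ := H.down a (by omega)
    obtain ⟨b, hb1, hb2⟩ := ih c (by omega) (by omega)
    exact ⟨b, Relation.ReflTransGen.head ⟨hc1, hc2⟩ hb1, hb2⟩

theorem desc_shift (H : Graded Γ lev) {x' u : V} (h : Desc Γ lev x' u) :
    ∀ x : V, (x = x' ∨ Γ.Adj x x') → lev x = lev x' →
      ∃ u', Desc Γ lev x u' ∧ Hor Γ lev 1 u' u := by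
  induction h using Relation.ReflTransGen.head_induction_on with
  | refl => intro x hx hl; exact ⟨x, Relation.ReflTransGen.refl, Hor.one hx hl⟩
  | @head a b hab _ ih =>
    intro x hx hl
    obtain ⟨c, hc1, hc2⟩ := H.common' hx hl (by have := hab.2; omega)
    have e := H.clique' (Or.inl rfl) rfl hc2 hab
    obtain ⟨u', hu1, hu2⟩ := ih c e.eq_or_adj e.lev_eq
    exact ⟨u', Relation.ReflTransGen.head hc1 hu1, hu2⟩

theorem desc_clique (H : Graded Γ lev) {x u : V} (h : Desc Γ lev x u) :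
    ∀ u' : V, Desc Γ lev x u' → lev u = lev u' → Hor Γ lev 1 u u' := by
  induction h with
  | refl =>
    intro u' hu' hl
    have := Desc.eq_of_lev hu' (by omega)
    subst this
    exact (Hor.nil _).succ
  | @tail b c hb hbc ih =>
    intro u' hu' hl
    rcases Relation.ReflTransGen.cases_tail hu' with h1 | ⟨d, h1, h2⟩
    · subst h1
      have := Desc.lev_le hb
      have := hbc.2
      omega
    · have e := ih d h1 (by have := h2.2; have := hbc.2; omega)
      exact H.clique' e.eq_or_adj e.lev_eq hbc h2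

/-- Normal form of a walk. -/
theorem normalForm (H : Graded Γ lev) {x y : V} (w : Γ.Walk x y) :
    ∃ (u v : V) (h : ℕ), Desc Γ lev x u ∧ Desc Γ lev y v ∧ Hor Γ lev h u v ∧
      lev x + lev y + h ≤ w.length + 2 * lev u := by
  induction w with
  | nil => exact ⟨_, _, 0, Relation.ReflTransGen.refl, Relation.ReflTransGen.refl, Hor.nil _,
      by simp; omega⟩
  | @cons x x' y hadj w ih =>
    obtain ⟨u, v, h, hu, hv, hh, hle⟩ := ih
    have l1 := H.adj_le hadj
    have l2 := H.adj_le hadj.symm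
    rw [SimpleGraph.Walk.length_cons]
    rcases Nat.lt_trichotomy (lev x) (lev x') with hlt | heq | hgt
    · -- `x` is a down neighbour of `x'`
      have hx : Dn Γ lev x' x := ⟨hadj.symm, by omega⟩
      rcases Relation.ReflTransGen.cases_head hu with h1 | ⟨b, h1, h2⟩
      · subst h1
        rcases Nat.eq_zero_or_pos h with h0 | h0
        · subst h0
          have := hh.eq_of_zero
          subst this
          exact ⟨x, x, 0, Relation.ReflTransGen.refl, Relation.ReflTransGen.tail hv hx,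
            Hor.nil _, by have := hx.2; omega⟩
        · have hl := hh.lev_eq
          obtain ⟨v', hv1, hv2⟩ := H.down v (by omega)
          have e := H.proj h hh hx ⟨hv1, hv2⟩
          refine ⟨x, v', h / 2 + 1, Relation.ReflTransGen.refl,
            Relation.ReflTransGen.tail hv ⟨hv1, hv2⟩, e, ?_⟩
          have := hx.2
          omega
      · have e := H.clique' (Or.inl rfl) rfl hx h1
        obtain ⟨u', hu1, hu2⟩ := H.desc_shift h2 x e.eq_or_adj e.lev_eq
        refine ⟨u', v, 1 + h, hu1, hv, hu2.trans hh, ?_⟩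
        have := hu2.lev_eq
        have := hx.2
        omega
    · obtain ⟨u', hu1, hu2⟩ := H.desc_shift hu x (Or.inr hadj) heq
      refine ⟨u', v, 1 + h, hu1, hv, hu2.trans hh, ?_⟩
      have := hu2.lev_eq
      omega
    · exact ⟨u, v, h, Relation.ReflTransGen.head ⟨hadj, by omega⟩ hu, hv, hh, by omega⟩

/-- All descendants of `x` and `y` at level `m` are at horizontal distance at most `K`. -/
def Near (Γ : SimpleGraph V) (lev : V → ℕ) (K m : ℕ) (x y : V) : Prop :=
  m ≤ lev x ∧ m ≤ lev y ∧ ∀ u v, Desc Γ lev x u → Desc Γ lev y v → lev u = m → lev v = m →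
    Hor Γ lev K u v

theorem Near.mono {K L m : ℕ} {x y : V} (h : Near Γ lev K m x y) (hKL : K ≤ L) :
    Near Γ lev L m x y :=
  ⟨h.1, h.2.1, fun u v h1 h2 h3 h4 => (h.2.2 u v h1 h2 h3 h4).mono hKL⟩

theorem Near.pred (H : Graded Γ lev) {K m : ℕ} {x y : V} (h : Near Γ lev K (m + 1) x y) :
    Near Γ lev (K / 2 + 1) m x y := by
  obtain ⟨h1, h2, h3⟩ := h
  refine ⟨by omega, by omega, ?_⟩
  intro u v hu hv lu lv
  rcases Relation.ReflTransGen.cases_tail hu with e1 | ⟨a, ha1, ha2⟩
  · subst e1; omega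
  rcases Relation.ReflTransGen.cases_tail hv with e2 | ⟨b, hb1, hb2⟩
  · subst e2; omega
  exact H.proj K (h3 a b ha1 hb1 (by have := ha2.2; omega) (by have := hb2.2; omega)) ha2 hb2

theorem near_zero (H : Graded Γ lev) (x y : V) : Near Γ lev 1 0 x y :=
  ⟨Nat.zero_le _, Nat.zero_le _, fun u v _ _ hu hv => Hor.one (H.base u v hu hv) (by omega)⟩

theorem Near.trans (H : Graded Γ lev) {K L m : ℕ} {x y z : V} (h : Near Γ lev K m x y)
    (h' : Near Γ lev L m y z) : Near Γ lev (K + L) m x z := by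
  refine ⟨h.1, h'.2.1, ?_⟩
  intro u v hu hv lu lv
  obtain ⟨b, hb1, hb2⟩ := H.exists_desc m y h.2.1
  exact (h.2.2 u b hu hb1 lu hb2).trans (h'.2.2 b v hb1 hv hb2 lv)

theorem Near.two_le (H : Graded Γ lev) {m n : ℕ} {x y : V} (h : Near Γ lev 2 m x y)
    (hn : n ≤ m) : Near Γ lev 2 n x y := by
  obtain ⟨k, rfl⟩ : ∃ k, m = n + k := ⟨m - n, by omega⟩
  induction k with
  | zero => simpa using h
  | succ k ih => exact ih (Near.pred (K := 2) (m := n + k) H h) (by omega)

theorem near_three (H : Graded Γ lev) {m : ℕ} {x y : V} (h : Near Γ lev 3 m x y) :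
    ∃ m', Near Γ lev 2 m' x y ∧ m ≤ m' + 1 := by
  rcases Nat.eq_zero_or_pos m with h0 | h0
  · exact ⟨0, (H.near_zero x y).mono (by omega), by omega⟩
  · obtain ⟨k, rfl⟩ : ∃ k, m = k + 1 := ⟨m - 1, by omega⟩
    exact ⟨k, (Near.pred H h).mono (by omega), le_rfl⟩

theorem near_four (H : Graded Γ lev) {m : ℕ} {x y : V} (h : Near Γ lev 4 m x y) :
    ∃ m', Near Γ lev 2 m' x y ∧ m ≤ m' + 2 := by
  rcases Nat.eq_zero_or_pos m with h0 | h0
  · exact ⟨0, (H.near_zero x y).mono (by omega), by omega⟩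
  · obtain ⟨k, rfl⟩ : ∃ k, m = k + 1 := ⟨m - 1, by omega⟩
    obtain ⟨m', h1, h2⟩ := H.near_three ((Near.pred H h).mono (by omega))
    exact ⟨m', h1, by omega⟩

theorem near_shrink (H : Graded Γ lev) : ∀ (K m : ℕ) {x y : V}, Near Γ lev K m x y →
    ∃ m', Near Γ lev 2 m' x y ∧ 2 * m ≤ 2 * m' + K := by
  intro K
  induction K using Nat.strong_induction_on with
  | _ K ih =>
    intro m x y h
    by_cases h2 : K ≤ 2
    · exact ⟨m, h.mono h2, by omega⟩
    by_cases h3 : K = 3
    · subst h3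
      obtain ⟨m', h1, h2⟩ := H.near_three h
      exact ⟨m', h1, by omega⟩
    by_cases h4 : K = 4
    · subst h4
      obtain ⟨m', h1, h2⟩ := H.near_four h
      exact ⟨m', h1, by omega⟩
    rcases Nat.eq_zero_or_pos m with h0 | h0
    · exact ⟨0, (H.near_zero x y).mono (by omega), by omega⟩
    · obtain ⟨k, rfl⟩ : ∃ k, m = k + 1 := ⟨m - 1, by omega⟩
      obtain ⟨m', h1, h2⟩ := ih (K / 2 + 1) (by omega) k (Near.pred H h)
      exact ⟨m', h1, by omega⟩

theorem exists_near (H : Graded Γ lev) (hc : Γ.Connected) (x y : V) :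
    ∃ m, Near Γ lev 2 m x y ∧ lev x + lev y ≤ Γ.dist x y + 2 * m + 2 := by
  obtain ⟨w, hw⟩ := hc.exists_walk_length_eq_dist x y
  obtain ⟨u, v, h, hu, hv, hh, hle⟩ := H.normalForm w
  have hn : Near Γ lev (h + 2) (lev u) x y := by
    refine ⟨Desc.lev_le hu, hh.lev_eq ▸ Desc.lev_le hv, ?_⟩
    intro u' v' hu' hv' lu lv
    have e1 := H.desc_clique hu' u hu lu
    have e2 := H.desc_clique hv v' hv' (by have := hh.lev_eq; omega)
    exact ((e1.trans hh).trans e2).mono (by omega)
  obtain ⟨m', h1, h2⟩ := H.near_shrink _ _ hn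
  exact ⟨m', h1, by omega⟩

theorem dist_le_of_near (H : Graded Γ lev) {m : ℕ} {x y : V} (h : Near Γ lev 2 m x y) :
    Γ.dist x y + 2 * m ≤ lev x + lev y + 2 := by
  obtain ⟨u, hu, lu⟩ := H.exists_desc m x h.1
  obtain ⟨v, hv, lv⟩ := H.exists_desc m y h.2.1
  obtain ⟨w1, e1⟩ := Desc.walk hu
  obtain ⟨w2, e2⟩ := Desc.walk hv
  obtain ⟨w3, e3⟩ := (h.2.2 u v hu hv lu lv).walk
  have := SimpleGraph.dist_le ((w1.append w3).append w2.reverse)
  simp only [SimpleGraph.Walk.length_append, SimpleGraph.Walk.length_reverse] at this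
  omega

/-- The four-point condition for graded graphs, seen from the base. -/
theorem fourPoint (H : Graded Γ lev) (hc : Γ.Connected) (x y z : V) :
    min ((lev x : ℤ) + lev y - Γ.dist x y) ((lev y : ℤ) + lev z - Γ.dist y z) ≤
      (lev x : ℤ) + lev z - Γ.dist x z + 8 := by
  obtain ⟨m1, h1, l1⟩ := H.exists_near hc x y
  obtain ⟨m2, h2, l2⟩ := H.exists_near hc y z
  have h1' := Near.two_le H h1 (min_le_left m1 m2)
  have h2' := Near.two_le H h2 (min_le_right m1 m2)
  obtain ⟨m, h3, h4⟩ := H.near_four (Near.trans H h1' h2')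
  have h5 := H.dist_le_of_near h3
  omega

/-- Distance to a base vertex. -/
theorem dist_base (H : Graded Γ lev) (hc : Γ.Connected) {o : V} (ho : lev o = 0) (x : V) :
    lev x ≤ Γ.dist o x ∧ Γ.dist o x ≤ lev x + 1 := by
  constructor
  · obtain ⟨w, hw⟩ := hc.exists_walk_length_eq_dist o x
    rw [← hw]
    have key : ∀ {a b : V} (w : Γ.Walk a b), lev b ≤ w.length + lev a := by
      intro a b w
      induction w with
      | nil => simp
      | cons h _ ih => rw [SimpleGraph.Walk.length_cons]; have := H.adj_le h.symm; omega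
    have := key w
    omega
  · obtain ⟨u, hu, lu⟩ := H.exists_desc 0 x (Nat.zero_le _)
    obtain ⟨w1, e1⟩ := Desc.walk hu
    obtain ⟨w2, e2⟩ := (Hor.one (H.base o u ho lu) (by omega : lev o = lev u)).walk
    have := SimpleGraph.dist_le (w2.append w1.reverse)
    simp only [SimpleGraph.Walk.length_append, SimpleGraph.Walk.length_reverse] at this
    omega

end Graded

open Crest.GroupTheory

section Transfer

variable {G : Type*} [Group G]

theorem wordDist_mul_left (S : Set G) (k g h : G) :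
    wordDist S (k * g) (k * h) = wordDist S g h := by
  unfold wordDist
  congr 2
  group

theorem gromovProduct_base (S : Set G) (w x y : G) :
    gromovProduct S w x y = gromovProduct S 1 (w⁻¹ * x) (w⁻¹ * y) := by
  unfold gromovProduct
  have h1 := wordDist_mul_left S w⁻¹ x w
  have h2 := wordDist_mul_left S w⁻¹ y w
  have h3 := wordDist_mul_left S w⁻¹ x y
  rw [inv_mul_cancel] at h1 h2
  rw [h1, h2, h3]

/-- Transfer of the four-point condition from a graded graph to a group. -/
theorem isHyperbolicGroup_of_graded (S : Finset G) (hS : Subgroup.closure (S : Set G) = ⊤)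
    {Γ : SimpleGraph V} {lev : V → ℕ} (H : Graded Γ lev) (hc : Γ.Connected)
    (c : G → V) (K : ℝ)
    (h1 : ∀ g h : G, |wordDist (S : Set G) g h - (Γ.dist (c g) (c h) : ℝ)| ≤ K)
    (h2 : ∀ g : G, |wordDist (S : Set G) g 1 - (lev (c g) : ℝ)| ≤ K) :
    IsHyperbolicGroup G := by
  have hK : 0 ≤ K := (abs_nonneg _).trans (h2 1)
  refine ⟨S, hS, 4 + 3 * K, by positivity, ?_⟩
  intro w x y z
  rw [gromovProduct_base _ w x y, gromovProduct_base _ w y z, gromovProduct_base _ w x z]
  generalize w⁻¹ * x = x, w⁻¹ * y = y, w⁻¹ * z = z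
  have hf := H.fourPoint hc (c x) (c y) (c z)
  have hf' : min ((lev (c x) : ℝ) + lev (c y) - Γ.dist (c x) (c y))
      ((lev (c y) : ℝ) + lev (c z) - Γ.dist (c y) (c z)) ≤
      (lev (c x) : ℝ) + lev (c z) - Γ.dist (c x) (c z) + 8 := by exact_mod_cast hf
  unfold gromovProduct
  have a1 := abs_le.mp (h1 x y)
  have a2 := abs_le.mp (h1 y z)
  have a3 := abs_le.mp (h1 x z)
  have b1 := abs_le.mp (h2 x)
  have b2 := abs_le.mp (h2 y)
  have b3 := abs_le.mp (h2 z)
  rcases min_le_iff.mp hf' with hf | hf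
  · have := min_le_left ((wordDist (S : Set G) x 1 + wordDist (S : Set G) y 1
      - wordDist (S : Set G) x y) / 2) ((wordDist (S : Set G) y 1 + wordDist (S : Set G) z 1
      - wordDist (S : Set G) y z) / 2)
    linarith [a1.1, a1.2, a2.1, a2.2, a3.1, a3.2, b1.1, b1.2, b2.1, b2.2, b3.1, b3.2]
  · have := min_le_right ((wordDist (S : Set G) x 1 + wordDist (S : Set G) y 1
      - wordDist (S : Set G) x y) / 2) ((wordDist (S : Set G) y 1 + wordDist (S : Set G) z 1
      - wordDist (S : Set G) y z) / 2)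
    linarith [a1.1, a1.2, a2.1, a2.2, a3.1, a3.2, b1.1, b1.2, b2.1, b2.2, b3.1, b3.2]

end Transfer

/-! ### Cells in a group -/

section Cells

variable {G I : Type*} [Group G] {cell : I → Set G} {Γ : SimpleGraph I}

/-- Length of products along a walk in the cell graph. -/
theorem exists_list_of_walk (hΓ : ∀ i j, Γ.Adj i j → (cell i ∩ cell j).Nonempty)
    (S : Set G) (hS : ∀ i, ∀ a ∈ cell i, ∀ b ∈ cell i, a⁻¹ * b ∈ S)
    {i j : I} (w : Γ.Walk i j) : ∀ a ∈ cell i, ∀ b ∈ cell j,
      ∃ l : List G, l.length = w.length + 1 ∧ (∀ x ∈ l, x ∈ S ∨ x⁻¹ ∈ S) ∧ l.prod = a⁻¹ * b := by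
  induction w with
  | @nil i =>
    intro a ha b hb
    exact ⟨[a⁻¹ * b], by simp, by simpa using Or.inl (hS i a ha b hb), by simp⟩
  | @cons i k j hadj w ih =>
    intro a ha b hb
    obtain ⟨c, hc1, hc2⟩ := hΓ i k hadj
    obtain ⟨l, hl1, hl2, hl3⟩ := ih c hc2 b hb
    refine ⟨(a⁻¹ * c) :: l, by simp [hl1], ?_, by rw [List.prod_cons, hl3]; group⟩
    intro x hx
    rcases List.mem_cons.mp hx with h | h
    · subst h; exact Or.inl (hS i a ha c hc1)
    · exact hl2 x h

theorem wordLength_le_of_list (S : Set G) (l : List G) (h : ∀ x ∈ l, x ∈ S ∨ x⁻¹ ∈ S) :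
    wordLength S l.prod ≤ l.length :=
  Nat.sInf_le ⟨l, rfl, h, rfl⟩

theorem closure_of_walk (hΓ : ∀ i j, Γ.Adj i j → (cell i ∩ cell j).Nonempty)
    (hcov : ∀ g : G, ∃ i, g ∈ cell i) (hc : Γ.Connected)
    (S : Set G) (hS : ∀ i, ∀ a ∈ cell i, ∀ b ∈ cell i, a⁻¹ * b ∈ S) :
    Subgroup.closure S = ⊤ := by
  rw [eq_top_iff]
  intro g _
  obtain ⟨i, hi⟩ := hcov 1
  obtain ⟨j, hj⟩ := hcov g
  obtain ⟨w⟩ := hc.preconnected i j
  obtain ⟨l, _, hl2, hl3⟩ := exists_list_of_walk hΓ S hS w 1 hi g hj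
  have : l.prod = g := by rw [hl3]; simp
  rw [← this]
  refine Subgroup.list_prod_mem _ ?_
  intro x hx
  rcases hl2 x hx with h | h
  · exact Subgroup.subset_closure h
  · exact (Subgroup.inv_mem_iff _).mp (Subgroup.subset_closure h)

theorem dist_le_of_list (hΓ : ∀ i j, i ≠ j → (cell i ∩ cell j).Nonempty → Γ.Adj i j)
    (hc : Γ.Connected)
    (S : Set G) (hS : ∀ g : G, ∀ s ∈ S, ∃ i, g ∈ cell i ∧ g * s ∈ cell i) :
    ∀ (l : List G), (∀ x ∈ l, x ∈ S ∨ x⁻¹ ∈ S) → ∀ (g : G) (i j : I), g ∈ cell i →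
      g * l.prod ∈ cell j → Γ.dist i j ≤ l.length + 1 := by
  have hone : ∀ (g : G) (i j : I), g ∈ cell i → g ∈ cell j → Γ.dist i j ≤ 1 := by
    intro g i j hi hj
    by_cases h : i = j
    · subst h; simp
    · exact (SimpleGraph.dist_eq_one_iff_adj.mpr (hΓ i j h ⟨g, hi, hj⟩)).le
  intro l
  induction l with
  | nil =>
    intro _ g i j hi hj
    simpa using hone g i j hi (by simpa using hj)
  | cons x l ih =>
    intro hl g i j hi hj
    obtain ⟨k, hk1, hk2⟩ : ∃ k, g ∈ cell k ∧ g * x ∈ cell k := by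
      rcases hl x (by simp) with h | h
      · exact hS g x h
      · obtain ⟨k, h1, h2⟩ := hS (g * x) x⁻¹ h
        exact ⟨k, by simpa using h2, h1⟩
    have e1 := hone g i k hi hk1
    have e2 := ih (fun y hy => hl y (by simp [hy])) (g * x) k j hk2
      (by simpa [mul_assoc] using hj)
    have e3 := hc.dist_triangle (u := i) (v := k) (w := j)
    simp only [List.length_cons]
    omega

/-- Main transfer theorem: a group covered by a left-invariant family of cells whose intersection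
graph is graded (with base cell containing `1`) is hyperbolic. -/
theorem isHyperbolicGroup_of_cells (hcov : ∀ g : G, ∃ i, g ∈ cell i)
    (hinv : ∀ (k : G) (i : I), ∃ j, ∀ g ∈ cell i, k * g ∈ cell j)
    (hfin : {g : G | ∃ i, (1 : G) ∈ cell i ∧ g ∈ cell i}.Finite)
    (hΓ : ∀ i j, Γ.Adj i j ↔ i ≠ j ∧ (cell i ∩ cell j).Nonempty)
    (hc : Γ.Connected) {lev : I → ℕ} (H : Graded Γ lev)
    (i₀ : I) (hi₀ : (1 : G) ∈ cell i₀) (hl₀ : lev i₀ = 0) : IsHyperbolicGroup G := by
  classical
  set S : Finset G := hfin.toFinset with hSdef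
  have hmem : ∀ g : G, g ∈ (S : Set G) ↔ ∃ i, (1 : G) ∈ cell i ∧ g ∈ cell i := by
    intro g; simp [hSdef]
  have hS1 : ∀ i, ∀ a ∈ cell i, ∀ b ∈ cell i, a⁻¹ * b ∈ (S : Set G) := by
    intro i a ha b hb
    obtain ⟨j, hj⟩ := hinv a⁻¹ i
    exact (hmem _).2 ⟨j, by simpa using hj a ha, hj b hb⟩
  have hS2 : ∀ g : G, ∀ s ∈ (S : Set G), ∃ i, g ∈ cell i ∧ g * s ∈ cell i := by
    intro g s hs
    obtain ⟨i, h1, h2⟩ := (hmem s).1 hs
    obtain ⟨j, hj⟩ := hinv g i
    exact ⟨j, by simpa using hj 1 h1, hj s h2⟩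
  have hΓ1 : ∀ i j, Γ.Adj i j → (cell i ∩ cell j).Nonempty := fun i j h => ((hΓ i j).1 h).2
  have hΓ2 : ∀ i j, i ≠ j → (cell i ∩ cell j).Nonempty → Γ.Adj i j :=
    fun i j h h' => (hΓ i j).2 ⟨h, h'⟩
  have hclos := closure_of_walk hΓ1 hcov hc (S : Set G) hS1
  choose c hcmem using hcov
  -- upper bound for the word distance
  have up : ∀ (g h : G) (i j : I), g ∈ cell i → h ∈ cell j →
      wordLength (S : Set G) (g⁻¹ * h) ≤ Γ.dist i j + 1 := by
    intro g h i j hi hj
    obtain ⟨w, hw⟩ := hc.exists_walk_length_eq_dist i j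
    obtain ⟨l, h1, h2, h3⟩ := exists_list_of_walk hΓ1 (S : Set G) hS1 w g hi h hj
    rw [← h3, ← hw, ← h1]
    exact wordLength_le_of_list _ _ h2
  -- lower bound
  have lo : ∀ (g h : G) (i j : I), g ∈ cell i → h ∈ cell j →
      Γ.dist i j ≤ wordLength (S : Set G) (g⁻¹ * h) + 1 := by
    intro g h i j hi hj
    have hne : {n : ℕ | ∃ l : List G, l.length = n ∧
        (∀ x ∈ l, x ∈ (S : Set G) ∨ x⁻¹ ∈ (S : Set G)) ∧ l.prod = g⁻¹ * h}.Nonempty := by
      obtain ⟨w, hw⟩ := hc.exists_walk_length_eq_dist i j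
      obtain ⟨l, h1, h2, h3⟩ := exists_list_of_walk hΓ1 (S : Set G) hS1 w g hi h hj
      exact ⟨_, l, h1, h2, h3⟩
    obtain ⟨l, h1, h2, h3⟩ := Nat.sInf_mem hne
    have := dist_le_of_list hΓ2 hc (S : Set G) hS2 l h2 g i j hi (by rw [h3]; simpa using hj)
    rw [h1] at this
    exact this
  refine isHyperbolicGroup_of_graded S hclos H hc c 2 ?_ ?_
  · intro g h
    have e1 := up g h (c g) (c h) (hcmem g) (hcmem h)
    have e2 := lo g h (c g) (c h) (hcmem g) (hcmem h)
    have e1' : wordDist (S : Set G) g h ≤ (Γ.dist (c g) (c h) : ℝ) + 1 := by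
      unfold wordDist; exact_mod_cast e1
    have e2' : (Γ.dist (c g) (c h) : ℝ) ≤ wordDist (S : Set G) g h + 1 := by
      unfold wordDist; exact_mod_cast e2
    rw [abs_le]
    constructor <;> linarith
  · intro g
    have e1 := up g 1 (c g) i₀ (hcmem g) hi₀
    have e2 := lo g 1 (c g) i₀ (hcmem g) hi₀
    have e3 := H.dist_base hc hl₀ (c g)
    rw [SimpleGraph.dist_comm] at e3
    have e1' : wordDist (S : Set G) g 1 ≤ (Γ.dist (c g) i₀ : ℝ) + 1 := by
      unfold wordDist; exact_mod_cast e1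
    have e2' : (Γ.dist (c g) i₀ : ℝ) ≤ wordDist (S : Set G) g 1 + 1 := by
      unfold wordDist; exact_mod_cast e2
    have e3' : (lev (c g) : ℝ) ≤ (Γ.dist (c g) i₀ : ℝ) := by exact_mod_cast e3.1
    have e4' : (Γ.dist (c g) i₀ : ℝ) ≤ (lev (c g) : ℝ) + 1 := by exact_mod_cast e3.2
    rw [abs_le]
    constructor <;> linarith

end Cells

end Crest.Agent.R199
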