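import Mathlib
import Crest.Agent.R199.Graded

/-!
# Row 199, Part IV (concrete): a level structure in a group gives a graded cell graph

Letters are `S × Bool`, `E : P → S × Bool → P → Prop` is a labelled graph of positions, `ev` the
evaluation of letters in `G`, `Y n` the `n`-th level (a subset of `G`).  A cell is given by a pair
`(x, q) : G × P` (group element and position), its underlying set is
`cellS x q = {x * evw w | W q w r}`.
-/

set_option autoImplicit false
set_option linter.unusedSectionVars false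

open FreeGroup (IsReduced invRev)

namespace Crest.Agent.R199.CG

variable {S P G : Type*} [Group G]

/-- Inverse letter. -/
def li (a : S × Bool) : S × Bool := (a.1, !a.2)

/-- Walks in a labelled graph. -/
inductive W (E : P → S × Bool → P → Prop) : P → List (S × Bool) → P → Prop
  | nil (p : P) : W E p [] p
  | cons {p q r : P} {a : S × Bool} {w : List (S × Bool)} : E p a q → W E q w r → W E p (a :: w) r

/-- Evaluation of words. -/
def evw (ev : S × Bool → G) (w : List (S × Bool)) : G := (w.map ev).prod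

section walks

variable {E : P → S × Bool → P → Prop}

theorem W.append {p q r : P} {u v : List (S × Bool)} (h : W E p u q) (h' : W E q v r) :
    W E p (u ++ v) r := by
  induction h with
  | nil => exact h'
  | cons h1 _ ih => exact W.cons h1 (ih h')

theorem W.split {u v : List (S × Bool)} : ∀ {p r : P}, W E p (u ++ v) r →
    ∃ q, W E p u q ∧ W E q v r := by
  induction u with
  | nil => intro p r h; exact ⟨p, W.nil p, h⟩
  | cons a u ih =>
    intro p r h
    cases h with
    | cons h1 h2 =>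
      obtain ⟨q, hq1, hq2⟩ := ih h2
      exact ⟨q, W.cons h1 hq1, hq2⟩

theorem W.single {p q : P} {a : S × Bool} (h : E p a q) : W E p [a] q := W.cons h (W.nil q)

theorem W.of_single {p q : P} {a : S × Bool} (h : W E p [a] q) : E p a q := by
  cases h with
  | cons h1 h2 => cases h2; exact h1

theorem W.of_nil {p q : P} (h : W E p [] q) : p = q := by cases h; rfl

theorem W.det (hdet : ∀ {p a q q'}, E p a q → E p a q' → q = q') {w : List (S × Bool)} :
    ∀ {p q q' : P}, W E p w q → W E p w q' → q = q' := by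
  induction w with
  | nil => intro p q q' h h'; rw [← h.of_nil, ← h'.of_nil]
  | cons a w ih =>
    intro p q q' h h'
    cases h with
    | cons h1 h2 =>
      cases h' with
      | cons h3 h4 =>
        have := hdet h1 h3
        subst this
        exact ih h2 h4

theorem W.rev (hsymm : ∀ {p a q}, E p a q → E q (li a) p) {p q : P} {w : List (S × Bool)}
    (h : W E p w q) : W E q (invRev w) p := by
  induction h with
  | nil p => simpa using W.nil p
  | @cons p q r a w h1 _ ih =>
    have e : invRev (a :: w) = invRev w ++ [li a] := by simp [invRev, li]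
    rw [e]
    exact ih.append (W.single (hsymm h1))

theorem W.red_step (hdet : ∀ {p a q q'}, E p a q → E p a q' → q = q')
    (hsymm : ∀ {p a q}, E p a q → E q (li a) p) {p q : P} {w w' : List (S × Bool)}
    (hred : FreeGroup.Red.Step w w') (h : W E p w q) : W E p w' q := by
  cases hred with
  | @not L₁ L₂ x b =>
    obtain ⟨q1, h1, h2⟩ := h.split
    cases h2 with
    | cons h3 h4 =>
      cases h4 with
      | cons h5 h6 =>
        have h7 := hsymm h3
        have := hdet h5 h7
        subst this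
        exact h1.append h6

theorem W.red (hdet : ∀ {p a q q'}, E p a q → E p a q' → q = q')
    (hsymm : ∀ {p a q}, E p a q → E q (li a) p) {p q : P} {w w' : List (S × Bool)}
    (hred : FreeGroup.Red w w') (h : W E p w q) : W E p w' q := by
  induction hred with
  | refl => exact h
  | tail _ h1 ih => exact W.red_step (E := E) hdet hsymm h1 ih

end walks

section ev

variable {ev : S × Bool → G}

@[simp] theorem evw_nil : evw ev [] = 1 := rfl

@[simp] theorem evw_cons (a : S × Bool) (w : List (S × Bool)) :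
    evw ev (a :: w) = ev a * evw ev w := by simp [evw]

@[simp] theorem evw_append (u v : List (S × Bool)) : evw ev (u ++ v) = evw ev u * evw ev v := by
  simp [evw]

theorem evw_invRev (hev : ∀ a, ev (li a) = (ev a)⁻¹) (w : List (S × Bool)) :
    evw ev (invRev w) = (evw ev w)⁻¹ := by
  induction w with
  | nil => simp
  | cons a w ih =>
    have e : invRev (a :: w) = invRev w ++ [li a] := by simp [invRev, li]
    rw [e]
    simp [ih, hev]

theorem evw_red_step (hev : ∀ a, ev (li a) = (ev a)⁻¹) {w w' : List (S × Bool)}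
    (h : FreeGroup.Red.Step w w') : evw ev w = evw ev w' := by
  cases h with
  | @not L₁ L₂ x b =>
    have := hev (x, b)
    simp only [li] at this
    simp [this]

theorem evw_red (hev : ∀ a, ev (li a) = (ev a)⁻¹) {w w' : List (S × Bool)}
    (h : FreeGroup.Red w w') : evw ev w = evw ev w' := by
  induction h with
  | refl => rfl
  | tail _ h1 ih => rw [ih, evw_red_step hev h1]

end ev

variable (E : P → S × Bool → P → Prop) (ev : S × Bool → G) (Y : ℕ → Set G)

/-- The cell of the position `(x, q)` meets `Y n`. -/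
def Meets (n : ℕ) (x : G) (q : P) : Prop := ∃ w r, W E q w r ∧ x * evw ev w ∈ Y n

/-- The cell of the position `(x, q)` has level `n`. -/
def Lv (n : ℕ) (x : G) (q : P) : Prop := Meets E ev Y n x q ∧ ∀ k < n, ¬ Meets E ev Y k x q

/-- Every edge of the path `w` from `x` lies in a cell over `Y n`. -/
def PathOver (n : ℕ) : G → List (S × Bool) → Prop
  | _, [] => True
  | x, a :: w => (∃ q q', E q a q' ∧ Meets E ev Y n x q) ∧ PathOver n (x * ev a) w

/-- The interface: levels in the group. -/
structure IsModel (m : ℕ) : Prop where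
  det : ∀ {p a q q'}, E p a q → E p a q' → q = q'
  symm : ∀ {p a q}, E p a q → E q (li a) p
  ev_li : ∀ a, ev (li a) = (ev a)⁻¹
  Y_zero : Y 0 = {1}
  Y_succ : ∀ n x, x ∈ Y (n + 1) ↔ ∃ q, Meets E ev Y n x q
  Y_univ : ∀ x, ∃ n, x ∈ Y n
  /-- cells embed and relators hold -/
  embed : ∀ {p w q w' q'}, W E p w q → W E p w' q' → (evw ev w = evw ev w' ↔ q = q')
  girth : ∀ {p w}, W E p w p → IsReduced w → w.length ≤ 8 * m → w = []
  uniq : ∀ {p p' q q' w}, W E p w q → W E p' w q' → IsReduced w → m < w.length → p = p'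
  /-- two cells of the same level which meet, meet over `Y n` by a common word -/
  glue : ∀ {n x q q'}, Lv E ev Y n x q → Lv E ev Y n x q' →
    ∃ u r r', W E q u r ∧ W E q' u r' ∧ x * evw ev u ∈ Y n
  /-- the trace of a cell of level `n + 1` on `Y (n + 1)` is connected by short words -/
  conv : ∀ {n x p w q}, Lv E ev Y (n + 1) x p → x ∈ Y (n + 1) → W E p w q →
    x * evw ev w ∈ Y (n + 1) →
    ∃ w', W E p w' q ∧ IsReduced w' ∧ w'.length ≤ 2 * m ∧ PathOver E ev Y n x w'

/-- Underlying set of a cell. -/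
def cellS (x : G) (q : P) : Set G := {y | ∃ w r, W E q w r ∧ y = x * evw ev w}

/-- Nonempty prefixes of `u` lead outside `Y n`. -/
def Out (n : ℕ) (b : G) (u : List (S × Bool)) : Prop :=
  ∀ u1 u2, u = u1 ++ u2 → u1 ≠ [] → b * evw ev u1 ∉ Y n

variable {E ev Y}

namespace IsModel

variable {m : ℕ} (M : IsModel E ev Y m)

include M

theorem wrev {p q : P} {w : List (S × Bool)} (h : W E p w q) : W E q (invRev w) p :=
  W.rev M.symm h

theorem evrev (w : List (S × Bool)) : evw ev (invRev w) = (evw ev w)⁻¹ := evw_invRev M.ev_li w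

theorem meets_of_move {n : ℕ} {x : G} {q r : P} {w : List (S × Bool)} (h : W E q w r)
    (h' : Meets E ev Y n (x * evw ev w) r) : Meets E ev Y n x q := by
  obtain ⟨w', s, h1, h2⟩ := h'
  exact ⟨w ++ w', s, h.append h1, by rwa [evw_append, ← mul_assoc]⟩

theorem meets_move {n : ℕ} {x : G} {q r : P} {w : List (S × Bool)} (h : W E q w r)
    (h' : Meets E ev Y n x q) : Meets E ev Y n (x * evw ev w) r := by
  refine M.meets_of_move (M.wrev h) ?_
  rw [M.evrev]
  simpa using h'

theorem lv_move {n : ℕ} {x : G} {q r : P} {w : List (S × Bool)} (h : W E q w r)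
    (h' : Lv E ev Y n x q) : Lv E ev Y n (x * evw ev w) r :=
  ⟨M.meets_move h h'.1, fun k hk h2 => h'.2 k hk (M.meets_of_move h h2)⟩

theorem lv_back {n : ℕ} {x : G} {q r : P} {w : List (S × Bool)} (h : W E q w r)
    (h' : Lv E ev Y n (x * evw ev w) r) : Lv E ev Y n x q :=
  ⟨M.meets_of_move h h'.1, fun k hk h2 => h'.2 k hk (M.meets_move h h2)⟩

theorem mem_succ_of_meets {n : ℕ} {x : G} {q : P} (h : Meets E ev Y n x q) : x ∈ Y (n + 1) :=
  (M.Y_succ n x).2 ⟨q, h⟩

theorem Y_mono [Nonempty P] {n k : ℕ} (h : n ≤ k) : Y n ⊆ Y k := by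
  induction h with
  | refl => exact subset_rfl
  | @step k _ ih =>
    intro x hx
    obtain ⟨q⟩ := ‹Nonempty P›
    exact M.mem_succ_of_meets ⟨[], q, W.nil q, by simpa using ih hx⟩

theorem lv_of_meets [Nonempty P] {n : ℕ} {x : G} {q : P} (h : Meets E ev Y n x q) (hx : x ∉ Y n) :
    Lv E ev Y n x q :=
  ⟨h, fun _ hk h2 => hx (M.Y_mono hk (M.mem_succ_of_meets h2))⟩

theorem not_mem_of_lv {n k : ℕ} {x : G} {q : P} (h : Lv E ev Y n x q) (hk : k < n) : x ∉ Y k :=
  fun hx => h.2 k hk ⟨[], q, W.nil q, by simpa using hx⟩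

theorem girth_uniq {p q : P} {u v : List (S × Bool)} (hu : W E p u q) (hv : W E p v q)
    (ru : IsReduced u) (rv : IsReduced v) (hl : u.length + v.length ≤ 8 * m) : u = v := by
  classical
  have h1 : W E p (u ++ invRev v) p := hu.append (M.wrev hv)
  have h2 : W E p (FreeGroup.reduce (u ++ invRev v)) p := W.red (E := E) M.det M.symm FreeGroup.reduce.red h1
  have h3 : (FreeGroup.reduce (u ++ invRev v)).length ≤ 8 * m := by
    have := FreeGroup.Red.length_le (FreeGroup.reduce.red (L := u ++ invRev v))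
    rw [List.length_append, FreeGroup.invRev_length] at this
    omega
  have h4 := M.girth h2
    (by rw [FreeGroup.isReduced_iff_reduce_eq]; exact FreeGroup.reduce.idem) h3
  have h5 : FreeGroup.mk (u ++ invRev v) = 1 := by
    rw [← FreeGroup.reduce.self, h4]; rfl
  have h6 : FreeGroup.mk u = FreeGroup.mk v := by
    rw [← FreeGroup.mul_mk, ← FreeGroup.inv_mk] at h5
    exact mul_inv_eq_one.mp h5
  have h7 := FreeGroup.reduce.sound h6
  rwa [ru.reduce_eq, rv.reduce_eq] at h7

/-- Minimal common word to `Y n`. -/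
theorem glue_min {n : ℕ} {x : G} {q q' : P} (h : Lv E ev Y n x q) (h' : Lv E ev Y n x q') :
    ∃ v r r', W E q v r ∧ W E q' v r' ∧ IsReduced v ∧ x * evw ev v ∈ Y n ∧
      ∀ v1 v2, v = v1 ++ v2 → v2 ≠ [] → x * evw ev v1 ∉ Y n := by
  classical
  obtain ⟨u, r, r', h1, h2, h3⟩ := M.glue h h'
  have hex : ∃ L, ∃ v r r', v.length = L ∧ W E q v r ∧ W E q' v r' ∧ IsReduced v ∧
      x * evw ev v ∈ Y n := by
    refine ⟨_, FreeGroup.reduce u, r, r', rfl, W.red (E := E) M.det M.symm FreeGroup.reduce.red h1,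
      W.red (E := E) M.det M.symm FreeGroup.reduce.red h2, ?_, ?_⟩
    · rw [FreeGroup.isReduced_iff_reduce_eq]; exact FreeGroup.reduce.idem
    · rw [← evw_red M.ev_li (FreeGroup.reduce.red (L := u))]; exact h3
  obtain ⟨v, r, r', hl, e1, e2, e3, e4⟩ := Nat.find_spec hex
  refine ⟨v, r, r', e1, e2, e3, e4, ?_⟩
  intro v1 v2 hv hne hmem
  subst hv
  obtain ⟨s, f1, _⟩ := e1.split
  obtain ⟨s', f2, _⟩ := e2.split
  have hlt : v1.length < Nat.find hex := by
    rw [← hl, List.length_append]
    have := List.length_pos_iff.mpr hne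
    omega
  exact Nat.find_min hex hlt ⟨v1, s, s', rfl, f1, f2, e3.infix ⟨[], v2, by simp⟩, hmem⟩

theorem pathOver_mem {k : ℕ} {b : G} {t : List (S × Bool)} (h : PathOver E ev Y k b t)
    (hb : b ∈ Y (k + 1)) : ∀ t1 t2, t = t1 ++ t2 → b * evw ev t1 ∈ Y (k + 1) := by
  induction t generalizing b with
  | nil =>
    intro t1 t2 h
    have : t1 = [] := (List.append_eq_nil_iff.mp h.symm).1
    subst this; simpa using hb
  | cons a t ih =>
    intro t1 t2 ht
    obtain ⟨⟨q, q', hE, hM⟩, h2⟩ := h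
    cases t1 with
    | nil => simpa using hb
    | cons c t1 =>
      simp only [List.cons_append, List.cons.injEq] at ht
      obtain ⟨rfl, ht⟩ := ht
      have hb' : b * ev a ∈ Y (k + 1) := by
        have := M.meets_move (W.single hE) hM
        simp only [evw_cons, evw_nil, mul_one] at this
        exact M.mem_succ_of_meets this
      have := ih h2 hb' t1 t2 ht
      simpa [mul_assoc] using this

theorem star_move [Nonempty P] {k : ℕ} {b : G} {p1 q q' : P} {u : List (S × Bool)}
    (hb : b ∈ Y (k + 1)) (hL : Lv E ev Y (k + 1) b p1) (hu : W E p1 u q) (hr : IsReduced u)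
    (hlen : u.length ≤ 5 * m) (hout : Out ev Y (k + 1) b u) (hne : u ≠ [])
    (hL' : Lv E ev Y (k + 1) (b * evw ev u) q') : ∃ p1', W E p1' u q' := by
  by_cases hqq : q = q'
  · subst hqq; exact ⟨p1, hu⟩
  have hx : b * evw ev u ∉ Y (k + 1) := hout u [] (by simp) hne
  obtain ⟨v, r, r', hv, hv', rv, hmem, hmin⟩ := M.glue_min (M.lv_move hu hL) hL'
  have hvm : v.length ≤ m := by
    by_contra hc
    exact hqq (M.uniq hv hv' rv (by omega))
  have hvne : v ≠ [] := by
    rintro rfl
    exact hx (by simpa using hmem)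
  have hmem' : b * evw ev (u ++ v) ∈ Y (k + 1) := by rwa [evw_append, ← mul_assoc]
  obtain ⟨t, ht, rt, lt, pt⟩ := M.conv hL hb (hu.append hv) hmem'
  have hte : evw ev t = evw ev (u ++ v) := (M.embed ht (hu.append hv)).2 rfl
  have htv : IsReduced (t ++ invRev v) := by
    rcases List.eq_nil_or_concat t with rfl | ⟨t', a, rfl⟩
    · have := rv
      rw [List.nil_append]
      classical
      rw [FreeGroup.isReduced_iff_reduce_eq, FreeGroup.reduce_invRev, rv.reduce_eq]
    obtain ⟨v', c, rfl⟩ := (List.eq_nil_or_concat v).resolve_left hvne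
    have e1 : invRev (v' ++ [c]) = li c :: invRev v' := by simp [invRev, li]
    simp only [List.concat_eq_append] at *
    rw [e1]
    have rv2 : IsReduced (li c :: invRev v') := by
      rw [← e1]
      classical
      rw [FreeGroup.isReduced_iff_reduce_eq, FreeGroup.reduce_invRev, rv.reduce_eq]
    rw [FreeGroup.IsReduced, List.isChain_append]
    refine ⟨rt, rv2, ?_⟩
    intro y hy z hz
    simp only [List.getLast?_append, List.getLast?_singleton, Option.some_or, Option.mem_def,
      Option.some.injEq] at hy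
    simp only [List.head?_cons, Option.mem_def, Option.some.injEq] at hz
    subst hy hz
    intro h1
    by_contra h2
    have hac : a = c := by
      refine Prod.ext h1 ?_
      simp only [li] at h2
      cases ha : a.2 <;> cases hc : c.2 <;> simp_all
    subst hac
    have hin := M.pathOver_mem pt hb t' [a] rfl
    refine hmin v' [a] rfl (by simp) ?_
    have : b * evw ev u * evw ev v' = b * evw ev t' := by
      have h3 : evw ev t' * ev a = evw ev u * (evw ev v' * ev a) := by simpa using hte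
      have h4 : evw ev t' = evw ev u * evw ev v' := by
        have := congrArg (· * (ev a)⁻¹) h3
        simpa [mul_assoc] using this
      rw [h4, mul_assoc]
    rwa [this]
  have hW : W E p1 (t ++ invRev v) q := ht.append (M.wrev hv)
  have heq := M.girth_uniq hu hW hr htv
    (by rw [List.length_append, FreeGroup.invRev_length]; omega)
  have ht0 : t = [] := by
    by_contra htne
    exact hout t (invRev v) heq htne (M.pathOver_mem pt hb t [] (by simp))
  subst ht0
  rw [List.nil_append] at heq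
  rw [heq]
  exact ⟨r', M.wrev hv'⟩

theorem star_extend [Nonempty P] {k : ℕ} {b : G} {p1 q q1 q2 : P} {u : List (S × Bool)}
    {a : S × Bool}
    (hb : b ∈ Y (k + 1)) (hL : Lv E ev Y (k + 1) b p1) (hu : W E p1 u q) (hr : IsReduced u)
    (hlen : u.length ≤ 5 * m) (hout : Out ev Y (k + 1) b u) (hne : u ≠ [])
    (hE : E q1 a q2) (hM : Meets E ev Y (k + 1) (b * evw ev u) q1)
    (hx : b * evw ev u * ev a ∉ Y (k + 1)) :
    ∃ p1' u' q', Lv E ev Y (k + 1) b p1' ∧ W E p1' u' q' ∧ IsReduced u' ∧
      u'.length ≤ u.length + 1 ∧ Out ev Y (k + 1) b u' ∧ u' ≠ [] ∧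
      b * evw ev u' = b * evw ev u * ev a := by
  have hx0 : b * evw ev u ∉ Y (k + 1) := hout u [] (by simp) hne
  have hL1 := M.lv_of_meets hM hx0
  obtain ⟨p1', hp1'⟩ := M.star_move hb hL hu hr hlen hout hne hL1
  have hL2 : Lv E ev Y (k + 1) b p1' := M.lv_back hp1' hL1
  obtain ⟨u1, c, hu1⟩ := (List.eq_nil_or_concat u).resolve_left hne
  simp only [List.concat_eq_append] at hu1
  by_cases hc : a = li c
  · -- cancellation
    subst hu1
    obtain ⟨q3, h1, h2⟩ := hp1'.split
    have hev : b * evw ev (u1 ++ [c]) * ev a = b * evw ev u1 := by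
      rw [hc, M.ev_li]; simp [mul_assoc]
    refine ⟨p1', u1, q3, hL2, h1, hr.infix ⟨[], [c], by simp⟩, by simp; omega, ?_, ?_, hev.symm⟩
    · intro v1 v2 hv hv1
      exact hout v1 (v2 ++ [c]) (by simp [hv]) hv1
    · rintro rfl
      apply hx
      rw [hev]
      simpa using hb
  · refine ⟨p1', u ++ [a], q2, hL2, hp1'.append (W.single hE), ?_, by simp, ?_, by simp, ?_⟩
    · rw [FreeGroup.IsReduced, List.isChain_append]
      refine ⟨hr, List.isChain_singleton _, ?_⟩
      intro y hy z hz
      rw [hu1] at hy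
      simp only [List.getLast?_append, List.getLast?_singleton, Option.some_or, Option.mem_def,
        Option.some.injEq] at hy
      simp only [List.head?_cons, Option.mem_def, Option.some.injEq] at hz
      subst hy hz
      intro h1
      by_contra h2
      apply hc
      refine Prod.ext h1.symm ?_
      simp only [li]
      cases ha : a.2 <;> cases hc : c.2 <;> simp_all
    · intro v1 v2 hv hv1
      rcases List.eq_nil_or_concat v2 with rfl | ⟨v3, d, rfl⟩
      · rw [List.append_nil] at hv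
        subst hv
        rw [evw_append]
        simpa [mul_assoc] using hx
      · simp only [List.concat_eq_append] at hv
        rw [← List.append_assoc] at hv
        have := List.append_inj_left' hv (by simp)
        exact hout v1 v3 this hv1
    · simp [mul_assoc]

/-- The state of the path argument. -/
def _root_.Crest.Agent.R199.CG.St (E : P → S × Bool → P → Prop) (ev : S × Bool → G)
    (Y : ℕ → Set G) (k : ℕ) (D : Set G) (x : G) (L : ℕ) : Prop :=
  (∃ q, Lv E ev Y (k + 1) x q ∧ cellS E ev x q ⊆ D) ∨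
  (∃ b p1 u q, b ∈ D ∧ b ∈ Y (k + 1) ∧ Lv E ev Y (k + 1) b p1 ∧ W E p1 u q ∧ IsReduced u ∧
    u.length ≤ L ∧ Out ev Y (k + 1) b u ∧ u ≠ [] ∧ b * evw ev u = x)

omit M in
theorem cellS_move {x : G} {q r : P} {w : List (S × Bool)} (h : W E q w r) :
    cellS E ev (x * evw ev w) r ⊆ cellS E ev x q := by
  rintro y ⟨w', s, h1, rfl⟩
  exact ⟨w ++ w', s, h.append h1, by rw [evw_append, mul_assoc]⟩

theorem cellS_back {x : G} {q r : P} {w : List (S × Bool)} (h : W E q w r) :
    cellS E ev x q ⊆ cellS E ev (x * evw ev w) r := by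
  have := cellS_move (E := E) (ev := ev) (x := x * evw ev w) (M.wrev h)
  rw [M.evrev] at this
  simpa using this

theorem st_step [Nonempty P] {k L : ℕ} {D : Set G} {x : G} {a : S × Bool}
    (h : St E ev Y k D x L) (hmL : m ≤ L) (hL : L ≤ 5 * m)
    (hedge : ∃ q q', E q a q' ∧ Meets E ev Y (k + 1) x q)
    (hx0 : x ∉ Y (k + 1)) (hx : x * ev a ∉ Y (k + 1)) :
    St E ev Y k D (x * ev a) (L + 1) := by
  obtain ⟨q1, q2, hE, hM⟩ := hedge
  -- step of kind (A)
  have stepA : ∀ b p1 u q, b ∈ D → b ∈ Y (k + 1) → Lv E ev Y (k + 1) b p1 → W E p1 u q →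
      IsReduced u → u.length ≤ L → Out ev Y (k + 1) b u → u ≠ [] → b * evw ev u = x →
      St E ev Y k D (x * ev a) (L + 1) := by
    intro b p1 u q hD hb hLv hu hr hlen hout hne hbu
    subst hbu
    obtain ⟨p1', u', q', h1, h2, h3, h4, h5, h6, h7⟩ :=
      M.star_extend hb hLv hu hr (by omega) hout hne hE hM hx
    exact Or.inr ⟨b, p1', u', q', hD, hb, h1, h2, h3, by omega, h5, h6, h7⟩
  rcases h with ⟨q, hq, hD⟩ | ⟨b, p1, u, q, h1, h2, h3, h4, h5, h6, h7, h8, h9⟩
  · by_cases hqq : q = q1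
    · subst hqq
      left
      refine ⟨q2, ?_, ?_⟩
      · have := M.lv_move (W.single hE) hq
        simpa using this
      · have := cellS_move (ev := ev) (x := x) (W.single hE)
        simp only [evw_cons, evw_nil, mul_one] at this
        exact this.trans hD
    · obtain ⟨v, r, r', hv, hv', rv, hmem, hmin⟩ := M.glue_min hq (M.lv_of_meets hM hx0)
      have hvm : v.length ≤ m := by
        by_contra hc
        exact hqq (M.uniq hv hv' rv (by omega))
      have hvne : v ≠ [] := by
        rintro rfl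
        exact hx0 (by simpa using hmem)
      refine stepA (x * evw ev v) r (invRev v) q (hD ⟨v, r, hv, rfl⟩) hmem
        (M.lv_move hv hq) (M.wrev hv) ?_ ?_ ?_ ?_ ?_
      · classical
        rw [FreeGroup.isReduced_iff_reduce_eq, FreeGroup.reduce_invRev, rv.reduce_eq]
      · rw [FreeGroup.invRev_length]; omega
      · intro u1 u2 hu hu1
        have hv2 : v = invRev u2 ++ invRev u1 := by
          rw [← FreeGroup.invRev_append, ← hu, FreeGroup.invRev_invRev]
        have hne1 : invRev u1 ≠ [] := by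
          intro h0
          apply hu1
          have := congrArg List.length h0
          rw [FreeGroup.invRev_length] at this
          exact List.eq_nil_of_length_eq_zero (by simpa using this)
        have := hmin (invRev u2) (invRev u1) hv2 hne1
        have e : x * evw ev v * evw ev u1 = x * evw ev (invRev u2) := by
          rw [hv2, evw_append, M.evrev u1]; group
        rwa [e]
      · intro h0
        apply hvne
        have := congrArg List.length h0
        rw [FreeGroup.invRev_length] at this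
        exact List.eq_nil_of_length_eq_zero (by simpa using this)
      · rw [M.evrev]; group
  · exact stepA b p1 u q h1 h2 h3 h4 h5 h6 h7 h8 h9

theorem st_path [Nonempty P] {k : ℕ} {D : Set G} : ∀ (w : List (S × Bool)) (x : G) (L : ℕ),
    St E ev Y k D x L → m ≤ L → L + w.length ≤ 5 * m → PathOver E ev Y (k + 1) x w →
    (∀ w1 w2, w = w1 ++ w2 → x * evw ev w1 ∉ Y (k + 1)) →
    St E ev Y k D (x * evw ev w) (L + w.length) := by
  intro w
  induction w with
  | nil => intro x L h _ _ _ _; simpa using h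
  | cons a w ih =>
    intro x L h hmL hL hp hout
    have hx0 : x ∉ Y (k + 1) := by simpa using hout [] (a :: w) rfl
    have hx : x * ev a ∉ Y (k + 1) := by simpa using hout [a] w rfl
    rw [List.length_cons] at hL
    have h1 := M.st_step h hmL (by omega) hp.1 hx0 hx
    have h2 := ih (x * ev a) (L + 1) h1 (by omega) (by omega) hp.2 (by
      intro w1 w2 hw
      have := hout (a :: w1) w2 (by simp [hw])
      simpa [mul_assoc] using this)
    rw [evw_cons, List.length_cons, ← mul_assoc]
    have e : L + (w.length + 1) = L + 1 + w.length := by omega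
    rw [e]
    exact h2

/-- Main local lemma: two cells of level `k + 1` joined by a short path outside `Y (k + 1)`
meet. -/
theorem meet_of_path [Nonempty P] {k : ℕ} {x : G} {q q' : P} {w : List (S × Bool)}
    (h : Lv E ev Y (k + 1) x q) (h' : Lv E ev Y (k + 1) (x * evw ev w) q')
    (hl : w.length ≤ 4 * m) (hp : PathOver E ev Y (k + 1) x w)
    (hout : ∀ w1 w2, w = w1 ++ w2 → x * evw ev w1 ∉ Y (k + 1)) :
    ∃ y, y ∈ cellS E ev x q ∧ y ∈ cellS E ev (x * evw ev w) q' := by
  have h0 : St E ev Y k (cellS E ev x q) x m := Or.inl ⟨q, h, subset_rfl⟩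
  rcases M.st_path w x m h0 le_rfl (by omega) hp hout with
    ⟨r, hr1, hr2⟩ | ⟨b, p1, u, r, h1, h2, h3, h4, h5, h6, h7, h8, h9⟩
  · exact ⟨x * evw ev w, hr2 ⟨[], r, W.nil r, by simp⟩, ⟨[], q', W.nil q', by simp⟩⟩
  · rw [← h9] at h' ⊢
    obtain ⟨p1', hp1'⟩ := M.star_move h2 h3 h4 h5 (by omega) h7 h8 h'
    refine ⟨b, h1, invRev u, p1', M.wrev hp1', ?_⟩
    rw [M.evrev]; group

end IsModel

/-! ### The cell graph -/

/-- The graph of cells. -/
def cellGraph (E : P → S × Bool → P → Prop) (ev : S × Bool → G) : SimpleGraph (G × P) where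
  Adj i j := i ≠ j ∧ (cellS E ev i.1 i.2 ∩ cellS E ev j.1 j.2).Nonempty
  symm := ⟨fun _ _ h => ⟨h.1.symm, by rw [Set.inter_comm]; exact h.2⟩⟩
  loopless := ⟨fun _ h => h.1 rfl⟩

open Classical in
/-- The level of a cell. -/
noncomputable def lev (E : P → S × Bool → P → Prop) (ev : S × Bool → G) (Y : ℕ → Set G)
    (i : G × P) : ℕ := sInf {n | Meets E ev Y n i.1 i.2}

theorem IsModel.lv_lev {m : ℕ} (M : IsModel E ev Y m) (i : G × P) :
    Lv E ev Y (lev E ev Y i) i.1 i.2 := by
  have hne : {n | Meets E ev Y n i.1 i.2}.Nonempty := by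
    obtain ⟨n, hn⟩ := M.Y_univ i.1
    exact ⟨n, [], i.2, W.nil _, by simpa using hn⟩
  exact ⟨Nat.sInf_mem hne, fun k hk h => absurd (Nat.sInf_le h) (by
    change ¬ (lev E ev Y i ≤ k); omega)⟩

theorem lev_eq_of_lv {n : ℕ} {i : G × P} (h : Lv E ev Y n i.1 i.2) : lev E ev Y i = n := by
  apply le_antisymm
  · exact Nat.sInf_le h.1
  · by_contra hc
    push Not at hc
    exact h.2 _ hc (Nat.sInf_mem (s := {n | Meets E ev Y n i.1 i.2}) ⟨n, h.1⟩)

namespace IsModel

variable {m : ℕ} (M : IsModel E ev Y m)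

include M

/-- Change of base point of a cell. -/
theorem rebase {i : G × P} {x : G} (hx : x ∈ cellS E ev i.1 i.2) {n : ℕ}
    (hn : lev E ev Y i = n) : ∃ q, Lv E ev Y n x q ∧ cellS E ev x q ⊆ cellS E ev i.1 i.2 := by
  obtain ⟨w, r, h1, rfl⟩ := hx
  subst hn
  exact ⟨r, M.lv_move h1 (M.lv_lev i), cellS_move h1⟩

theorem exists_pos {i : G × P} {x : G} (hx : x ∈ cellS E ev i.1 i.2) :
    ∃ q, cellS E ev x q = cellS E ev i.1 i.2 ∧ ∃ w, W E i.2 w q ∧ x = i.1 * evw ev w := by
  obtain ⟨w, r, h1, rfl⟩ := hx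
  exact ⟨r, subset_antisymm (cellS_move h1) (M.cellS_back h1), w, h1, rfl⟩

omit M in
theorem mem_self (i : G × P) : i.1 ∈ cellS E ev i.1 i.2 := ⟨[], i.2, W.nil _, by simp⟩

theorem one_mem_of_lev_zero {i : G × P} (h : lev E ev Y i = 0) :
    (1 : G) ∈ cellS E ev i.1 i.2 := by
  have := M.lv_lev i
  rw [h] at this
  obtain ⟨w, r, h1, h2⟩ := this.1
  rw [M.Y_zero, Set.mem_singleton_iff] at h2
  exact ⟨w, r, h1, h2.symm⟩

theorem mem_Y_of_mem_cell {i : G × P} {x : G} (hx : x ∈ cellS E ev i.1 i.2) {n : ℕ}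
    (hn : lev E ev Y i = n) : x ∈ Y (n + 1) := by
  obtain ⟨q, h1, _⟩ := M.rebase hx hn
  exact M.mem_succ_of_meets h1.1

theorem not_mem_Y_of_mem_cell {i : G × P} {x : G} (hx : x ∈ cellS E ev i.1 i.2) {n : ℕ}
    (hn : n < lev E ev Y i) : x ∉ Y n := by
  obtain ⟨q, h1, _⟩ := M.rebase hx rfl
  exact M.not_mem_of_lv h1 hn

/-- A point of `Y (n+1)` in a cell of level `n+1` lies in a cell of level `n`. -/
theorem exists_down [Nonempty P] {n : ℕ} {x : G} (h1 : x ∈ Y (n + 1)) (h2 : x ∉ Y n) :
    ∃ j : G × P, lev E ev Y j = n ∧ x ∈ cellS E ev j.1 j.2 := by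
  obtain ⟨q, hq⟩ := (M.Y_succ n x).1 h1
  exact ⟨(x, q), lev_eq_of_lv (i := (x, q)) (M.lv_of_meets hq h2), mem_self (x, q)⟩

theorem graded [Nonempty P] : Graded (cellGraph E ev) (lev E ev Y) where
  adj_le := by
    intro a b h
    obtain ⟨x, hx1, hx2⟩ := h.2
    have h1 := M.mem_Y_of_mem_cell hx2 rfl
    by_contra hc
    push Not at hc
    exact M.not_mem_Y_of_mem_cell hx1 hc h1
  down := by
    intro a ha
    obtain ⟨n, hn⟩ := Nat.exists_eq_succ_of_ne_zero ha
    rw [Nat.succ_eq_add_one] at hn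
    have h1 := M.lv_lev a
    rw [hn] at h1
    obtain ⟨w, r, hw, hmem⟩ := h1.1
    have hxa : a.1 * evw ev w ∈ cellS E ev a.1 a.2 := ⟨w, r, hw, rfl⟩
    obtain ⟨j, hj1, hj2⟩ := M.exists_down hmem (M.not_mem_Y_of_mem_cell hxa (by omega))
    exact ⟨j, ⟨by rintro rfl; omega, ⟨_, hxa, hj2⟩⟩, by omega⟩
  base := by
    intro a b ha hb
    by_cases hab : a = b
    · exact Or.inl hab
    · exact Or.inr ⟨hab, 1, M.one_mem_of_lev_zero ha, M.one_mem_of_lev_zero hb⟩
  common := by
    intro a b hab hl h0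
    obtain ⟨n, hn⟩ := Nat.exists_eq_succ_of_ne_zero h0
    rw [Nat.succ_eq_add_one] at hn
    obtain ⟨x, hx1, hx2⟩ := hab.2
    obtain ⟨q, hq, hq'⟩ := M.rebase hx1 hn
    obtain ⟨r, hr, hr'⟩ := M.rebase hx2 (hl ▸ hn)
    obtain ⟨u, s, s', e1, e2, e3⟩ := M.glue hq hr
    have f1 : x * evw ev u ∈ cellS E ev a.1 a.2 := hq' ⟨u, s, e1, rfl⟩
    have f2 : x * evw ev u ∈ cellS E ev b.1 b.2 := hr' ⟨u, s', e2, rfl⟩
    obtain ⟨j, hj1, hj2⟩ := M.exists_down e3 (M.not_mem_Y_of_mem_cell f1 (by omega))
    exact ⟨j, ⟨by rintro rfl; omega, ⟨_, f1, hj2⟩⟩, ⟨by rintro rfl; omega, ⟨_, f2, hj2⟩⟩,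
      by omega⟩
  clique := by
    intro a b p r hab hl hap hpl hbr hrl
    suffices hne : (cellS E ev p.1 p.2 ∩ cellS E ev r.1 r.2).Nonempty by
      by_cases hpr : p = r
      · exact Or.inl hpr
      · exact Or.inr ⟨hpr, hne⟩
    rcases Nat.eq_zero_or_pos (lev E ev Y p) with hp0 | hp0
    · exact ⟨1, M.one_mem_of_lev_zero hp0, M.one_mem_of_lev_zero (by omega)⟩
    obtain ⟨k, hk⟩ : ∃ k, lev E ev Y p = k + 1 := ⟨lev E ev Y p - 1, by omega⟩
    obtain ⟨x, hxa, hxp⟩ := hap.2
    obtain ⟨x', hxb, hxr⟩ := hbr.2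
    have la : lev E ev Y a = k + 1 + 1 := by omega
    have lb : lev E ev Y b = k + 1 + 1 := by omega
    have lr : lev E ev Y r = k + 1 := by omega
    -- a common point of `a` and `b` in `Y (k+2)`
    obtain ⟨s, hsa, hsb, hsY⟩ : ∃ s, s ∈ cellS E ev a.1 a.2 ∧ s ∈ cellS E ev b.1 b.2 ∧
        s ∈ Y (k + 1 + 1) := by
      rcases hab with rfl | hab
      · exact ⟨x, hxa, hxa, M.mem_Y_of_mem_cell hxp hk⟩
      · obtain ⟨y, hy1, hy2⟩ := hab.2
        obtain ⟨q, hq, hq'⟩ := M.rebase hy1 la
        obtain ⟨q2, hq2, hq2'⟩ := M.rebase hy2 lb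
        obtain ⟨u, s, s', e1, e2, e3⟩ := M.glue hq hq2
        exact ⟨_, hq' ⟨u, s, e1, rfl⟩, hq2' ⟨u, s', e2, rfl⟩, e3⟩
    -- the paths
    have path : ∀ (c : G × P) (y z : G), lev E ev Y c = k + 1 + 1 → y ∈ cellS E ev c.1 c.2 →
        z ∈ cellS E ev c.1 c.2 → y ∈ Y (k + 1 + 1) → z ∈ Y (k + 1 + 1) →
        ∃ w, z = y * evw ev w ∧ w.length ≤ 2 * m ∧ PathOver E ev Y (k + 1) y w ∧
          ∀ w1 w2, w = w1 ++ w2 → y * evw ev w1 ∉ Y (k + 1) := by
      intro c y z lc hy hz hyY hzY
      obtain ⟨q, hq1, w1, hq2, hq3⟩ := M.exists_pos hy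
      rw [← hq1] at hz
      obtain ⟨w, t, hw, rfl⟩ := hz
      have hLv : Lv E ev Y (k + 1 + 1) y q := by
        have := M.lv_move hq2 (M.lv_lev c)
        rwa [← hq3, lc] at this
      obtain ⟨w', g1, g2, g3, g4⟩ := M.conv hLv hyY hw hzY
      refine ⟨w', ?_, g3, g4, ?_⟩
      · rw [(M.embed g1 hw).2 rfl]
      · intro v1 v2 hv
        subst hv
        obtain ⟨t', ht', _⟩ := g1.split
        exact M.not_mem_of_lv (M.lv_move ht' hLv) (by omega)
    obtain ⟨w1, f1, f2, f3, f4⟩ := path a x s la hxa hsa (M.mem_Y_of_mem_cell hxp hk) hsY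
    obtain ⟨w2, g1, g2, g3, g4⟩ := path b s x' lb hsb hxb hsY (M.mem_Y_of_mem_cell hxr lr)
    have happ : ∀ (w1 : List (S × Bool)) (y : G) (w2 : List (S × Bool)),
        PathOver E ev Y (k + 1) y w1 → PathOver E ev Y (k + 1) (y * evw ev w1) w2 →
        PathOver E ev Y (k + 1) y (w1 ++ w2) := by
      intro w1
      induction w1 with
      | nil => intro y w2 _ h; simpa using h
      | cons a w1 ih =>
        intro y w2 h h'
        exact ⟨h.1, ih _ _ h.2 (by simpa [mul_assoc] using h')⟩
    subst f1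
    subst g1
    obtain ⟨q, hq, hq'⟩ := M.rebase hxp hk
    obtain ⟨q2, hq2, hq2'⟩ := M.rebase hxr lr
    have e : x * evw ev w1 * evw ev w2 = x * evw ev (w1 ++ w2) := by
      rw [evw_append, mul_assoc]
    rw [e] at hq2 hq2'
    obtain ⟨y, hy1, hy2⟩ := M.meet_of_path hq hq2 (by rw [List.length_append]; omega)
      (happ w1 x w2 f3 g3) (by
        intro v1 v2 hv
        rcases List.append_eq_append_iff.mp hv with ⟨c, h1, h2⟩ | ⟨c, h1, h2⟩
        · rw [h1, evw_append, ← mul_assoc]
          exact g4 c v2 h2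
        · exact f4 v1 c h1)
    exact ⟨y, hq' hy1, hq2' hy2⟩

end IsModel

/-- A graded graph is connected. -/
theorem _root_.Crest.Agent.R199.Graded.connected {V : Type*} {Γ : SimpleGraph V} {lv : V → ℕ}
    (H : Graded Γ lv) [Nonempty V] : Γ.Connected := by
  have key : ∀ (n : ℕ) (a : V), lv a = n → ∃ b, lv b = 0 ∧ Γ.Reachable a b := by
    intro n
    induction n with
    | zero => intro a ha; exact ⟨a, ha, SimpleGraph.Reachable.refl a⟩
    | succ n ih =>
      intro a ha
      obtain ⟨b, hb1, hb2⟩ := H.down a (by omega)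
      obtain ⟨c, hc1, hc2⟩ := ih b (by omega)
      exact ⟨c, hc1, hb1.reachable.trans hc2⟩
  refine ⟨fun a b => ?_⟩
  obtain ⟨a', ha1, ha2⟩ := key _ a rfl
  obtain ⟨b', hb1, hb2⟩ := key _ b rfl
  rcases H.base a' b' ha1 hb1 with h | h
  · subst h; exact ha2.trans hb2.symm
  · exact (ha2.trans h.reachable).trans hb2.symm

/-- **Part IV**: a group with a level structure is hyperbolic. -/
theorem IsModel.isHyperbolicGroup {m : ℕ} (M : IsModel E ev Y m) [Finite P] [Nonempty P] :
    Crest.GroupTheory.IsHyperbolicGroup G := by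
  have H := M.graded
  obtain ⟨p0⟩ := ‹Nonempty P›
  have : Nonempty P := ⟨p0⟩
  refine isHyperbolicGroup_of_cells (cell := fun i : G × P => cellS E ev i.1 i.2)
    (Γ := cellGraph E ev) ?_ ?_ ?_ (fun i j => Iff.rfl) H.connected H (1, p0)
    (IsModel.mem_self (1, p0)) ?_
  · intro g; exact ⟨(g, p0), IsModel.mem_self (g, p0)⟩
  · intro k i
    refine ⟨(k * i.1, i.2), ?_⟩
    rintro g ⟨w, r, h1, rfl⟩
    exact ⟨w, r, h1, by rw [mul_assoc]⟩
  · classical
    have : {g : G | ∃ i : G × P, (1 : G) ∈ cellS E ev i.1 i.2 ∧ g ∈ cellS E ev i.1 i.2} ⊆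
        Set.range (fun qq : P × P => if h : ∃ w, W E qq.1 w qq.2 then evw ev h.choose else 1) := by
      rintro g ⟨i, h1, h2⟩
      obtain ⟨q, hq1, _⟩ := M.exists_pos h1
      rw [← hq1] at h2
      obtain ⟨w, r, hw, rfl⟩ := h2
      have hex : ∃ w, W E (q, r).1 w (q, r).2 := ⟨w, hw⟩
      refine ⟨(q, r), ?_⟩
      simp only
      rw [dif_pos hex, (M.embed hex.choose_spec hw).2 rfl, one_mul]
    exact (Set.finite_range _).subset this
  · apply lev_eq_of_lv
    refine ⟨⟨[], p0, W.nil _, by simp [M.Y_zero]⟩, fun k hk => by omega⟩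

end Crest.Agent.R199.CG
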