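import Mathlib

/-!
# Row 199, Part V (end): a finite exact sequence of free modules forces torsion-freeness

* `chase`: the abstract chase for one operator of order `p`.
* `cyc_fixed`, `cyc_norm`: the two cyclic exactness facts from a "partition of unity" `e`.
* `exists_transversal`, `finsupp_pou`: the partition of unity on `X →₀ M` for a free permutation
  of prime order.
* `torsionFree_of_exact`: the final form.
-/

set_option autoImplicit false

namespace Crest.Agent.R199.Chase

open Finset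

variable {A : Type*} [AddCommGroup A]

theorem mulA (f g : AddMonoid.End A) (a : A) : (f * g) a = f (g a) := rfl

theorem oneA (a : A) : (1 : AddMonoid.End A) a = a := rfl

theorem subA (f g : AddMonoid.End A) (a : A) : (f - g) a = f a - g a := rfl

theorem sumA {ι : Type*} (s : Finset ι) (F : ι → AddMonoid.End A) (a : A) :
    (∑ i ∈ s, F i) a = ∑ i ∈ s, F i a := by
  classical
  induction s using Finset.induction_on with
  | empty => rfl
  | insert i s hi ih =>
    rw [sum_insert hi, sum_insert hi, ← ih]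
    rfl

/-- The norm kills `g - 1`. -/
theorem norm_sub (p : ℕ) (g : AddMonoid.End A) (P : g ^ p = 1) (a : A) :
    ∑ i ∈ range p, (g ^ i) (g a - a) = 0 := by
  have : ∀ i ∈ range p, (g ^ i) (g a - a) = (g ^ (i + 1)) a - (g ^ i) a := by
    intro i _
    rw [map_sub, pow_succ, mulA]
  rw [sum_congr rfl this, sum_range_sub (fun i => (g ^ i) a), P]
  simp

/-- The abstract chase. -/
theorem chase {M2 M1 M0 : Type*} [AddCommGroup M2] [AddCommGroup M1] [AddCommGroup M0]
    (p : ℕ) (hp : 1 < p)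
    (g2 : AddMonoid.End M2) (g1 : AddMonoid.End M1) (g0 : AddMonoid.End M0)
    (d2 : M2 →+ M1) (d1 : M1 →+ M0) (ε : M0 →+ ℤ)
    (h2 : ∀ a, d2 (g2 a) = g1 (d2 a)) (h1 : ∀ a, d1 (g1 a) = g0 (d1 a))
    (h0 : ∀ a, ε (g0 a) = ε a)
    (inj : ∀ a, d2 a = 0 → a = 0)
    (dd : ∀ b, d1 (d2 b) = 0) (de : ∀ b, ε (d1 b) = 0)
    (ex1 : ∀ a, d1 a = 0 → ∃ b, d2 b = a)
    (ex0 : ∀ a, ε a = 0 → ∃ b, d1 b = a)
    (surj : ∃ a, ε a = 1)
    (C2 : ∀ a, g2 a = a → ∃ b, ∑ i ∈ range p, (g2 ^ i) b = a)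
    (C1 : ∀ a, ∑ i ∈ range p, (g1 ^ i) a = 0 → ∃ b, g1 b - b = a)
    (C0 : ∀ a, g0 a = a → ∃ b, ∑ i ∈ range p, (g0 ^ i) b = a)
    (P0 : g0 ^ p = 1) (P1 : g1 ^ p = 1) : False := by
  have e2 : ∀ (i : ℕ) a, d2 ((g2 ^ i) a) = (g1 ^ i) (d2 a) := by
    intro i
    induction i with
    | zero => intro a; simp
    | succ i ih =>
      intro a
      rw [pow_succ, pow_succ, mulA, mulA, ih, h2]
  have e1 : ∀ (i : ℕ) a, d1 ((g1 ^ i) a) = (g0 ^ i) (d1 a) := by
    intro i
    induction i with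
    | zero => intro a; simp
    | succ i ih =>
      intro a
      rw [pow_succ, pow_succ, mulA, mulA, ih, h1]
  have e0 : ∀ (i : ℕ) a, ε ((g0 ^ i) a) = ε a := by
    intro i
    induction i with
    | zero => intro a; simp
    | succ i ih =>
      intro a
      rw [pow_succ, mulA, ih, h0]
  obtain ⟨x0, hx0⟩ := surj
  obtain ⟨x1, hx1⟩ := ex0 (g0 x0 - x0) (by rw [map_sub, h0, sub_self])
  have hN1 : d1 (∑ i ∈ range p, (g1 ^ i) x1) = 0 := by
    rw [map_sum]
    have : ∀ i ∈ range p, d1 ((g1 ^ i) x1) = (g0 ^ i) (g0 x0 - x0) := by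
      intro i _
      rw [e1, hx1]
    rw [sum_congr rfl this]
    exact norm_sub p g0 P0 x0
  obtain ⟨x2, hx2⟩ := ex1 _ hN1
  have htx2 : d2 (g2 x2 - x2) = 0 := by
    rw [map_sub, h2, hx2, map_sum, ← sum_sub_distrib]
    have : ∀ i ∈ range p, g1 ((g1 ^ i) x1) - (g1 ^ i) x1 = (g1 ^ i) (g1 x1 - x1) := by
      intro i _
      rw [map_sub, ← mulA, ← mulA, ← pow_succ, ← pow_succ']
    rw [sum_congr rfl this]
    exact norm_sub p g1 P1 x1
  have hfx2 : g2 x2 = x2 := sub_eq_zero.1 (inj _ htx2)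
  obtain ⟨y2, hy2⟩ := C2 x2 hfx2
  have hN2 : ∑ i ∈ range p, (g1 ^ i) (x1 - d2 y2) = 0 := by
    have : ∀ i ∈ range p, (g1 ^ i) (x1 - d2 y2) = (g1 ^ i) x1 - d2 ((g2 ^ i) y2) := by
      intro i _
      rw [map_sub, e2]
    rw [sum_congr rfl this, sum_sub_distrib, ← map_sum, hy2, hx2, sub_self]
  obtain ⟨y1, hy1⟩ := C1 _ hN2
  have h3 : g0 (x0 - d1 y1) = x0 - d1 y1 := by
    have e : d1 (g1 y1 - y1) = g0 x0 - x0 := by
      rw [hy1, map_sub, dd, hx1, sub_zero]
    rw [map_sub, h1] at e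
    rw [map_sub, sub_eq_sub_iff_add_eq_add]
    rw [sub_eq_sub_iff_add_eq_add] at e
    rw [← e, add_comm]
  obtain ⟨y0, hy0⟩ := C0 _ h3
  have h5 : ε (x0 - d1 y1) = p * ε y0 := by
    rw [← hy0, map_sum, sum_congr rfl (fun i _ => e0 i y0)]
    simp
  have h6 : ε (d1 y1) = 0 := de y1
  rw [map_sub, hx0, h6, sub_zero] at h5
  have h7 : (p : ℤ) ∣ 1 := ⟨_, h5⟩
  have h8 : (p : ℤ) ≤ 1 := Int.le_of_dvd one_pos h7
  have : (1 : ℤ) < p := by exact_mod_cast hp
  omega

/-- Fixed elements are norms, given a partition of unity `e`. -/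
theorem cyc_fixed (p : ℕ) (g e : AddMonoid.End A)
    (he : ∑ i ∈ range p, g ^ i * e * g ^ (p - i) = 1) (a : A) (ha : g a = a) :
    ∃ b, ∑ i ∈ range p, (g ^ i) b = a := by
  have hpow : ∀ i : ℕ, (g ^ i) a = a := by
    intro i
    induction i with
    | zero => simp
    | succ i ih => rw [pow_succ, mulA, ha, ih]
  refine ⟨e a, ?_⟩
  have h := congrArg (fun f : AddMonoid.End A => f a) he
  simp only [sumA, mulA, oneA, hpow] at h
  exact h

/-- Norm-zero elements are differences, given a partition of unity `e`. -/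
theorem cyc_norm (p : ℕ) (g e : AddMonoid.End A)
    (P : g ^ p = 1)
    (he : ∑ i ∈ range p, g ^ i * e * g ^ (p - i) = 1) (a : A)
    (ha : ∑ i ∈ range p, (g ^ i) a = 0) :
    ∃ b, g b - b = a := by
  have h := congrArg (fun f : AddMonoid.End A => f a) he
  simp only [sumA, mulA, oneA] at h
  have hs : ∑ i ∈ range p, e ((g ^ (p - i)) a) = 0 := by
    rw [← map_sum]
    have : ∑ i ∈ range p, (g ^ (p - i)) a = ∑ i ∈ range p, (g ^ i) a := by
      have h1 : ∑ i ∈ range p, (g ^ (p - i)) a = ∑ i ∈ range p, (g ^ (i + 1)) a := by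
        rw [← sum_range_reflect (fun i => (g ^ (i + 1)) a) p]
        refine sum_congr rfl fun i hi => ?_
        have := mem_range.1 hi
        congr 2
        omega
      rw [h1]
      have h2 := sum_range_succ (fun i => (g ^ i) a) p
      have h3 := sum_range_succ' (fun i => (g ^ i) a) p
      rw [h2, P] at h3
      simpa using h3.symm
    rw [this, ha, map_zero]
  refine ⟨∑ i ∈ range p, (∑ j ∈ range i, g ^ j : AddMonoid.End A) (e ((g ^ (p - i)) a)), ?_⟩
  rw [map_sum, ← sum_sub_distrib]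
  have h2 : ∀ i ∈ range p, g ((∑ j ∈ range i, g ^ j : AddMonoid.End A) (e ((g ^ (p - i)) a))) -
      (∑ j ∈ range i, g ^ j : AddMonoid.End A) (e ((g ^ (p - i)) a)) =
      (g ^ i) (e ((g ^ (p - i)) a)) - e ((g ^ (p - i)) a) := by
    intro i _
    have := mul_geom_sum g i
    rw [sub_mul, one_mul] at this
    have h3 := congrArg (fun f : AddMonoid.End A => f (e ((g ^ (p - i)) a))) this
    simp only [subA, mulA, oneA] at h3
    exact h3
  rw [sum_congr rfl h2, sum_sub_distrib, hs, sub_zero]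
  exact h

/-! ### The partition of unity on `X →₀ M` -/

/-- The operator on `X →₀ M` induced by a permutation. -/
noncomputable def act {X : Type*} (M : Type*) [AddCommGroup M] (σ : Equiv.Perm X) :
    AddMonoid.End (X →₀ M) :=
  Finsupp.mapDomain.addMonoidHom σ

theorem act_apply {X M : Type*} [AddCommGroup M] (σ : Equiv.Perm X) (f : X →₀ M) (x : X) :
    act M σ f x = f (σ.symm x) := by
  have : x = σ (σ.symm x) := (σ.apply_symm_apply x).symm
  conv_lhs => rw [this]
  exact Finsupp.mapDomain_apply σ.injective f _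

theorem act_mul {X M : Type*} [AddCommGroup M] (σ τ : Equiv.Perm X) :
    act M (σ * τ) = act M σ * act M τ := by
  ext f x
  rw [mulA, act_apply, act_apply, act_apply]
  rfl

theorem act_one {X M : Type*} [AddCommGroup M] :
    act M (1 : Equiv.Perm X) = 1 := by
  ext f x
  rw [act_apply]
  rfl

theorem act_pow {X M : Type*} [AddCommGroup M] (σ : Equiv.Perm X) (n : ℕ) :
    act M σ ^ n = act M (σ ^ n) := by
  induction n with
  | zero => rw [pow_zero, pow_zero, act_one]
  | succ n ih => rw [pow_succ, pow_succ, ih, act_mul]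

/-- A transversal for the orbits of a free permutation of prime order. -/
theorem exists_transversal {X : Type*} (σ : Equiv.Perm X) (p : ℕ) (hp : p.Prime)
    (P : σ ^ p = 1) (free : ∀ x, σ x ≠ x) :
    ∃ T : Set X, ∀ x, ∃ i ∈ range p, (σ ^ i).symm x ∈ T ∧
      ∀ j ∈ range p, (σ ^ j).symm x ∈ T → j = i := by
  classical
  let S : Setoid X := Equiv.Perm.SameCycle.setoid σ
  let rep : X → X := fun x => Quotient.out (Quotient.mk S x)
  have hrep : ∀ x, σ.SameCycle (rep x) x := fun x => Quotient.mk_out (s := S) x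
  have hrep' : ∀ x y, σ.SameCycle x y → rep x = rep y := by
    intro x y h
    show Quotient.out (Quotient.mk S x) = Quotient.out (Quotient.mk S y)
    rw [Quotient.sound (s := S) h]
  have key : ∀ (k : ℤ) (x : X), (σ ^ k) x = x → (p : ℤ) ∣ k := by
    intro k x hk
    by_contra hnd
    have hcop : IsCoprime (p : ℤ) k := by
      rw [Int.isCoprime_iff_gcd_eq_one]
      have := (Nat.Prime.coprime_iff_not_dvd hp (n := k.natAbs)).2
        (fun h => hnd (Int.natCast_dvd.2 h))
      simpa [Int.gcd] using this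
    obtain ⟨u, v, huv⟩ := hcop
    have h1 : (σ ^ (v * k)) x = x := by
      rw [mul_comm, zpow_mul]
      exact Equiv.Perm.zpow_apply_eq_self_of_apply_eq_self hk v
    have h2 : σ ^ (u * p : ℤ) = 1 := by
      rw [mul_comm, zpow_mul, zpow_natCast, P, one_zpow]
    have h3 : σ ^ (1 : ℤ) = σ ^ (v * k) := by
      rw [← huv, zpow_add, h2, one_mul]
    apply free x
    rw [← h3, zpow_one] at h1
    exact h1
  refine ⟨{x | rep x = x}, fun x => ?_⟩
  obtain ⟨k, hk⟩ := hrep x
  -- (σ ^ k) (rep x) = x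
  have hp0 : (p : ℤ) ≠ 0 := by exact_mod_cast hp.ne_zero
  have hk' : (σ ^ (k % p).toNat) (rep x) = x := by
    have h1 : σ ^ ((k % p).toNat : ℤ) = σ ^ k := by
      rw [Int.toNat_of_nonneg (Int.emod_nonneg _ hp0)]
      conv_rhs => rw [← Int.emod_add_mul_ediv k p, zpow_add, zpow_mul, zpow_natCast, P, one_zpow,
        mul_one]
    rw [← zpow_natCast, h1]
    exact hk
  have hlt : (k % p).toNat < p := by
    have := Int.emod_lt_of_pos k (by exact_mod_cast hp.pos : (0:ℤ) < p)
    have h0 := Int.emod_nonneg k hp0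
    omega
  have hsc : ∀ j : ℕ, rep ((σ ^ j).symm x) = rep x := by
    intro j
    apply hrep'
    exact ⟨j, by rw [zpow_natCast]; exact (σ ^ j).apply_symm_apply x⟩
  have hsymm : (σ ^ (k % p).toNat).symm x = rep x := by
    rw [Equiv.symm_apply_eq]
    exact hk'.symm
  refine ⟨(k % p).toNat, mem_range.2 hlt, ?_, ?_⟩
  · show rep ((σ ^ (k % p).toNat).symm x) = (σ ^ (k % p).toNat).symm x
    rw [hsc, hsymm]
  · intro j hj hjT
    have h1 : rep ((σ ^ j).symm x) = (σ ^ j).symm x := hjT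
    rw [hsc] at h1
    have h2 : (σ ^ j) (rep x) = x := by
      rw [h1]
      exact (σ ^ j).apply_symm_apply x
    have h3 : (σ ^ ((j : ℤ) - ((k % p).toNat : ℤ))) (rep x) = rep x := by
      rw [sub_eq_neg_add, zpow_add, Equiv.Perm.mul_apply, zpow_natCast, h2, zpow_neg, zpow_natCast]
      rw [← hsymm]
      rfl
    have h4 := key _ _ h3
    have hj' := mem_range.1 hj
    have h5 : ((j : ℤ) - ((k % p).toNat : ℤ)) = 0 := by
      apply Int.eq_zero_of_abs_lt_dvd h4
      rw [abs_lt]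
      constructor <;> omega
    omega

/-- The partition of unity on `X →₀ M`. -/
theorem finsupp_pou {X M : Type*} [AddCommGroup M] (σ : Equiv.Perm X) (p : ℕ) (hp : p.Prime)
    (P : σ ^ p = 1) (free : ∀ x, σ x ≠ x) :
    ∃ e : AddMonoid.End (X →₀ M), ∑ i ∈ range p, act M σ ^ i * e * act M σ ^ (p - i) = 1 := by
  classical
  obtain ⟨T, hT⟩ := exists_transversal σ p hp P free
  set e : AddMonoid.End (X →₀ M) := Finsupp.filterAddHom (fun x => x ∈ T) with hedef
  refine ⟨e, ?_⟩
  ext f x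
  rw [sumA, Finsupp.finsetSum_apply, oneA]
  obtain ⟨i, hi, hiT, huniq⟩ := hT x
  have hterm : ∀ j ∈ range p, ((act M σ ^ j * e *
      act M σ ^ (p - j)) f) x = if (σ ^ j).symm x ∈ T then f x else 0 := by
    intro j hj
    have hjp := mem_range.1 hj
    rw [mulA, mulA, act_pow, act_pow, act_apply]
    show (Finsupp.filter (fun x => x ∈ T) ((act M (σ ^ (p - j))) f)) ((σ ^ j).symm x) = _
    rw [Finsupp.filter_apply]
    split_ifs with h
    · rw [act_apply]
      congr 1
      rw [Equiv.symm_apply_eq, Equiv.symm_apply_eq, ← Equiv.Perm.mul_apply, ← pow_add,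
        show j + (p - j) = p by omega, P]
      rfl
    · rfl
  rw [sum_congr rfl hterm, sum_eq_single i]
  · rw [if_pos hiT]
  · intro j hj hji
    rw [if_neg]
    intro hjT
    exact hji (huniq j hj hjT)
  · intro h
    exact absurd hi h

/-- The operator on `X →₀ M` induced by a group element. -/
noncomputable abbrev gact {G X : Type*} [Group G] [MulAction G X] (M : Type*) [AddCommGroup M]
    (g : G) : AddMonoid.End (X →₀ M) :=
  act M (MulAction.toPerm g)

theorem gact_single {G X M : Type*} [Group G] [MulAction G X] [AddCommGroup M]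
    (g : G) (x : X) (m : M) :
    gact M g (Finsupp.single x m) = Finsupp.single (g • x) m :=
  Finsupp.mapDomain_single

theorem gact_apply {G X M : Type*} [Group G] [MulAction G X] [AddCommGroup M]
    (g : G) (f : X →₀ M) (x : X) :
    gact M g f x = f (g⁻¹ • x) :=
  act_apply _ f x

/-- **Torsion-freeness from a finite exact sequence of free modules.**
`X2, X1, X0` are free `G`-sets, `M2, M1, M0` arbitrary abelian groups. -/
theorem torsionFree_of_exact {G : Type*} [Group G]
    {X2 X1 X0 : Type*} [MulAction G X2] [MulAction G X1] [MulAction G X0]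
    {M2 M1 M0 : Type*} [AddCommGroup M2] [AddCommGroup M1] [AddCommGroup M0]
    (f2 : ∀ (g : G) (x : X2), g • x = x → g = 1)
    (f1 : ∀ (g : G) (x : X1), g • x = x → g = 1)
    (f0 : ∀ (g : G) (x : X0), g • x = x → g = 1)
    (d2 : (X2 →₀ M2) →+ (X1 →₀ M1)) (d1 : (X1 →₀ M1) →+ (X0 →₀ M0)) (ε : (X0 →₀ M0) →+ ℤ)
    (h2 : ∀ (g : G) a, d2 (gact M2 g a) = gact M1 g (d2 a))
    (h1 : ∀ (g : G) a, d1 (gact M1 g a) = gact M0 g (d1 a))
    (h0 : ∀ (g : G) a, ε (gact M0 g a) = ε a)
    (inj : ∀ a, d2 a = 0 → a = 0)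
    (dd : ∀ b, d1 (d2 b) = 0) (de : ∀ b, ε (d1 b) = 0)
    (ex1 : ∀ a, d1 a = 0 → ∃ b, d2 b = a)
    (ex0 : ∀ a, ε a = 0 → ∃ b, d1 b = a)
    (surj : ∃ a, ε a = 1) :
    ∀ g : G, IsOfFinOrder g → g = 1 := by
  intro g hg
  by_contra hne
  have hn0 : orderOf g ≠ 0 := hg.orderOf_pos.ne'
  have hn1 : orderOf g ≠ 1 := fun h => hne (orderOf_eq_one_iff.1 h)
  set p := (orderOf g).minFac with hpdef
  have hp : p.Prime := Nat.minFac_prime hn1
  have hdvd : p ∣ orderOf g := Nat.minFac_dvd _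
  set h : G := g ^ (orderOf g / p) with hh
  have hordh : orderOf h = p := orderOf_pow_orderOf_div hn0 hdvd
  have hhp : h ^ p = 1 := by rw [← hordh]; exact pow_orderOf_eq_one h
  have hh1 : h ≠ 1 := by
    intro h1
    rw [h1, orderOf_one] at hordh
    exact hp.one_lt.ne hordh
  have permpow1 : (MulAction.toPerm h : Equiv.Perm X1) ^ p = 1 := by
    have : (MulAction.toPermHom G X1 h) ^ p = 1 := by rw [← map_pow, hhp, map_one]
    exact this
  have permpow0 : (MulAction.toPerm h : Equiv.Perm X0) ^ p = 1 := by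
    have : (MulAction.toPermHom G X0 h) ^ p = 1 := by rw [← map_pow, hhp, map_one]
    exact this
  have permpow2 : (MulAction.toPerm h : Equiv.Perm X2) ^ p = 1 := by
    have : (MulAction.toPermHom G X2 h) ^ p = 1 := by rw [← map_pow, hhp, map_one]
    exact this
  obtain ⟨e2, he2⟩ := finsupp_pou (M := M2) (MulAction.toPerm h : Equiv.Perm X2) p hp permpow2
    (fun x hx => hh1 (f2 h x hx))
  obtain ⟨e1, he1⟩ := finsupp_pou (M := M1) (MulAction.toPerm h : Equiv.Perm X1) p hp permpow1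
    (fun x hx => hh1 (f1 h x hx))
  obtain ⟨e0, he0⟩ := finsupp_pou (M := M0) (MulAction.toPerm h : Equiv.Perm X0) p hp permpow0
    (fun x hx => hh1 (f0 h x hx))
  have P1 : act M1 (MulAction.toPerm h : Equiv.Perm X1) ^ p = 1 := by
    rw [act_pow, permpow1, act_one]
  have P0 : act M0 (MulAction.toPerm h : Equiv.Perm X0) ^ p = 1 := by
    rw [act_pow, permpow0, act_one]
  exact chase p hp.one_lt (gact M2 h) (gact M1 h) (gact M0 h) d2 d1 ε (h2 h) (h1 h) (h0 h)
    inj dd de ex1 ex0 surj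
    (fun a ha => cyc_fixed p _ e2 he2 a ha)
    (fun a ha => cyc_norm p _ e1 P1 he1 a ha)
    (fun a ha => cyc_fixed p _ e0 he0 a ha) P0 P1

end Crest.Agent.R199.Chase
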