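import Mathlib

/-!
Row 199 (S0303), part I.2: enlarging a small binary code by unit vectors and choosing disjoint triples of
coordinates such that the triple sums are coordinates on the code.
-/

set_option autoImplicit false

namespace Crest.Agent.R199.TB

open Finset Module

/-- A subspace of `P → K` can be enlarged by unit vectors to any prescribed dimension. -/
theorem exists_enlarge {K P : Type*} [Field K] [Fintype P] [DecidableEq P]
    (C0 : Submodule K (P → K)) (r : ℕ) (h1 : finrank K C0 ≤ r) (h2 : r ≤ Fintype.card P) :
    ∃ A : Finset P,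
      finrank K ↥(C0 ⊔ Submodule.span K ((fun j : P => (Pi.single j 1 : P → K)) '' (A : Set P))) = r := by
  classical
  let Cof : Finset P → Submodule K (P → K) := fun A =>
    C0 ⊔ Submodule.span K ((fun j : P => (Pi.single j 1 : P → K)) '' (A : Set P))
  have hex : ∃ A : Finset P, finrank K (Cof A) ≤ r := by
    refine ⟨∅, ?_⟩
    have : Cof ∅ = C0 := by
      simp only [Cof, Finset.coe_empty, Set.image_empty, Submodule.span_empty, sup_bot_eq]
    rw [this]
    exact h1
  obtain ⟨A, hA, hmax⟩ := (Finset.univ.filter (fun A : Finset P => finrank K (Cof A) ≤ r)).exists_max_image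
    (fun A => A.card) ⟨hex.choose, by simpa using hex.choose_spec⟩
  have hA' : finrank K (Cof A) ≤ r := by simpa using hA
  refine ⟨A, ?_⟩
  change finrank K (Cof A) = r
  by_contra hne
  have hlt : finrank K (Cof A) < r := lt_of_le_of_ne hA' hne
  have hnt : Cof A ≠ ⊤ := by
    intro htop
    rw [htop, finrank_top, Module.finrank_fintype_fun_eq_card] at hlt
    omega
  have hj : ∃ j : P, (Pi.single j 1 : P → K) ∉ Cof A := by
    by_contra hcon
    push Not at hcon
    apply hnt
    rw [eq_top_iff]
    intro f _
    have : f = ∑ j, f j • (Pi.single j 1 : P → K) := by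
      funext k
      simp [Finset.sum_apply, Pi.single_apply]
    rw [this]
    exact Submodule.sum_mem _ (fun j _ => Submodule.smul_mem _ _ (hcon j))
  obtain ⟨j, hj⟩ := hj
  have hjA : j ∉ A := by
    intro hjA
    apply hj
    exact Submodule.mem_sup_right (Submodule.subset_span ⟨j, hjA, rfl⟩)
  have hins : Cof (insert j A) = Cof A ⊔ Submodule.span K {(Pi.single j 1 : P → K)} := by
    simp only [Cof]
    rw [Finset.coe_insert, Set.image_insert_eq, Submodule.span_insert]
    rw [sup_comm (Submodule.span K {(Pi.single j 1 : P → K)}), sup_assoc]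
  have hle : finrank K (Cof (insert j A)) ≤ r := by
    rw [hins]
    have h3 := Submodule.finrank_add_le_finrank_add_finrank (Cof A)
      (Submodule.span K {(Pi.single j 1 : P → K)})
    have h4 : finrank K (Submodule.span K {(Pi.single j 1 : P → K)}) ≤ 1 := by
      have := finrank_span_le_card (R := K) ({(Pi.single j 1 : P → K)} : Set (P → K))
      simpa using this
    omega
  have h5 := hmax (insert j A) (by simpa using hle)
  rw [Finset.card_insert_of_notMem hjA] at h5
  omega

/-- information set -/
theorem exists_infoset {K P : Type*} [Field K] [Fintype P] [DecidableEq P]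
    (C : Submodule K (P → K)) :
    ∃ B : Finset P, B.card = finrank K C ∧ ∀ f ∈ C, (∀ b ∈ B, f b = 0) → f = 0 := by
  classical
  have hex : ∃ B : Finset P, ∀ f ∈ C, (∀ b ∈ B, f b = 0) → f = 0 :=
    ⟨Finset.univ, fun f _ hf => funext (fun b => hf b (Finset.mem_univ b))⟩
  obtain ⟨B, hB, hmin⟩ := (Finset.univ.filter
    (fun B : Finset P => ∀ f ∈ C, (∀ b ∈ B, f b = 0) → f = 0)).exists_min_image
    (fun B => B.card) ⟨hex.choose, by simpa using hex.choose_spec⟩
  have hB' : ∀ f ∈ C, (∀ b ∈ B, f b = 0) → f = 0 := by
    have := (Finset.mem_filter.mp hB).2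
    exact this
  refine ⟨B, ?_, hB'⟩
  apply le_antisymm
  · -- linearly independent family
    have hf : ∀ b : B, ∃ f : C, (∀ b' ∈ B, b' ≠ b.1 → (f : P → K) b' = 0) ∧ (f : P → K) b.1 ≠ 0 := by
      intro b
      by_contra hcon
      push Not at hcon
      have hmem : B.erase b.1 ∈ (Finset.univ.filter
          (fun B : Finset P => ∀ f ∈ C, (∀ b ∈ B, f b = 0) → f = 0)) := by
        rw [Finset.mem_filter]
        refine ⟨Finset.mem_univ _, ?_⟩
        intro f hf hz
        have h1 := hcon ⟨f, hf⟩ (fun b' hb' hne => hz b' (Finset.mem_erase.mpr ⟨hne, hb'⟩))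
        refine hB' f hf (fun b' hb' => ?_)
        by_cases hbb : b' = b.1
        · rw [hbb]; exact h1
        · exact hz b' (Finset.mem_erase.mpr ⟨hbb, hb'⟩)
      have h2 := hmin _ hmem
      have h3 := Finset.card_erase_lt_of_mem b.2
      omega
    choose F hF0 hF1 using hf
    have hli : LinearIndependent K F := by
      rw [Fintype.linearIndependent_iff]
      intro g hg b
      have h1 : ((∑ i, g i • F i : C) : P → K) b.1 = 0 := by
        rw [hg]; rfl
      rw [Submodule.coe_sum, Finset.sum_apply, Finset.sum_eq_single b] at h1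
      · simp only [Submodule.coe_smul, Pi.smul_apply, smul_eq_mul] at h1
        rcases mul_eq_zero.mp h1 with h | h
        · exact h
        · exact absurd h (hF1 b)
      · intro i _ hib
        have := hF0 i b.1 b.2 (fun h => hib (Subtype.ext h.symm))
        simp [this]
      · intro h; exact absurd (Finset.mem_univ _) h
    have := hli.fintype_card_le_finrank
    rwa [Fintype.card_coe] at this
  · -- injectivity
    let Φ : C →ₗ[K] (B → K) :=
      { toFun := fun f b => (f : P → K) b.1
        map_add' := fun f g => rfl
        map_smul' := fun c f => rfl }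
    have hinj : Function.Injective Φ := by
      rw [injective_iff_map_eq_zero]
      intro f hf
      apply Subtype.ext
      refine hB' f f.2 (fun b hb => ?_)
      exact congrFun hf ⟨b, hb⟩
    have := LinearMap.finrank_le_finrank_of_injective hinj
    rwa [Module.finrank_fintype_fun_eq_card, Fintype.card_coe] at this

/-- the greedy step -/
theorem greedy_triples {P : Type*} [Fintype P] [DecidableEq P]
    (C : Submodule (ZMod 2) (P → ZMod 2)) (hC : 3 * finrank (ZMod 2) C + 1 ≤ Fintype.card P) :
    ∀ m ≤ finrank (ZMod 2) C, ∃ (t : Fin m → Fin 3 → P) (B : Finset P),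
      (∀ z z' k k', t z k = t z' k' → z = z' ∧ k = k') ∧ (∀ z k, t z k ∉ B) ∧
      m + B.card = finrank (ZMod 2) C ∧
      ∀ f ∈ C, (∀ z, ∑ k, f (t z k) = 0) → (∀ b ∈ B, f b = 0) → f = 0 := by
  classical
  intro m
  induction m with
  | zero =>
    intro _
    obtain ⟨B, hB, hB'⟩ := exists_infoset C
    exact ⟨fun z => z.elim0, B, fun z => z.elim0, fun z => z.elim0, by omega,
      fun f hf _ hb => hB' f hf hb⟩
  | succ m ih =>
    intro hm
    obtain ⟨t, B, hinj, hdisj, hcard, hker⟩ := ih (by omega)
    have hBne : B.Nonempty := by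
      rw [← Finset.card_pos]; omega
    obtain ⟨b, hb⟩ := hBne
    -- the functional killing everything but `b`
    let Φ : C →ₗ[ZMod 2] (Fin m → ZMod 2) × (↥(B.erase b) → ZMod 2) :=
      { toFun := fun f => (fun z => ∑ k, (f : P → ZMod 2) (t z k), fun b' => (f : P → ZMod 2) b'.1)
        map_add' := by
          intro f g
          ext x
          · simp [Finset.sum_add_distrib]
          · simp
        map_smul' := by
          intro c f
          ext x
          · simp [Finset.mul_sum]
          · simp }
    have hlt : finrank (ZMod 2) ((Fin m → ZMod 2) × (↥(B.erase b) → ZMod 2))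
        < finrank (ZMod 2) C := by
      rw [Module.finrank_prod, Module.finrank_fintype_fun_eq_card,
        Module.finrank_fintype_fun_eq_card, Fintype.card_fin, Fintype.card_coe,
        Finset.card_erase_of_mem hb]
      have := Finset.card_pos.mpr ⟨b, hb⟩
      omega
    obtain ⟨f0, hf0k, hf0⟩ := (Submodule.ne_bot_iff _).mp (LinearMap.ker_ne_bot_of_finrank_lt (f := Φ) hlt)
    have hk := LinearMap.mem_ker.mp hf0k
    have hs0 : ∀ z, ∑ k, (f0 : P → ZMod 2) (t z k) = 0 := fun z => congrFun (congrArg Prod.fst hk) z
    have hb0 : ∀ b' ∈ B, b' ≠ b → (f0 : P → ZMod 2) b' = 0 := fun b' hb' hne =>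
      congrFun (congrArg Prod.snd hk) ⟨b', Finset.mem_erase.mpr ⟨hne, hb'⟩⟩
    have hfb : (f0 : P → ZMod 2) b = 1 := by
      have h01 : ∀ x : ZMod 2, x ≠ 0 → x = 1 := by decide
      apply h01
      intro hz
      apply hf0
      apply Subtype.ext
      refine hker f0 f0.2 hs0 (fun b' hb' => ?_)
      by_cases hbb : b' = b
      · rw [hbb]; exact hz
      · exact hb0 b' hb' hbb
    -- unused points
    set U : Finset P := Finset.univ \ (B ∪ (Finset.univ.image (fun x : Fin m × Fin 3 => t x.1 x.2)))
      with hU
    have hUcard : 3 ≤ U.card := by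
      have h1 : U.card = Fintype.card P
          - (B ∪ (Finset.univ.image (fun x : Fin m × Fin 3 => t x.1 x.2))).card := by
        rw [hU, Finset.card_sdiff_of_subset (Finset.subset_univ _), Finset.card_univ]
      have h2 := Finset.card_union_le B (Finset.univ.image (fun x : Fin m × Fin 3 => t x.1 x.2))
      have h3 : (Finset.univ.image (fun x : Fin m × Fin 3 => t x.1 x.2)).card ≤ m * 3 := by
        refine Finset.card_image_le.trans ?_
        simp
      omega
    have hmaps : ∀ u ∈ U, (f0 : P → ZMod 2) u ∈ (Finset.univ : Finset (ZMod 2)) :=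
      fun u _ => Finset.mem_univ _
    have hcard2 : (Finset.univ : Finset (ZMod 2)).card < U.card := by
      rw [Finset.card_univ, ZMod.card]; omega
    obtain ⟨u, huU, v, hvU, huv, hfuv⟩ :=
      Finset.exists_ne_map_eq_of_card_lt_of_maps_to hcard2 hmaps
    have hu1 : u ∉ B ∧ ∀ z k, t z k ≠ u := by
      rw [hU, Finset.mem_sdiff, Finset.mem_union, not_or] at huU
      refine ⟨huU.2.1, fun z k h => huU.2.2 ?_⟩
      rw [Finset.mem_image]
      exact ⟨(z, k), Finset.mem_univ _, h⟩
    have hv1 : v ∉ B ∧ ∀ z k, t z k ≠ v := by
      rw [hU, Finset.mem_sdiff, Finset.mem_union, not_or] at hvU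
      refine ⟨hvU.2.1, fun z k h => hvU.2.2 ?_⟩
      rw [Finset.mem_image]
      exact ⟨(z, k), Finset.mem_univ _, h⟩
    have hub : u ≠ b := fun h => hu1.1 (h ▸ hb)
    have hvb : v ≠ b := fun h => hv1.1 (h ▸ hb)
    let w : Fin 3 → P := ![b, u, v]
    have hw0 : w 0 = b := rfl
    have hw1 : w 1 = u := rfl
    have hw2 : w 2 = v := rfl
    have hwinj : Function.Injective w := by
      intro k k' h
      fin_cases k <;> fin_cases k' <;> simp [w] at h ⊢ <;>
        first
        | exact absurd h (Ne.symm hub)
        | exact absurd h (Ne.symm hvb)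
        | exact absurd h hub
        | exact absurd h hvb
        | exact absurd h huv
        | exact absurd h.symm huv
    have hwt : ∀ z k k', t z k ≠ w k' := by
      intro z k k'
      fin_cases k'
      · intro h
        have h' : t z k = b := h
        exact hdisj z k (h' ▸ hb)
      · exact hu1.2 z k
      · exact hv1.2 z k
    refine ⟨Fin.snoc t w, B.erase b, ?_, ?_, ?_, ?_⟩
    · intro z z' k k' h
      induction z using Fin.lastCases with
      | last =>
        induction z' using Fin.lastCases with
        | last =>
          simp only [Fin.snoc_last] at h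
          exact ⟨rfl, hwinj h⟩
        | cast z' =>
          simp only [Fin.snoc_last, Fin.snoc_castSucc] at h
          exact absurd h.symm (hwt z' k' k)
      | cast z =>
        induction z' using Fin.lastCases with
        | last =>
          simp only [Fin.snoc_last, Fin.snoc_castSucc] at h
          exact absurd h (hwt z k k')
        | cast z' =>
          simp only [Fin.snoc_castSucc] at h
          obtain ⟨h1, h2⟩ := hinj z z' k k' h
          exact ⟨by rw [h1], h2⟩
    · intro z k
      induction z using Fin.lastCases with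
      | last =>
        simp only [Fin.snoc_last]
        rw [Finset.mem_erase, not_and]
        fin_cases k
        · intro h; exact absurd rfl h
        · intro _; exact hu1.1
        · intro _; exact hv1.1
      | cast z =>
        simp only [Fin.snoc_castSucc]
        intro h
        exact hdisj z k (Finset.mem_of_mem_erase h)
    · rw [Finset.card_erase_of_mem hb]
      have := Finset.card_pos.mpr ⟨b, hb⟩
      omega
    · intro f hf hs hbz
      have hs' : ∀ z, ∑ k, f (t z k) = 0 := by
        intro z
        have := hs z.castSucc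
        simpa only [Fin.snoc_castSucc] using this
      have hlast : f b + f u + f v = 0 := by
        have := hs (Fin.last m)
        simp only [Fin.snoc_last] at this
        rwa [Fin.sum_univ_three, hw0, hw1, hw2] at this
      -- f = f b • f0
      have hdiff : f - f b • (f0 : P → ZMod 2) = 0 := by
        refine hker _ (Submodule.sub_mem _ hf (Submodule.smul_mem _ _ f0.2)) ?_ ?_
        · intro z
          simp only [Pi.sub_apply, Pi.smul_apply, smul_eq_mul, Finset.sum_sub_distrib,
            ← Finset.mul_sum, hs' z, hs0 z]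
          simp
        · intro b' hb'
          by_cases hbb : b' = b
          · rw [hbb]
            simp [hfb]
          · simp [hb0 b' hb' hbb, hbz b' (Finset.mem_erase.mpr ⟨hbb, hb'⟩)]
      have hfeq : f = f b • (f0 : P → ZMod 2) := sub_eq_zero.mp hdiff
      have hu : f u = f b * (f0 : P → ZMod 2) u := by
        conv_lhs => rw [hfeq]
        simp
      have hv : f v = f b * (f0 : P → ZMod 2) u := by
        conv_lhs => rw [hfeq]
        simp [hfuv]
      have hb00 : f b = 0 := by
        rw [hu, hv, add_assoc, CharTwo.add_self_eq_zero, add_zero] at hlast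
        exact hlast
      rw [hfeq, hb00, zero_smul]

/-- I.2: enlarge a binary code `C0` with `3 dim C0 + 1 ≤ |P|` by unit vectors to a code of dimension `r`,
`3 r + 1 ≤ |P| ≤ 3 r + 3`, on which the sums over `r` disjoint triples of coordinates are coordinates. -/
theorem exists_triples {P : Type*} [Fintype P] [DecidableEq P]
    (C0 : Submodule (ZMod 2) (P → ZMod 2)) (h : 3 * finrank (ZMod 2) C0 + 1 ≤ Fintype.card P) :
    ∃ (r : ℕ) (A : Finset P) (t : Fin r → Fin 3 → P),
      3 * r + 1 ≤ Fintype.card P ∧ Fintype.card P ≤ 3 * r + 3 ∧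
      (∀ z z' k k', t z k = t z' k' → z = z' ∧ k = k') ∧
      finrank (ZMod 2) ↥(C0 ⊔ Submodule.span (ZMod 2)
        ((fun j : P => (Pi.single j 1 : P → ZMod 2)) '' (A : Set P))) = r ∧
      ∀ c : Fin r → ZMod 2, ∃! f : P → ZMod 2,
        f ∈ C0 ⊔ Submodule.span (ZMod 2)
          ((fun j : P => (Pi.single j 1 : P → ZMod 2)) '' (A : Set P)) ∧
        ∀ z, ∑ k, f (t z k) = c z := by
  classical
  set r : ℕ := (Fintype.card P - 1) / 3 with hr
  have h1 : 3 * r + 1 ≤ Fintype.card P := by omega
  have h2 : Fintype.card P ≤ 3 * r + 3 := by omega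
  have h3 : finrank (ZMod 2) C0 ≤ r := by omega
  obtain ⟨A, hA⟩ := exists_enlarge C0 r h3 (by omega)
  set C := C0 ⊔ Submodule.span (ZMod 2)
    ((fun j : P => (Pi.single j 1 : P → ZMod 2)) '' (A : Set P)) with hC
  obtain ⟨t, B, hinj, _, hcard, hker⟩ := greedy_triples C (by rw [hA]; exact h1) r (by rw [hA])
  have hB : B = ∅ := by
    rw [← Finset.card_eq_zero]; omega
  refine ⟨r, A, t, h1, h2, hinj, hA, ?_⟩
  let D : C →ₗ[ZMod 2] (Fin r → ZMod 2) :=
    { toFun := fun f z => ∑ k, (f : P → ZMod 2) (t z k)
      map_add' := by
        intro f g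
        ext x
        simp [Finset.sum_add_distrib]
      map_smul' := by
        intro c f
        ext x
        simp [Finset.mul_sum] }
  have hDinj : Function.Injective D := by
    rw [injective_iff_map_eq_zero]
    intro f hf
    apply Subtype.ext
    refine hker f f.2 (fun z => congrFun hf z) ?_
    intro b hb
    rw [hB] at hb
    exact absurd hb (Finset.notMem_empty b)
  have hDsurj : Function.Surjective D := by
    rw [← LinearMap.injective_iff_surjective_of_finrank_eq_finrank]
    · exact hDinj
    · rw [hA, Module.finrank_fintype_fun_eq_card, Fintype.card_fin]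
  intro c
  obtain ⟨f, hf⟩ := hDsurj c
  refine ⟨f, ⟨f.2, fun z => congrFun hf z⟩, ?_⟩
  rintro g ⟨hg, hg2⟩
  have : (⟨g, hg⟩ : C) = f := by
    apply hDinj
    rw [hf]
    funext z
    exact hg2 z
  exact congrArg Subtype.val this

end Crest.Agent.R199.TB
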