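import Mathlib
import Crest.Agent.R199.TriplesB

/-! I.2: classes of size three by pigeonhole, and extension of a code by unit vectors.
(task 886, helper286; the greedy part is `TB.greedy_triples`). -/

set_option autoImplicit false

namespace Crest.Agent.R199

/-- pigeonhole greedy: keep a basis `s₁..s_{z-1}, ev b_z, ..` of the dual; among any three unused points
two have the same coefficient `λ(ev u) = λ(ev v)` at `ev b_z`. -/
theorem exists_classes {P : Type} [Fintype P] (C : Submodule (ZMod 2) (P → ZMod 2))
    (h : 3 * Module.finrank (ZMod 2) C + 1 ≤ Fintype.card P) :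
    ∃ pt3 : Fin (Module.finrank (ZMod 2) C) × Fin 3 → P, Function.Injective pt3 ∧
      Function.Bijective (fun (f : C) (z : Fin (Module.finrank (ZMod 2) C)) =>
        ∑ τ : Fin 3, (f : P → ZMod 2) (pt3 (z, τ))) := by
  classical
  obtain ⟨t, B, h1, _, h3, h4⟩ := TB.greedy_triples C h (Module.finrank (ZMod 2) C) le_rfl
  have hB : B = ∅ := by
    rw [← Finset.card_eq_zero]; omega
  subst hB
  refine ⟨fun p => t p.1 p.2, ?_, ?_⟩
  · rintro ⟨z, k⟩ ⟨z', k'⟩ he
    obtain ⟨e1, e2⟩ := h1 z z' k k' he
    rw [e1, e2]
  · let φ : C →ₗ[ZMod 2] (Fin (Module.finrank (ZMod 2) C) → ZMod 2) :=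
      { toFun := fun f z => ∑ τ : Fin 3, (f : P → ZMod 2) (t z τ)
        map_add' := fun f g => by
          funext z
          simp [Finset.sum_add_distrib]
        map_smul' := fun c f => by
          funext z
          simp [Finset.mul_sum] }
    have hinj : Function.Injective φ := by
      rw [injective_iff_map_eq_zero]
      intro f hf
      refine Subtype.ext (h4 f.1 f.2 (fun z => congrFun hf z) ?_)
      simp
    have hsurj : Function.Surjective φ :=
      (LinearMap.injective_iff_surjective_of_finrank_eq_finrank (by simp)).mp hinj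
    exact ⟨hinj, hsurj⟩

/-- extension by unit vectors to any dimension between `dim C` and `card P` -/
theorem exists_extension {P : Type} [Fintype P] [DecidableEq P]
    (C : Submodule (ZMod 2) (P → ZMod 2)) (r : ℕ) (h1 : Module.finrank (ZMod 2) C ≤ r)
    (h2 : r ≤ Fintype.card P) :
    ∃ A : Finset P, Module.finrank (ZMod 2)
        ↥(C ⊔ Submodule.span (ZMod 2) ((fun a : P => (Pi.single a 1 : P → ZMod 2)) '' (A : Set P))) = r ∧
      A.card + Module.finrank (ZMod 2) C = r := by
  induction r, h1 using Nat.le_induction with
  | base =>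
    refine ⟨∅, ?_, ?_⟩
    · rw [Finset.coe_empty, Set.image_empty, Submodule.span_empty, sup_bot_eq]
    · simp
  | succ r hr ih =>
    obtain ⟨A, hA1, hA2⟩ := ih (by omega)
    set D := C ⊔ Submodule.span (ZMod 2) ((fun a : P => (Pi.single a 1 : P → ZMod 2)) '' (A : Set P))
      with hD
    have hnt : D ≠ ⊤ := by
      intro htop
      rw [htop, finrank_top, Module.finrank_fintype_fun_eq_card] at hA1
      omega
    have hj : ∃ j : P, (Pi.single j 1 : P → ZMod 2) ∉ D := by
      by_contra hcon
      push Not at hcon
      apply hnt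
      rw [eq_top_iff]
      intro f _
      have : f = ∑ j, f j • (Pi.single j 1 : P → ZMod 2) := by
        funext k
        simp [Finset.sum_apply, Pi.single_apply]
      rw [this]
      exact Submodule.sum_mem _ (fun j _ => Submodule.smul_mem _ _ (hcon j))
    obtain ⟨j, hj⟩ := hj
    have hjA : j ∉ A := by
      intro hjA
      apply hj
      exact Submodule.mem_sup_right (Submodule.subset_span ⟨j, hjA, rfl⟩)
    have hins : C ⊔ Submodule.span (ZMod 2)
        ((fun a : P => (Pi.single a 1 : P → ZMod 2)) '' ((insert j A : Finset P) : Set P))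
        = D ⊔ Submodule.span (ZMod 2) {(Pi.single j 1 : P → ZMod 2)} := by
      rw [Finset.coe_insert, Set.image_insert_eq, Submodule.span_insert, hD]
      rw [sup_comm (Submodule.span (ZMod 2) {(Pi.single j 1 : P → ZMod 2)}), sup_assoc]
    refine ⟨insert j A, ?_, ?_⟩
    · rw [hins]
      have hdisj : D ⊓ Submodule.span (ZMod 2) {(Pi.single j 1 : P → ZMod 2)} = ⊥ := by
        rw [eq_bot_iff]
        intro x hx
        obtain ⟨hx1, hx2⟩ := Submodule.mem_inf.mp hx
        obtain ⟨a, rfl⟩ := Submodule.mem_span_singleton.mp hx2
        rcases eq_or_ne a 0 with ha | ha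
        · rw [ha, zero_smul]; exact Submodule.zero_mem _
        · exfalso
          apply hj
          have := D.smul_mem a⁻¹ hx1
          rwa [smul_smul, inv_mul_cancel₀ ha, one_smul] at this
      have hsum := Submodule.finrank_sup_add_finrank_inf_eq D
        (Submodule.span (ZMod 2) {(Pi.single j 1 : P → ZMod 2)})
      rw [hdisj, finrank_bot, finrank_span_singleton (by simp), hA1] at hsum
      simpa using hsum
    · rw [Finset.card_insert_of_notMem hjA]
      omega

end Crest.Agent.R199
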