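import Crest.Agent.R199.GInput
import Crest.Agent.R199.PRank
import Crest.Agent.R199.TriplesB
import Crest.Agent.R199.Dirs

/-! Part I: parameters and instantiation of the input data. -/

set_option autoImplicit false

namespace Crest.Agent.R199

open Finset

/-- Two points determine the direction. -/
lemma dir_unique {F : Type} [Field F] {n : ℕ} {p₁ p₂ : F × (Fin n → F)} (hp : p₁ ≠ p₂)
    {d d' : Fin n → F} (h1 : p₁.2 - p₁.1 • d = p₂.2 - p₂.1 • d)
    (h2 : p₁.2 - p₁.1 • d' = p₂.2 - p₂.1 • d') : d = d' := by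
  have hne : p₁.1 ≠ p₂.1 := by
    intro he
    apply hp
    refine Prod.ext he ?_
    rw [he] at h1
    exact sub_left_injective h1
  have e1 : (p₁.1 - p₂.1) • d = p₁.2 - p₂.2 := by
    rw [sub_smul]
    have : p₁.2 = p₂.2 - p₂.1 • d + p₁.1 • d := by rw [← h1]; abel
    rw [this]; abel
  have e2 : (p₁.1 - p₂.1) • d' = p₁.2 - p₂.2 := by
    rw [sub_smul]
    have : p₁.2 = p₂.2 - p₂.1 • d' + p₁.1 • d' := by rw [← h2]; abel
    rw [this]; abel
  exact smul_right_injective _ (sub_ne_zero.2 hne) (e1.trans e2.symm)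

theorem exists_gInput (g : ℕ) : Nonempty (GInput g) := by
  classical
  obtain ⟨c, hc⟩ : ∃ c, c = 2 * g + 30 := ⟨_, rfl⟩
  obtain ⟨n, hn⟩ : ∃ n, n = 3 * c := ⟨_, rfl⟩
  have hμ : n + 1 ≤ 2 ^ (n + 1) := Nat.lt_two_pow_self.le
  obtain ⟨μ, hμ'⟩ : ∃ μ, μ = n + 1 := ⟨_, rfl⟩
  rw [← hμ'] at hμ
  obtain ⟨T0, hT0⟩ := _root_.R199.exists_small_rank n 4 μ (by rw [hμ']; rw [hμ'] at hμ; exact hμ)
  obtain ⟨e, he⟩ : ∃ e, e = μ * (T0 + 1) := ⟨_, rfl⟩
  have he0 : e ≠ 0 := by
    rw [he, hμ']; positivity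
  have hc0 : c ≠ 0 := by omega
  let F := GaloisField 2 e
  let K := GaloisField 2 (e * c)
  have _ : Fintype F := Fintype.ofFinite F
  have _ : Fintype K := Fintype.ofFinite K
  have hF : Fintype.card F = 2 ^ e := by
    rw [Fintype.card_eq_nat_card]; exact GaloisField.card 2 e he0
  have hK : Fintype.card K = 2 ^ (e * c) := by
    rw [Fintype.card_eq_nat_card]; exact GaloisField.card 2 (e * c) (Nat.mul_ne_zero he0 hc0)
  obtain ⟨q, hq⟩ : ∃ q, q = 2 ^ e := ⟨_, rfl⟩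
  have hKq : Fintype.card K = q ^ c := by rw [hK, hq, ← pow_mul]
  rw [← hq] at hF
  have hq2 : 2 ≤ q := by
    rw [hq]
    calc 2 = 2 ^ 1 := rfl
      _ ≤ 2 ^ e := Nat.pow_le_pow_right (by norm_num) (Nat.one_le_iff_ne_zero.2 he0)
  have hrank := hT0 (T0 + 1) (Nat.le_succ _) F (by rw [hF, hq, he])
  have hP : Fintype.card (F × (Fin n → F)) = q ^ (n + 1) := by
    rw [Fintype.card_prod, Fintype.card_fun, Fintype.card_fin, hF, pow_succ]; ring
  have hE : Fintype.card (Fin n → F) = Fintype.card K ^ 3 := by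
    rw [Fintype.card_fun, Fintype.card_fin, hF, hKq, ← pow_mul, hn]; ring
  have hP4 : 4 ≤ q ^ (n + 1) := by
    calc 4 = 2 ^ 2 := rfl
      _ ≤ q ^ 2 := Nat.pow_le_pow_left hq2 2
      _ ≤ q ^ (n + 1) := Nat.pow_le_pow_right (by omega) (by omega)
  obtain ⟨r, A, t, h1, h2, hinj, hfin, hdual⟩ := TB.exists_triples
    (Submodule.span (ZMod 2)
        (Set.range fun wd : (Fin n → F) × (Fin n → F) => _root_.R199.lineVec wd.1 wd.2)) (by
      rw [hP] at hrank ⊢
      omega)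
  rw [hP] at h1 h2
  have hX : Fintype.card (Option (Fin r)) ≤ Fintype.card K ^ 4 := by
    rw [Fintype.card_option, Fintype.card_fin, hKq, ← pow_mul]
    calc r + 1 ≤ q ^ (n + 1) := by omega
      _ ≤ q ^ (c * 4) := Nat.pow_le_pow_right (by omega) (by omega)
  obtain ⟨δ, hδ, hδ2⟩ := exists_dirs K (Option (Fin r)) (Fin n → F) hE hX
  refine ⟨{
    P := F × (Fin n → F)
    Z := Fin r
    E := Fin n → F
    S := K
    fP := inferInstance
    fZ := inferInstance
    fE := inferInstance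
    fS := inferInstance
    q := q
    C := _
    t := fun zk => t zk.1 zk.2
    t_inj := ?_
    b := fun x s p => p.2 - p.1 • δ x s
    line_card := ?_
    line_mem := ?_
    rank := by rw [hfin, Fintype.card_fin]
    dual := ?_
    ident := ?_
    even_S := ?_
    big := ?_
    one_le_q := by omega
    nonempty_P := ⟨(0, 0)⟩
    nonempty_Z := ⟨⟨0, by omega⟩⟩ }⟩
  · rintro ⟨z, k⟩ ⟨z', k'⟩ h
    obtain ⟨rfl, rfl⟩ := hinj z z' k k' h
    rfl
  · intro x s w
    rw [← hF, ← card_univ (α := F)]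
    refine card_le_card_of_injOn Prod.fst (fun p _ => mem_coe.2 (mem_univ _)) ?_
    intro p hp p' hp' h
    have e1 : p.2 - p.1 • δ x s = w := by simpa using hp
    have e2 : p'.2 - p'.1 • δ x s = w := by simpa using hp'
    refine Prod.ext h ?_
    rw [← e2, h] at e1
    exact sub_left_injective e1
  · intro x s w
    apply Submodule.mem_sup_left
    apply Submodule.subset_span
    refine ⟨(w, δ x s), ?_⟩
    funext p
    simp only [_root_.R199.lineVec]
    have : p.2 = w + p.1 • δ x s ↔ p.2 - p.1 • δ x s = w := sub_eq_iff_eq_add.symm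
    by_cases h : p.2 - p.1 • δ x s = w
    · rw [if_pos h, if_pos (this.2 h)]
    · rw [if_neg h, if_neg (fun h' => h (this.1 h'))]
  · intro z
    obtain ⟨f, ⟨hf, hfs⟩, -⟩ := hdual (Pi.single z 1)
    refine ⟨f, hf, fun z' => ?_⟩
    rw [hfs z', Pi.single_apply]
    split_ifs <;> rfl
  · intro x y s₁ s₂ s₁' s₂' p₁ p₂ r₁ r₂ hp hr hs a1 a2 a3 a4
    have e1 := dir_unique hp a1 a2
    have e2 := dir_unique hr a3 a4
    obtain ⟨e3, e4, -⟩ := hδ2 x y s₁ s₂ s₁' s₂' hs e1 e2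
    exact ⟨e3, e4⟩
  · have hec : e * c ≠ 0 := Nat.mul_ne_zero he0 hc0
    rw [hK]
    exact (Nat.even_pow.2 ⟨even_two, hec⟩)
  · rw [hKq]
    have h3 : q + 1 ≤ q ^ 2 := by nlinarith
    have h4 : 100 ≤ q ^ 7 := le_trans (by norm_num) (Nat.pow_le_pow_left hq2 7)
    calc 100 * (q + 1) ^ (g + 8) ≤ q ^ 7 * (q ^ 2) ^ (g + 8) :=
          Nat.mul_le_mul h4 (Nat.pow_le_pow_left h3 _)
      _ = q ^ (7 + 2 * (g + 8)) := by rw [← pow_mul, ← pow_add]
      _ ≤ q ^ c := Nat.pow_le_pow_right (by omega) (by omega)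

end Crest.Agent.R199
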