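import Crest.Agent.R199.GadgetAsm
import Crest.Agent.R199.ParamsB

/-! Part I: existence of the gadget system, S1 version. -/

set_option autoImplicit false

namespace Crest.Agent.R199

theorem exists_gadgetSys1 (g : ℕ) : ∃ (Z C W : Type) (_ : Fintype Z) (_ : Fintype W)
    (_ : AddCommGroup C) (_ : Module (ZMod 2) C), Nonempty (GadgetSys1 Z C W g) := by
  obtain ⟨I⟩ := exists_gInput (g + 6)
  exact gadgetSys_of_input I

end Crest.Agent.R199
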