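import Mathlib

/-!
# Row 199, I.4(d): perfect matching of flags inside classes with large girth (Erdos-Sachs)

`Fl` = flags, `vtx : Fl → V` the sheet of a flag, a matching = involution `σ : Fl → Fl` (fixed points are
unmatched).  `NoCyc vtx σ g` : no cyclically reduced closed walk of length `k`, `1 ≤ k < g`.
-/

set_option autoImplicit false
set_option linter.unusedSectionVars false

namespace Crest.Agent.R199

open Finset

section Walks

variable {V Fl : Type*} (vtx : Fl → V)

/-- one step of a reduced walk: leave through `a`, arrive at `σ a`, leave through `b ≠ σ a`. -/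
def NB (σ : Fl → Fl) (a b : Fl) : Prop := σ a ≠ a ∧ vtx b = vtx (σ a) ∧ b ≠ σ a

/-- no cyclically reduced closed walk of length in `[1,g)` -/
def NoCyc (σ : Fl → Fl) (g : ℕ) : Prop :=
  ∀ k, 1 ≤ k → k < g → ∀ c : ℕ → Fl, (∀ i, c (i + k) = c i) → ¬ ∀ i, NB vtx σ (c i) (c (i + 1))

/-- no reduced closed walk of length in `[1,g)` -/
def NoClosed (σ : Fl → Fl) (g : ℕ) : Prop :=
  ∀ m, m + 1 < g → ∀ c : ℕ → Fl, (∀ i, i < m → NB vtx σ (c i) (c (i + 1))) → σ (c m) ≠ c m →
    vtx (σ (c m)) ≠ vtx (c 0)

variable {vtx}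

theorem NoCyc.noClosed {σ : Fl → Fl} (hσ : Function.Involutive σ) {g : ℕ} (h : NoCyc vtx σ g) :
    NoClosed vtx σ g := by
  intro m
  induction m using Nat.strong_induction_on with
  | _ m ih =>
    intro hm c hc hcm hclose
    by_cases hred : c 0 = σ (c m)
    · -- strip both ends
      rcases Nat.lt_or_ge m 2 with h2 | h2
      · interval_cases m
        · exact hcm hred.symm
        · have h3 := (hc 0 (by omega)).2.2
          apply h3
          rw [hred, hσ]
      · obtain ⟨m', rfl⟩ : ∃ m', m = m' + 2 := ⟨m - 2, by omega⟩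
        refine ih m' (by omega) (by omega) (fun i => c (i + 1)) ?_ ?_ ?_
        · intro i hi
          exact hc (i + 1) (by omega)
        · exact (hc (m' + 1) (by omega)).1
        · have h3 := (hc (m' + 1) (by omega)).2.1
          have h4 := (hc 0 (by omega)).2.1
          simp only [zero_add] at h4 ⊢
          rw [← h3, h4, hred, hσ]
    · -- cyclically reduced
      refine h (m + 1) (by omega) hm (fun i => c (i % (m + 1))) ?_ ?_
      · intro i; simp
      · intro i
        have hi : i % (m + 1) < m + 1 := Nat.mod_lt _ (by omega)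
        rcases Nat.lt_or_ge (i % (m + 1)) m with h3 | h3
        · have h4 : (i + 1) % (m + 1) = i % (m + 1) + 1 := by
            rw [Nat.add_mod]
            rcases Nat.eq_zero_or_pos m with h5 | h5
            · omega
            · rw [Nat.mod_eq_of_lt (show 1 < m + 1 by omega), Nat.mod_eq_of_lt (by omega)]
          rw [h4]
          exact hc _ h3
        · have h4 : i % (m + 1) = m := by omega
          have h5 : (i + 1) % (m + 1) = 0 := by
            rw [Nat.add_mod, h4]
            rcases Nat.eq_zero_or_pos m with h5 | h5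
            · subst h5; simp
            · rw [Nat.mod_eq_of_lt (show 1 < m + 1 by omega), Nat.mod_self]
          rw [h4, h5]
          exact ⟨hcm, hclose.symm, hred⟩

/-- `b` can be reached from `a` in at most `m` steps -/
def Near (vtx : Fl → V) (σ : Fl → Fl) : ℕ → V → V → Prop
  | 0, a, b => a = b
  | m + 1, a, b => Near vtx σ m a b ∨ ∃ x, Near vtx σ m a (vtx x) ∧ b = vtx (σ x)

theorem Near.refl (σ : Fl → Fl) (m : ℕ) (a : V) : Near vtx σ m a a := by
  induction m with
  | zero => rfl
  | succ m ih => exact Or.inl ih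

theorem Near.mono {σ : Fl → Fl} {m m' : ℕ} (h : m ≤ m') {a b : V} (hab : Near vtx σ m a b) :
    Near vtx σ m' a b := by
  induction h with
  | refl => exact hab
  | step _ ih => exact Or.inl ih

theorem Near.cons {σ : Fl → Fl} (x : Fl) : ∀ (m : ℕ) {b : V}, Near vtx σ m (vtx (σ x)) b →
    Near vtx σ (m + 1) (vtx x) b
  | 0, _, h => Or.inr ⟨x, rfl, h.symm⟩
  | m + 1, _, Or.inl h => Or.inl (Near.cons x m h)
  | m + 1, _, Or.inr ⟨y, hy, hb⟩ => Or.inr ⟨y, Near.cons x m hy, hb⟩

theorem Near.symm {σ : Fl → Fl} (hσ : Function.Involutive σ) : ∀ (m : ℕ) {a b : V},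
    Near vtx σ m a b → Near vtx σ m b a
  | 0, _, _, h => Eq.symm h
  | m + 1, _, _, Or.inl h => Or.inl (Near.symm hσ m h)
  | m + 1, _, _, Or.inr ⟨x, hx, hb⟩ => by
    have h1 := Near.symm hσ m hx
    rw [hb]
    apply Near.cons
    rw [hσ]
    exact h1

/-- a walk gives nearness -/
theorem near_of_walk {σ : Fl → Fl} (c : ℕ → Fl) (i m : ℕ)
    (h : ∀ j, i ≤ j → j < i + m → vtx (c (j + 1)) = vtx (σ (c j))) :
    Near vtx σ m (vtx (c i)) (vtx (c (i + m))) := by
  induction m with
  | zero => rfl
  | succ m ih =>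
    refine Or.inr ⟨c (i + m), ih fun j h1 h2 => h j h1 (by omega), ?_⟩
    exact h (i + m) (by omega) (by omega)

end Walks

section Switch

variable {V Fl : Type*} {vtx : Fl → V} [DecidableEq Fl]

/-- match the two unmatched flags `f`, `f'` -/
def joinMap (σ : Fl → Fl) (f f' : Fl) : Fl → Fl := fun x =>
  if x = f then f' else if x = f' then f else σ x

theorem joinMap_invol {σ : Fl → Fl} (hσ : Function.Involutive σ) {f f' : Fl} (hf : σ f = f)
    (hf' : σ f' = f') (hne : f ≠ f') : Function.Involutive (joinMap σ f f') := by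
  intro x
  unfold joinMap
  have key : ∀ y, σ x = y → σ y = x := fun y h => by rw [← h, hσ]
  by_cases h1 : x = f
  · subst h1; simp [hne.symm]
  · by_cases h2 : x = f'
    · subst h2; simp [h1]
    · have h3 : σ x ≠ f := fun h => h1 (by rw [← hf, ← h, hσ])
      have h4 : σ x ≠ f' := fun h => h2 (by rw [← hf', ← h, hσ])
      simp [h1, h2, h3, h4, hσ x]

/-- Generic cyclic argument: in a closed walk using the modified matching, there are two cyclically
consecutive modified flags. -/
theorem consecutive {k : ℕ} (hk : 1 ≤ k) (c : ℕ → Fl) (hper : ∀ i, c (i + k) = c i) (N : Fl → Prop)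
    (i0 : ℕ) (hi0 : N (c i0)) :
    ∃ j, 1 ≤ j ∧ j ≤ k ∧ N (c (i0 + j)) ∧ ∀ l, 1 ≤ l → l < j → ¬ N (c (i0 + l)) := by
  classical
  have hex : ∃ j, 1 ≤ j ∧ N (c (i0 + j)) := ⟨k, hk, by rw [hper]; exact hi0⟩
  refine ⟨Nat.find hex, (Nat.find_spec hex).1, Nat.find_min' hex ⟨hk, by rw [hper]; exact hi0⟩,
    (Nat.find_spec hex).2, fun l h1 h2 h3 => Nat.find_min hex h2 ⟨h1, h3⟩⟩

theorem noCyc_of_new {σ σ' : Fl → Fl} {g : ℕ} (N : Fl → Prop)
    (hold : ∀ x, ¬ N x → σ' x = σ x) (h : NoCyc vtx σ g)
    (hnew : ∀ k, 1 ≤ k → k < g → ∀ c : ℕ → Fl, (∀ i, c (i + k) = c i) →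
      (∀ i, NB vtx σ' (c i) (c (i + 1))) → ∀ i, ¬ N (c i)) : NoCyc vtx σ' g := by
  intro k hk1 hk2 c hper hNB
  have hN := hnew k hk1 hk2 c hper hNB
  refine h k hk1 hk2 c hper fun i => ?_
  have h1 := hNB i
  unfold NB at h1 ⊢
  rw [hold _ (hN i)] at h1
  exact h1

/-- Segment lemma: a segment of old flags. -/
theorem segment {σ σ' : Fl → Fl} (N : Fl → Prop) (hold : ∀ x, ¬ N x → σ' x = σ x) (c : ℕ → Fl) (i j : ℕ)
    (hj : 1 ≤ j) (hNB : ∀ i, NB vtx σ' (c i) (c (i + 1))) (hseg : ∀ l, 1 ≤ l → l < j → ¬ N (c (i + l))) :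
    Near vtx σ (j - 1) (vtx (σ' (c i))) (vtx (c (i + j))) := by
  have h1 := near_of_walk (vtx := vtx) (σ := σ) c (i + 1) (j - 1) (fun l h1 h2 => by
    have h3 := (hNB l).2.1
    have h4 := hseg (l - i) (by omega) (by omega)
    rw [show i + (l - i) = l by omega] at h4
    rw [hold _ h4] at h3
    exact h3)
  rw [show i + 1 + (j - 1) = i + j by omega, (hNB i).2.1] at h1
  exact h1

/-- Closed segments are impossible. -/
theorem segment_closed {σ σ' : Fl → Fl} {g : ℕ} (hcl : NoClosed vtx σ g) (N : Fl → Prop)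
    (hold : ∀ x, ¬ N x → σ' x = σ x) (c : ℕ → Fl) (i j : ℕ)
    (hj : 1 ≤ j) (hjg : j < g) (hNB : ∀ i, NB vtx σ' (c i) (c (i + 1)))
    (hseg : ∀ l, 1 ≤ l → l < j → ¬ N (c (i + l)))
    (hcl2 : c (i + j) = σ' (c i)) : False := by
  rcases Nat.lt_or_ge 1 j with h1 | h1
  · -- positive length
    refine hcl (j - 2) (by omega) (fun l => c (i + 1 + l)) ?_ ?_ ?_
    · intro l hl
      have h3 := hNB (i + 1 + l)
      have h4 := hseg (1 + l) (by omega) (by omega)
      rw [← add_assoc] at h4
      unfold NB at h3 ⊢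
      rw [hold _ h4] at h3
      exact h3
    · have h3 := (hNB (i + 1 + (j - 2))).1
      have h4 := hseg (1 + (j - 2)) (by omega) (by omega)
      rw [← add_assoc] at h4
      rw [hold _ h4] at h3
      exact h3
    · have h3 := (hNB (i + 1 + (j - 2))).2.1
      have h4 := hseg (1 + (j - 2)) (by omega) (by omega)
      rw [← add_assoc] at h4
      rw [hold _ h4, show i + 1 + (j - 2) + 1 = i + j by omega] at h3
      rw [← h3, hcl2]
      exact (hNB i).2.1.symm
  · have : j = 1 := by omega
    subst this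
    exact (hNB i).2.2 hcl2

/-- Adding one edge between far vertices. -/
theorem noCyc_join {σ : Fl → Fl} (hσ : Function.Involutive σ) {g : ℕ} (h : NoCyc vtx σ g) {f f' : Fl}
    (hne : f ≠ f') (hfar : ¬ Near vtx σ g (vtx f) (vtx f')) :
    NoCyc vtx (joinMap σ f f') g := by
  have hcl := h.noClosed hσ
  have hfar' : ¬ Near vtx σ g (vtx f') (vtx f) := fun h => hfar (Near.symm hσ g h)
  have e1 : joinMap σ f f' f = f' := by simp [joinMap]
  have e2 : joinMap σ f f' f' = f := by simp [joinMap, hne.symm]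
  refine noCyc_of_new (fun x => x = f ∨ x = f') ?_ h ?_
  · intro x hx
    push Not at hx
    simp [joinMap, hx.1, hx.2]
  · intro k hk1 hk2 c hper hNB i hi
    have hold : ∀ x, ¬ (x = f ∨ x = f') → joinMap σ f f' x = σ x := by
      intro x hx
      push Not at hx
      simp [joinMap, hx.1, hx.2]
    obtain ⟨j, hj1, hj2, hj3, hj4⟩ := consecutive hk1 c hper (fun x => x = f ∨ x = f') i hi
    have hnear := segment (fun x => x = f ∨ x = f') hold c i j hj1 hNB hj4
    rcases hi with hi | hi <;> rcases hj3 with hj3 | hj3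
    · rw [hi, hj3, e1] at hnear
      exact hfar' (hnear.mono (by omega))
    · exact segment_closed hcl _ hold c i j hj1 (by omega) hNB hj4 (by rw [hi, hj3, e1])
    · exact segment_closed hcl _ hold c i j hj1 (by omega) hNB hj4 (by rw [hi, hj3, e2])
    · rw [hi, hj3, e2] at hnear
      exact hfar (hnear.mono (by omega))

/-- rematch: `f ↔ h`, `f' ↔ h'` -/
def swMap (σ : Fl → Fl) (f f' h h' : Fl) : Fl → Fl := fun x =>
  if x = f then h else if x = h then f else if x = f' then h' else if x = h' then f' else σ x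

theorem swMap_invol {σ : Fl → Fl} (hσ : Function.Involutive σ) {f f' h h' : Fl} (hf : σ f = f)
    (hf' : σ f' = f') (hne : f ≠ f') (hh : σ h = h') (hhne : h ≠ h') :
    Function.Involutive (swMap σ f f' h h') := by
  have hh' : σ h' = h := by rw [← hh, hσ]
  have a1 : h ≠ f := fun e => hhne (by rw [← hh, e, hf])
  have a2 : h ≠ f' := fun e => hhne (by rw [← hh, e, hf'])
  have a3 : h' ≠ f := fun e => hhne (by rw [← hh', e, hf])
  have a4 : h' ≠ f' := fun e => hhne (by rw [← hh', e, hf'])
  intro x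
  unfold swMap
  by_cases h1 : x = f
  · subst h1; simp [a1]
  · by_cases h2 : x = h
    · subst h2; simp [h1]
    · by_cases h3 : x = f'
      · subst h3; simp [h1, h2, a3, a4, hhne.symm]
      · by_cases h4 : x = h'
        · subst h4; simp [h1, h2, h3, hne.symm, a2.symm]
        · have b1 : σ x ≠ f := fun e => h1 (by rw [← hf, ← e, hσ])
          have b2 : σ x ≠ h := fun e => h4 (by rw [← hh, ← e, hσ])
          have b3 : σ x ≠ f' := fun e => h3 (by rw [← hf', ← e, hσ])
          have b4 : σ x ≠ h' := fun e => h2 (by rw [← hh', ← e, hσ])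
          simp [h1, h2, h3, h4, b1, b2, b3, b4, hσ x]

theorem noCyc_switch {σ : Fl → Fl} (hσ : Function.Involutive σ) {g : ℕ} (hg : NoCyc vtx σ g) {f f' h h' : Fl}
    (hf : σ f = f) (hf' : σ f' = f') (hne : f ≠ f') (hh : σ h = h') (hhne : h ≠ h')
    (hfar : ∀ x y, (x = f ∨ x = f') → (y = h ∨ y = h') → ¬ Near vtx σ g (vtx x) (vtx y)) :
    NoCyc vtx (swMap σ f f' h h') g := by
  have hh' : σ h' = h := by rw [← hh, hσ]
  have hcl := hg.noClosed hσ
  have a1 : h ≠ f := fun e => hhne (by rw [← hh, e, hf])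
  have a2 : h ≠ f' := fun e => hhne (by rw [← hh, e, hf'])
  have a3 : h' ≠ f := fun e => hhne (by rw [← hh', e, hf])
  have a4 : h' ≠ f' := fun e => hhne (by rw [← hh', e, hf'])
  have hfar' : ∀ x y, (x = f ∨ x = f') → (y = h ∨ y = h') → ¬ Near vtx σ g (vtx y) (vtx x) :=
    fun x y hx hy h => hfar x y hx hy (Near.symm hσ g h)
  have e1 : swMap σ f f' h h' f = h := by simp [swMap]
  have e2 : swMap σ f f' h h' h = f := by simp [swMap, a1]
  have e3 : swMap σ f f' h h' f' = h' := by simp [swMap, hne.symm, a2.symm]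
  have e4 : swMap σ f f' h h' h' = f' := by simp [swMap, a3, a4, hhne.symm]
  set N : Fl → Prop := fun x => (x = f ∨ x = f') ∨ (x = h ∨ x = h') with hN
  have hold : ∀ x, ¬ N x → swMap σ f f' h h' x = σ x := by
    intro x hx
    simp only [hN, not_or] at hx
    simp [swMap, hx.1.1, hx.1.2, hx.2.1, hx.2.2]
  refine noCyc_of_new N hold hg ?_
  intro k hk1 hk2 c hper hNB
  -- no flag in {f, f'}
  have hA : ∀ i, ¬ (c i = f ∨ c i = f') := by
    intro i hi
    obtain ⟨j, hj1, hj2, hj3, hj4⟩ := consecutive hk1 c hper N i (Or.inl hi)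
    have hnear := segment N hold c i j hj1 hNB hj4
    obtain ⟨y, hy, hyi⟩ : ∃ y, (y = h ∨ y = h') ∧ swMap σ f f' h h' (c i) = y := by
      rcases hi with hi | hi
      · exact ⟨h, Or.inl rfl, by rw [hi, e1]⟩
      · exact ⟨h', Or.inr rfl, by rw [hi, e3]⟩
    rw [hyi] at hnear
    rcases hj3 with hj3 | hj3
    · exact hfar' _ y hj3 hy (hnear.mono (by omega))
    · by_cases hyj : c (i + j) = y
      · exact segment_closed hcl N hold c i j hj1 (by
          rcases Nat.lt_or_ge j k with h5 | h5
          · omega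
          · have : j = k := by omega
            subst this; omega) hNB hj4 (by rw [hyj, hyi])
      · -- the other end of the removed edge
        have hy' : σ (c (i + j)) = y := by
          rcases hj3 with h5 | h5 <;> rcases hy with h6 | h6
          · exact absurd (by rw [h5, h6]) hyj
          · rw [h5, h6, hh]
          · rw [h5, h6, hh']
          · exact absurd (by rw [h5, h6]) hyj
        have hjk : j < k := by
          rcases Nat.lt_or_ge j k with h5 | h5
          · exact h5
          · exfalso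
            have : j = k := by omega
            subst this
            rw [hper] at hj3
            rcases hi with h5 | h5 <;> rcases hj3 with h6 | h6
            · exact a1 (by rw [← h6, h5])
            · exact a3 (by rw [← h6, h5])
            · exact a2 (by rw [← h6, h5])
            · exact a4 (by rw [← h6, h5])
        refine hcl (j - 1) (by omega) (fun l => c (i + 1 + l)) ?_ ?_ ?_
        · intro l hl
          have h3 := hNB (i + 1 + l)
          have h4 := hj4 (1 + l) (by omega) (by omega)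
          rw [← add_assoc] at h4
          unfold NB at h3 ⊢
          rw [hold _ h4] at h3
          exact h3
        · rw [show i + 1 + (j - 1) = i + j by omega, hy']
          exact fun e => hyj e.symm
        · rw [show i + 1 + (j - 1) = i + j by omega, hy', add_zero, (hNB i).2.1, hyi]
  intro i hi
  rcases hi with hi | hi
  · exact hA i hi
  · obtain ⟨j, hj1, hj2, hj3, hj4⟩ := consecutive hk1 c hper N i (Or.inr hi)
    have hnear := segment N hold c i j hj1 hNB hj4
    obtain ⟨y, hy, hyi⟩ : ∃ y, (y = f ∨ y = f') ∧ swMap σ f f' h h' (c i) = y := by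
      rcases hi with hi | hi
      · exact ⟨f, Or.inl rfl, by rw [hi, e2]⟩
      · exact ⟨f', Or.inr rfl, by rw [hi, e4]⟩
    rw [hyi] at hnear
    rcases hj3 with hj3 | hj3
    · exact hA _ hj3
    · exact hfar y _ hy hj3 (hnear.mono (by omega))

end Switch

section Count

variable {V Fl : Type*} [Fintype Fl] [DecidableEq V] (vtx : Fl → V)

/-- vertices near `a` -/
def nb (σ : Fl → Fl) (a : V) : ℕ → Finset V
  | 0 => {a}
  | m + 1 => nb σ a m ∪ (univ.filter fun x => vtx x ∈ nb σ a m).image fun x => vtx (σ x)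

theorem mem_nb (σ : Fl → Fl) (a b : V) (m : ℕ) : b ∈ nb vtx σ a m ↔ Near vtx σ m a b := by
  induction m generalizing b with
  | zero => simp [nb, Near, eq_comm]
  | succ m ih =>
    rw [nb, Near, mem_union, ih, mem_image]
    refine or_congr Iff.rfl ⟨?_, ?_⟩
    · rintro ⟨x, hx, rfl⟩
      rw [mem_filter, ih] at hx
      exact ⟨x, hx.2, rfl⟩
    · rintro ⟨x, hx, rfl⟩
      exact ⟨x, by rw [mem_filter, ih]; exact ⟨mem_univ _, hx⟩, rfl⟩

theorem card_flags_le (Δ : ℕ) (hΔ : ∀ v, (univ.filter fun x => vtx x = v).card ≤ Δ) (T : Finset V) :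
    (univ.filter fun x => vtx x ∈ T).card ≤ Δ * T.card := by
  rw [card_eq_sum_card_fiberwise (f := vtx) (t := T) (fun x hx => by simpa using hx)]
  refine (sum_le_sum (g := fun _ => Δ) fun v hv => ?_).trans (by simp [mul_comm])
  refine (card_le_card ?_).trans (hΔ v)
  intro x hx
  rw [mem_filter] at hx ⊢
  exact ⟨mem_univ _, hx.2⟩

theorem card_nb_le (Δ : ℕ) (hΔ : ∀ v, (univ.filter fun x => vtx x = v).card ≤ Δ) (σ : Fl → Fl) (a : V)
    (m : ℕ) : (nb vtx σ a m).card ≤ (Δ + 1) ^ m := by
  induction m with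
  | zero => simp [nb]
  | succ m ih =>
    rw [nb]
    refine (card_union_le _ _).trans ?_
    have h1 := (card_image_le (s := univ.filter fun x => vtx x ∈ nb vtx σ a m)
      (f := fun x => vtx (σ x))).trans (card_flags_le vtx Δ hΔ (nb vtx σ a m))
    calc (nb vtx σ a m).card + _ ≤ (nb vtx σ a m).card + Δ * (nb vtx σ a m).card := Nat.add_le_add_left h1 _
      _ = (Δ + 1) * (nb vtx σ a m).card := by ring
      _ ≤ (Δ + 1) * (Δ + 1) ^ m := Nat.mul_le_mul_left _ ih
      _ = _ := by ring

open Classical in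
theorem card_near_le (Δ : ℕ) (hΔ : ∀ v, (univ.filter fun x => vtx x = v).card ≤ Δ) (σ : Fl → Fl) (a : V)
    (m : ℕ) : (univ.filter fun x => Near vtx σ m a (vtx x)).card ≤ Δ * (Δ + 1) ^ m := by
  have h1 : (univ.filter fun x => Near vtx σ m a (vtx x)) = univ.filter fun x => vtx x ∈ nb vtx σ a m := by
    ext x
    simp [mem_nb]
  rw [h1]
  exact (card_flags_le vtx Δ hΔ _).trans (Nat.mul_le_mul_left _ (card_nb_le vtx Δ hΔ σ a m))

end Count

section Main

variable {V Fl Γ S : Type*} [Fintype Fl] [DecidableEq Fl] [DecidableEq V] [DecidableEq Γ] [DecidableEq S]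

/-- `σ` is an admissible partial solution -/
structure Adm (vtx : Fl → V) (g : ℕ) (σ0 : Fl → Fl) (U : Finset Fl) (grp : Fl → Γ) (col : Fl → Fin 3)
    (s : Fl → S) (σ : Fl → Fl) : Prop where
  inv : Function.Involutive σ
  off : ∀ x, x ∉ U → σ x = σ0 x
  maps : ∀ x ∈ U, σ x ∈ U
  comp : ∀ x ∈ U, σ x ≠ x → grp (σ x) = grp x ∧ col (σ x) ≠ col x ∧ s (σ x) ≠ s x
  noCyc : NoCyc vtx σ g

variable {vtx : Fl → V} {g : ℕ} {σ0 : Fl → Fl} {U : Finset Fl} {grp : Fl → Γ} {col : Fl → Fin 3}
    {s : Fl → S} {σ : Fl → Fl}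

theorem Adm.join (h : Adm vtx g σ0 U grp col s σ) {f f' : Fl} (hf : σ f = f) (hf' : σ f' = f') (hne : f ≠ f')
    (hfU : f ∈ U) (hfU' : f' ∈ U) (h1 : grp f = grp f') (h2 : col f ≠ col f') (h3 : s f ≠ s f')
    (hfar : ¬ Near vtx σ g (vtx f) (vtx f')) : Adm vtx g σ0 U grp col s (joinMap σ f f') where
  inv := joinMap_invol h.inv hf hf' hne
  off := by
    intro x hx
    have e1 : x ≠ f := fun e => hx (e ▸ hfU)
    have e2 : x ≠ f' := fun e => hx (e ▸ hfU')
    simp [joinMap, e1, e2, h.off x hx]
  maps := by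
    intro x hx
    unfold joinMap
    split_ifs
    · exact hfU'
    · exact hfU
    · exact h.maps x hx
  comp := by
    intro x hx
    unfold joinMap
    split_ifs with e1 e2
    · subst e1; intro _; exact ⟨h1.symm, h2.symm, h3.symm⟩
    · subst e2; intro _; exact ⟨h1, h2, h3⟩
    · exact h.comp x hx
  noCyc := noCyc_join h.inv h.noCyc hne hfar

theorem Adm.switch (H : Adm vtx g σ0 U grp col s σ) {f f' h : Fl} (hf : σ f = f) (hf' : σ f' = f')
    (hne : f ≠ f') (hfU : f ∈ U) (hfU' : f' ∈ U) (hhU : h ∈ U) (hh : σ h ≠ h)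
    (h1 : grp h = grp f) (h2 : col h ≠ col f) (h3 : s h ≠ s f)
    (h1' : grp f' = grp f) (h2' : col (σ h) ≠ col f') (h3' : s (σ h) ≠ s f')
    (hfar : ∀ x y, (x = f ∨ x = f') → (y = h ∨ y = σ h) → ¬ Near vtx σ g (vtx x) (vtx y)) :
    Adm vtx g σ0 U grp col s (swMap σ f f' h (σ h)) where
  inv := swMap_invol H.inv hf hf' hne rfl hh.symm
  off := by
    intro x hx
    have e1 : x ≠ f := fun e => hx (e ▸ hfU)
    have e2 : x ≠ f' := fun e => hx (e ▸ hfU')
    have e3 : x ≠ h := fun e => hx (e ▸ hhU)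
    have e4 : x ≠ σ h := fun e => hx (e ▸ H.maps h hhU)
    simp [swMap, e1, e2, e3, e4, H.off x hx]
  maps := by
    intro x hx
    unfold swMap
    split_ifs
    · exact hhU
    · exact hfU
    · exact H.maps h hhU
    · exact hfU'
    · exact H.maps x hx
  comp := by
    intro x hx
    have hg := (H.comp h hhU hh).1
    unfold swMap
    split_ifs with e1 e2 e3 e4
    · subst e1; intro _; exact ⟨h1, h2, h3⟩
    · subst e2; intro _; exact ⟨h1.symm, h2.symm, h3.symm⟩
    · subst e3; intro _; exact ⟨by rw [hg, h1, h1'], h2', h3'⟩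
    · subst e4; intro _; exact ⟨by rw [hg, h1, h1'], h2'.symm, h3'.symm⟩
    · exact H.comp x hx
  noCyc := noCyc_switch H.inv H.noCyc hf hf' hne rfl hh.symm hfar

theorem even_matched (H : Adm vtx g σ0 U grp col s σ) (γ : Γ) :
    Even (U.filter fun x => grp x = γ ∧ σ x ≠ x).card := by
  have h1 : ∑ x ∈ U.filter (fun x => grp x = γ ∧ σ x ≠ x), (1 : ZMod 2) = 0 := by
    refine sum_involution (fun x _ => σ x) ?_ ?_ ?_ ?_
    · intro x hx; decide
    · intro x hx _
      exact (mem_filter.1 hx).2.2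
    · intro x hx
      obtain ⟨hxU, hx1, hx2⟩ := mem_filter.1 hx
      rw [mem_filter]
      exact ⟨H.maps x hxU, by rw [(H.comp x hxU hx2).1, hx1], by rw [H.inv]; exact hx2.symm⟩
    · intro x hx; exact H.inv x
  rw [sum_const, nsmul_eq_mul, mul_one] at h1
  exact (ZMod.natCast_eq_zero_iff_even).1 h1

theorem card_image_invol {σ : Fl → Fl} (hσ : Function.Involutive σ) (p : Fl → Prop) [DecidablePred p]
    (T : Finset Fl) (hT : ∀ x ∈ T, p (σ x)) (q : Finset Fl) (hq : ∀ x ∈ T, σ x ∈ q) :
    T.card ≤ (q.filter p).card := by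
  refine card_le_card_of_injOn σ (fun x hx => ?_) hσ.injective.injOn
  rw [mem_coe, mem_filter]
  exact ⟨hq x hx, hT x hx⟩

/-- **Erdős–Sachs matching.** -/
theorem erdos_sachs (vtx : Fl → V) (g Δ : ℕ) (hΔ : ∀ v, (univ.filter fun x => vtx x = v).card ≤ Δ)
    (σ0 : Fl → Fl) (h0 : Function.Involutive σ0) (hg0 : NoCyc vtx σ0 g) (U : Finset Fl)
    (hU : ∀ x ∈ U, σ0 x = x) (grp : Fl → Γ) (col : Fl → Fin 3) (s : Fl → S)
    (heven : ∀ γ, Even (U.filter fun x => grp x = γ).card)
    (hs : ∀ x ∈ U, (U.filter fun y => grp y = grp x ∧ s y = s x).card ≤ 3)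
    (hcol : ∀ x ∈ U, ∀ a, (U.filter fun y => grp y = grp x ∧ col y = a).card +
      (10 * (Δ * (Δ + 1) ^ g) + 20) ≤ (U.filter fun y => grp y = grp x ∧ col y ≠ a).card) :
    ∃ σ : Fl → Fl, Function.Involutive σ ∧ (∀ x, x ∉ U → σ x = σ0 x) ∧
      (∀ x ∈ U, σ x ≠ x ∧ σ x ∈ U ∧ grp (σ x) = grp x ∧ col (σ x) ≠ col x ∧ s (σ x) ≠ s x) ∧
      NoCyc vtx σ g := by
  classical
  set R := Δ * (Δ + 1) ^ g with hR
  -- a solution with the fewest unmatched flags
  obtain ⟨σ, hσ, hmin⟩ := exists_min_image (univ.filter fun σ : Fl → Fl => Adm vtx g σ0 U grp col s σ)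
    (fun σ => (U.filter fun x => σ x = x).card) ⟨σ0, by
      rw [mem_filter]
      exact ⟨mem_univ _, h0, fun _ _ => rfl, fun x hx => by rw [hU x hx]; exact hx,
        fun x hx h => absurd (hU x hx) h, hg0⟩⟩
  have H : Adm vtx g σ0 U grp col s σ := (mem_filter.1 hσ).2
  have hmin' : ∀ σ', Adm vtx g σ0 U grp col s σ' →
      (U.filter fun x => σ x = x).card ≤ (U.filter fun x => σ' x = x).card := fun σ' h =>
    hmin σ' (by rw [mem_filter]; exact ⟨mem_univ _, h⟩)
  suffices hall : ∀ x ∈ U, σ x ≠ x by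
    refine ⟨σ, H.inv, H.off, fun x hx => ?_, H.noCyc⟩
    have h1 := H.comp x hx (hall x hx)
    exact ⟨hall x hx, H.maps x hx, h1.1, h1.2.1, h1.2.2⟩
  intro f hfU hf
  -- another unmatched flag in the same group
  obtain ⟨f', hf'U, hf'g, hf', hne⟩ : ∃ f', f' ∈ U ∧ grp f' = grp f ∧ σ f' = f' ∧ f ≠ f' := by
    by_contra hcon
    push Not at hcon
    have h1 : (U.filter fun x => grp x = grp f ∧ σ x = x) = {f} := by
      ext x
      rw [mem_filter, mem_singleton]
      refine ⟨fun h => ?_, fun h => by rw [h]; exact ⟨hfU, rfl, hf⟩⟩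
      exact (hcon x h.1 h.2.1 h.2.2).symm
    have h2 := even_matched H (grp f)
    have h3 : (U.filter fun x => grp x = grp f).card =
        (U.filter fun x => grp x = grp f ∧ σ x = x).card + (U.filter fun x => grp x = grp f ∧ σ x ≠ x).card := by
      rw [← filter_filter, ← filter_filter, card_filter_add_card_filter_not]
    have h4 := heven (grp f)
    rw [h3, h1, card_singleton] at h4
    rw [Nat.even_add] at h4
    exact absurd (h4.2 h2) (by decide)
  -- direct matching is impossible
  have hdirect : ∀ x y, x ∈ U → y ∈ U → grp x = grp f → grp y = grp f → σ x = x → σ y = y → x ≠ y →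
      col x ≠ col y → s x ≠ s y → Near vtx σ g (vtx x) (vtx y) := by
    intro x y hx hy h1 h2 h3 h4 h5 h6 h7
    by_contra hfar
    have h8 := hmin' _ (H.join h3 h4 h5 hx hy (h1.trans h2.symm) h6 h7 hfar)
    have h9 : (U.filter fun z => joinMap σ x y z = z) ⊆ (U.filter fun z => σ z = z).erase x := by
      intro z hz
      rw [mem_filter] at hz
      rw [mem_erase, mem_filter]
      have hzx : z ≠ x := by
        intro e
        have := hz.2
        rw [e] at this
        simp [joinMap] at this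
        exact h5 this.symm
      have hzy : z ≠ y := by
        intro e
        have := hz.2
        rw [e] at this
        simp [joinMap, h5.symm] at this
        exact h5 this
      refine ⟨hzx, hz.1, ?_⟩
      have := hz.2
      simpa [joinMap, hzx, hzy] using this
    have h10 := card_le_card h9
    have h11 : x ∈ U.filter fun z => σ z = z := by rw [mem_filter]; exact ⟨hx, h3⟩
    rw [card_erase_of_mem h11] at h10
    have h12 : 0 < (U.filter fun z => σ z = z).card := card_pos.2 ⟨x, h11⟩
    omega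
  -- few unmatched flags of another colour
  have hfew : ∀ x ∈ U, grp x = grp f → σ x = x →
      (U.filter fun y => (grp y = grp f ∧ σ y = y) ∧ col y ≠ col x).card ≤ 3 + R := by
    intro x hx h1 h2
    have h3 : (U.filter fun y => (grp y = grp f ∧ σ y = y) ∧ col y ≠ col x) ⊆
        (U.filter fun y => grp y = grp x ∧ s y = s x) ∪ univ.filter fun y => Near vtx σ g (vtx x) (vtx y) := by
      intro y hy
      rw [mem_filter] at hy
      rw [mem_union, mem_filter, mem_filter]
      by_cases h4 : s y = s x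
      · exact Or.inl ⟨hy.1, by rw [hy.2.1.1, h1], h4⟩
      · refine Or.inr ⟨mem_univ _, ?_⟩
        exact hdirect x y hx hy.1 h1 hy.2.1.1 h2 hy.2.1.2 (fun e => hy.2.2 (by rw [e])) (fun e => hy.2.2 e.symm)
          (fun e => h4 e.symm)
    refine (card_le_card h3).trans ((card_union_le _ _).trans ?_)
    exact Nat.add_le_add (hs x hx) (card_near_le vtx Δ hΔ σ (vtx x) g)
  -- good candidates
  set Gd : Finset Fl := U.filter fun h => (grp h = grp f ∧ σ h ≠ h) ∧ (col h ≠ col f ∧ col (σ h) ≠ col f') with hGd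
  have hbadcard : Gd.card ≤ 6 + 4 * R := by
    by_contra hlarge
    push Not at hlarge
    -- pick a good candidate avoiding everything
    obtain ⟨h, hh, hnb⟩ : ∃ h ∈ Gd, h ∉ (U.filter fun y => grp y = grp f ∧ s y = s f) ∪
        ((U.filter fun y => grp y = grp f' ∧ s y = s f').image σ) ∪
        ((univ.filter fun y => Near vtx σ g (vtx f) (vtx y)) ∪ (univ.filter fun y => Near vtx σ g (vtx f') (vtx y))) ∪
        ((univ.filter fun y => Near vtx σ g (vtx f) (vtx y)).image σ ∪
          (univ.filter fun y => Near vtx σ g (vtx f') (vtx y)).image σ) := by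
      apply exists_mem_notMem_of_card_lt_card
      have c1 := hs f hfU
      have c2 := (card_image_le (s := U.filter fun y => grp y = grp f' ∧ s y = s f') (f := σ)).trans (hs f' hf'U)
      have c3 := card_near_le vtx Δ hΔ σ (vtx f) g
      have c4 := card_near_le vtx Δ hΔ σ (vtx f') g
      have c5 := (card_image_le (s := univ.filter fun y => Near vtx σ g (vtx f) (vtx y)) (f := σ)).trans c3
      have c6 := (card_image_le (s := univ.filter fun y => Near vtx σ g (vtx f') (vtx y)) (f := σ)).trans c4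
      refine lt_of_le_of_lt ((card_union_le _ _).trans (Nat.add_le_add ((card_union_le _ _).trans
        (Nat.add_le_add ((card_union_le _ _).trans (Nat.add_le_add c1 c2))
          ((card_union_le _ _).trans (Nat.add_le_add c3 c4))))
        ((card_union_le _ _).trans (Nat.add_le_add c5 c6)))) ?_
      omega
    obtain ⟨hhU, ⟨hhg, hhm⟩, hc1, hc2⟩ := mem_filter.1 hh
    simp only [mem_union, not_or] at hnb
    obtain ⟨⟨⟨hb1, hb2⟩, hb3, hb4⟩, hb5, hb6⟩ := hnb
    have hs1 : s h ≠ s f := fun e => hb1 (by rw [mem_filter]; exact ⟨hhU, hhg, e⟩)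
    have hs2 : s (σ h) ≠ s f' := fun e => hb2 (by
      rw [mem_image]
      refine ⟨σ h, ?_, H.inv h⟩
      rw [mem_filter]
      exact ⟨H.maps h hhU, by rw [(H.comp h hhU hhm).1, hhg, hf'g], e⟩)
    have hn1 : ¬ Near vtx σ g (vtx f) (vtx h) := fun e => hb3 (by rw [mem_filter]; exact ⟨mem_univ _, e⟩)
    have hn2 : ¬ Near vtx σ g (vtx f') (vtx h) := fun e => hb4 (by rw [mem_filter]; exact ⟨mem_univ _, e⟩)
    have hn3 : ¬ Near vtx σ g (vtx f) (vtx (σ h)) := fun e => hb5 (by
      rw [mem_image]
      exact ⟨σ h, by rw [mem_filter]; exact ⟨mem_univ _, e⟩, H.inv h⟩)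
    have hn4 : ¬ Near vtx σ g (vtx f') (vtx (σ h)) := fun e => hb6 (by
      rw [mem_image]
      exact ⟨σ h, by rw [mem_filter]; exact ⟨mem_univ _, e⟩, H.inv h⟩)
    have hsw := hmin' _ (H.switch hf hf' hne hfU hf'U hhU hhm hhg hc1 hs1 hf'g hc2 hs2 (by
      rintro x y (rfl | rfl) (rfl | rfl)
      · exact hn1
      · exact hn3
      · exact hn2
      · exact hn4))
    have hhf : h ≠ f := fun e => hhm (by rw [e, hf])
    have hhf' : h ≠ f' := fun e => hhm (by rw [e, hf'])
    have h9 : (U.filter fun z => swMap σ f f' h (σ h) z = z) ⊆ (U.filter fun z => σ z = z).erase f := by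
      intro z hz
      rw [mem_filter] at hz
      obtain ⟨hzU, hz⟩ := hz
      rw [mem_erase, mem_filter]
      unfold swMap at hz
      split_ifs at hz with e1 e2 e3 e4
      · exact absurd (hz.trans e1) hhf
      · exact absurd (hz.trans e2).symm hhf
      · exfalso
        have h5 : σ h = f' := hz.trans e3
        apply hhf'
        rw [← H.inv h, h5, hf']
      · exfalso
        have h5 : f' = σ h := hz.trans e4
        apply hhf'
        rw [← H.inv h, ← h5, hf']
      · exact ⟨e1, hzU, hz⟩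
    have h10 := card_le_card h9
    have h11 : f ∈ U.filter fun z => σ z = z := by rw [mem_filter]; exact ⟨hfU, hf⟩
    rw [card_erase_of_mem h11] at h10
    have h12 : 0 < (U.filter fun z => σ z = z).card := card_pos.2 ⟨f, h11⟩
    omega
  -- lower bound for Gd
  by_cases hcc : col f = col f'
  · -- same colour
    have k1 := hcol f hfU (col f)
    -- colour ≠ a : matched or unmatched
    have k2 : (U.filter fun y => grp y = grp f ∧ col y ≠ col f).card ≤
        (U.filter fun y => (grp y = grp f ∧ σ y = y) ∧ col y ≠ col f).card +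
        (Gd.card + (U.filter fun y => (grp y = grp f ∧ σ y ≠ y) ∧ (col y ≠ col f ∧ col (σ y) = col f)).card) := by
      have : (U.filter fun y => grp y = grp f ∧ col y ≠ col f) ⊆
        (U.filter fun y => (grp y = grp f ∧ σ y = y) ∧ col y ≠ col f) ∪
        (Gd ∪ (U.filter fun y => (grp y = grp f ∧ σ y ≠ y) ∧ (col y ≠ col f ∧ col (σ y) = col f))) := by
        intro y hy
        rw [mem_filter] at hy
        rw [mem_union, mem_union, mem_filter, hGd, mem_filter, mem_filter, ← hcc]
        by_cases e1 : σ y = y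
        · exact Or.inl ⟨hy.1, ⟨hy.2.1, e1⟩, hy.2.2⟩
        · by_cases e2 : col (σ y) = col f
          · exact Or.inr (Or.inr ⟨hy.1, ⟨hy.2.1, e1⟩, hy.2.2, e2⟩)
          · exact Or.inr (Or.inl ⟨hy.1, ⟨hy.2.1, e1⟩, hy.2.2, e2⟩)
      exact (card_le_card this).trans ((card_union_le _ _).trans (Nat.add_le_add_left (card_union_le _ _) _))
    have k3 : (U.filter fun y => (grp y = grp f ∧ σ y ≠ y) ∧ (col y ≠ col f ∧ col (σ y) = col f)).card ≤
        (U.filter fun y => grp y = grp f ∧ col y = col f).card := by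
      refine card_image_invol H.inv _ _ (fun x hx => ?_) _ (fun x hx => ?_)
      · obtain ⟨hxU, ⟨hx1, hx2⟩, hx3, hx4⟩ := mem_filter.1 hx
        exact ⟨by rw [(H.comp x hxU hx2).1, hx1], hx4⟩
      · exact H.maps x (mem_filter.1 hx).1
    have k4 := hfew f hfU rfl hf
    omega
  · -- different colours
    have k1 := hcol f hfU (col f)
    have k2 : (U.filter fun y => grp y = grp f ∧ col y ≠ col f).card ≤ (U.filter fun y => grp y = grp f).card :=
      card_le_card fun y hy => by
        rw [mem_filter] at hy ⊢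
        exact ⟨hy.1, hy.2.1⟩
    have k3 : (U.filter fun x => grp x = grp f).card =
        (U.filter fun x => grp x = grp f ∧ σ x = x).card + (U.filter fun x => grp x = grp f ∧ σ x ≠ x).card := by
      rw [← filter_filter, ← filter_filter, card_filter_add_card_filter_not]
    have k4 : (U.filter fun x => grp x = grp f ∧ σ x = x).card ≤ (3 + R) + (3 + R) := by
      have : (U.filter fun x => grp x = grp f ∧ σ x = x) ⊆
          (U.filter fun y => (grp y = grp f ∧ σ y = y) ∧ col y ≠ col f) ∪
          (U.filter fun y => (grp y = grp f ∧ σ y = y) ∧ col y ≠ col f') := by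
        intro y hy
        rw [mem_filter] at hy
        rw [mem_union, mem_filter, mem_filter]
        by_cases e : col y = col f
        · exact Or.inr ⟨hy.1, hy.2, fun e' => hcc (e.symm.trans e')⟩
        · exact Or.inl ⟨hy.1, hy.2, e⟩
      exact (card_le_card this).trans ((card_union_le _ _).trans
        (Nat.add_le_add (hfew f hfU rfl hf) (hfew f' hf'U hf'g hf')))
    have k5 : (U.filter fun x => grp x = grp f ∧ σ x ≠ x).card ≤ Gd.card + Gd.card := by
      have : (U.filter fun x => grp x = grp f ∧ σ x ≠ x) ⊆ Gd ∪ Gd.image σ := by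
        intro y hy
        rw [mem_filter] at hy
        obtain ⟨hyU, hyg, hym⟩ := hy
        have hcy := H.comp y hyU hym
        rw [mem_union, mem_image]
        by_cases e : col y ≠ col f ∧ col (σ y) ≠ col f'
        · exact Or.inl (by rw [hGd, mem_filter]; exact ⟨hyU, ⟨hyg, hym⟩, e⟩)
        · refine Or.inr ⟨σ y, ?_, H.inv y⟩
          rw [hGd, mem_filter, H.inv y]
          refine ⟨H.maps y hyU, ⟨by rw [hcy.1, hyg], hym.symm⟩, ?_, ?_⟩
          · intro e2
            apply e
            refine ⟨fun e3 => hcy.2.1 (e2.trans e3.symm), fun e3 => hcc (e2.symm.trans e3)⟩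
          · intro e2
            apply e
            refine ⟨fun e3 => hcc (e3.symm.trans e2), fun e3 => hcy.2.1 (e3.trans e2.symm)⟩
      exact (card_le_card this).trans ((card_union_le _ _).trans (Nat.add_le_add_left card_image_le _))
    omega

end Main

end Crest.Agent.R199
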