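import Crest.Agent.R199.Chase

/-!
# Row 199, Part V (middle): the cellular chain complex of a presentation

`ψ : S → G` images of the generators.  Chains: `G →₀ (S →₀ ℤ)` (edges `(g, s) : g → g * ψ s`),
`G →₀ ℤ` (vertices).
-/

set_option autoImplicit false
set_option linter.unusedSectionVars false

namespace Crest.Agent.R199.Fox

open Finset Crest.Agent.R199.Chase

variable {S G : Type*} [Group G] (ψ : S → G)

/-- The image of a letter. -/
def lv (x : S × Bool) : G := cond x.2 (ψ x.1) (ψ x.1)⁻¹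

/-- The value of a word. -/
def wv (w : List (S × Bool)) : G := (w.map (lv ψ)).prod

theorem wv_nil : wv ψ [] = 1 := rfl

theorem wv_cons (x : S × Bool) (w : List (S × Bool)) : wv ψ (x :: w) = lv ψ x * wv ψ w := by
  simp [wv]

theorem wv_append (u w : List (S × Bool)) : wv ψ (u ++ w) = wv ψ u * wv ψ w := by
  simp [wv]

theorem wv_eq_lift (w : List (S × Bool)) : wv ψ w = FreeGroup.lift ψ (FreeGroup.mk w) := by
  rw [FreeGroup.lift_mk]
  rfl

/-- The elementary edge `(g, s)` as a chain. -/
noncomputable def edge (g : G) (s : S) : G →₀ (S →₀ ℤ) :=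
  Finsupp.single g (Finsupp.single s 1)

/-- The chain of one letter read from `g`. -/
noncomputable def lc (g : G) (x : S × Bool) : G →₀ (S →₀ ℤ) :=
  cond x.2 (edge g x.1) (- edge (g * (ψ x.1)⁻¹) x.1)

/-- The chain of a word read from `g`. -/
noncomputable def pc : G → List (S × Bool) → (G →₀ (S →₀ ℤ))
  | _, [] => 0
  | g, x :: w => lc ψ g x + pc (g * lv ψ x) w

theorem pc_append (g : G) (u w : List (S × Bool)) :
    pc ψ g (u ++ w) = pc ψ g u + pc ψ (g * wv ψ u) w := by
  induction u generalizing g with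
  | nil => simp [pc, wv_nil]
  | cons x u ih =>
    rw [List.cons_append, pc, pc, ih, wv_cons, mul_assoc, add_assoc]

/-- Translation of chains. -/
theorem gact_edge (h g : G) (s : S) :
    gact (S →₀ ℤ) h (edge g s) = edge (h * g) s := by
  rw [edge, gact_single]
  rfl

theorem gact_lc (h g : G) (x : S × Bool) :
    gact (S →₀ ℤ) h (lc ψ g x) = lc ψ (h * g) x := by
  obtain ⟨s, b⟩ := x
  cases b with
  | true => exact gact_edge h g s
  | false =>
    show gact (S →₀ ℤ) h (- edge (g * (ψ s)⁻¹) s) = - edge (h * g * (ψ s)⁻¹) s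
    rw [map_neg, gact_edge, mul_assoc]

theorem gact_pc (h g : G) (w : List (S × Bool)) :
    gact (S →₀ ℤ) h (pc ψ g w) = pc ψ (h * g) w := by
  induction w generalizing g with
  | nil => simp [pc]
  | cons x w ih => rw [pc, pc, map_add, gact_lc, ih, mul_assoc]

theorem lc_inv (g : G) (s : S) (b : Bool) :
    lc ψ g (s, b) + lc ψ (g * lv ψ (s, b)) (s, !b) = 0 := by
  cases b with
  | true =>
    show edge g s + - edge (g * ψ s * (ψ s)⁻¹) s = 0
    rw [mul_inv_cancel_right, add_neg_cancel]
  | false =>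
    show - edge (g * (ψ s)⁻¹) s + edge (g * (ψ s)⁻¹) s = 0
    rw [neg_add_cancel]

theorem lv_inv (s : S) (b : Bool) : lv ψ (s, b) * lv ψ (s, !b) = 1 := by
  cases b <;> simp [lv]

/-- The chain of a word depends only on its class in the free group. -/
theorem pc_red {u w : List (S × Bool)} (h : FreeGroup.Red.Step u w) (g : G) :
    pc ψ g u = pc ψ g w := by
  cases h with
  | @not L₁ L₂ s b =>
    rw [pc_append, pc_append]
    congr 1
    rw [pc, pc, ← add_assoc, lc_inv, zero_add, mul_assoc, lv_inv, mul_one]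

/-- The chain of a free group element. -/
noncomputable def fc (g : G) (w : FreeGroup S) : G →₀ (S →₀ ℤ) :=
  Quot.lift (pc ψ g) (fun _ _ h => pc_red ψ h g) w

theorem fc_mk (g : G) (w : List (S × Bool)) : fc ψ g (FreeGroup.mk w) = pc ψ g w := rfl

theorem fc_mul (g : G) (u w : FreeGroup S) :
    fc ψ g (u * w) = fc ψ g u + fc ψ (g * FreeGroup.lift ψ u) w := by
  induction u using Quot.inductionOn with
  | h u =>
    induction w using Quot.inductionOn with
    | h w =>
      show pc ψ g (u ++ w) = pc ψ g u + pc ψ (g * FreeGroup.lift ψ (FreeGroup.mk u)) w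
      rw [pc_append, wv_eq_lift]

theorem fc_one (g : G) : fc ψ g 1 = 0 := rfl

theorem fc_inv (g : G) (u : FreeGroup S) :
    fc ψ g u⁻¹ = - fc ψ (g * (FreeGroup.lift ψ u)⁻¹) u := by
  have h := fc_mul ψ g u⁻¹ u
  rw [inv_mul_cancel, fc_one, map_inv] at h
  exact eq_neg_of_add_eq_zero_left h.symm

theorem gact_fc (h g : G) (w : FreeGroup S) :
    gact (S →₀ ℤ) h (fc ψ g w) = fc ψ (h * g) w := by
  induction w using Quot.inductionOn with
  | h w => exact gact_pc ψ h g w

/-- The boundary on the coefficients at `g`. -/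
noncomputable def bdAt (g : G) : (S →₀ ℤ) →+ (G →₀ ℤ) :=
  Finsupp.liftAddHom (fun s => (Finsupp.singleAddHom (g * ψ s) : ℤ →+ (G →₀ ℤ)) -
    Finsupp.singleAddHom g)

/-- The boundary operator. -/
noncomputable def d1 : (G →₀ (S →₀ ℤ)) →+ (G →₀ ℤ) :=
  Finsupp.liftAddHom (bdAt ψ)

/-- The augmentation. -/
noncomputable def aug : (G →₀ ℤ) →+ ℤ := Finsupp.liftAddHom (fun _ => AddMonoidHom.id ℤ)

theorem aug_single (g : G) (n : ℤ) : aug (Finsupp.single g n) = n := by
  simp [aug]

theorem d1_edge (g : G) (s : S) :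
    d1 ψ (edge g s) = Finsupp.single (g * ψ s) 1 - Finsupp.single g 1 := by
  simp [d1, edge, bdAt]

theorem d1_single (g : G) (s : S) (n : ℤ) :
    d1 ψ (Finsupp.single g (Finsupp.single s n)) =
      Finsupp.single (g * ψ s) n - Finsupp.single g n := by
  simp [d1, bdAt]

theorem aug_gact (h : G) (a : G →₀ ℤ) : aug (gact ℤ h a) = aug a := by
  induction a using Finsupp.induction_linear with
  | zero => simp
  | add f g hf hg => rw [map_add, map_add, hf, hg, map_add]
  | single g n => rw [gact_single, aug_single, aug_single]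

theorem d1_gact (h : G) (a : G →₀ (S →₀ ℤ)) :
    d1 ψ (gact (S →₀ ℤ) h a) = gact ℤ h (d1 ψ a) := by
  induction a using Finsupp.induction_linear with
  | zero => simp
  | add f g hf hg => rw [map_add, map_add, hf, hg, map_add, map_add]
  | single g m =>
    induction m using Finsupp.induction_linear with
    | zero => simp
    | add f g hf hg => rw [Finsupp.single_add, map_add, map_add, hf, hg, map_add, map_add]
    | single s n =>
      rw [gact_single, d1_single, d1_single, map_sub, gact_single, gact_single, smul_eq_mul,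
        smul_eq_mul, mul_assoc]

theorem aug_d1 (a : G →₀ (S →₀ ℤ)) : aug (d1 ψ a) = 0 := by
  have : aug.comp (d1 ψ) = 0 := by
    ext g s : 2
    ext
    simp only [AddMonoidHom.comp_apply, Finsupp.singleAddHom_apply]
    rw [d1_single, map_sub, aug_single, aug_single, sub_self]
    rfl
  exact congrArg (fun f => f a) this

/-- Boundary of the chain of a word. -/
theorem d1_pc (g : G) (w : List (S × Bool)) :
    d1 ψ (pc ψ g w) = Finsupp.single (g * wv ψ w) 1 - Finsupp.single g 1 := by
  induction w generalizing g with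
  | nil => simp [pc, wv_nil]
  | cons x w ih =>
    obtain ⟨s, b⟩ := x
    rw [pc, map_add, ih, wv_cons, ← mul_assoc]
    cases b with
    | true =>
      show d1 ψ (edge g s) + _ = _
      rw [d1_edge]
      show Finsupp.single (g * ψ s) 1 - Finsupp.single g 1 +
        (Finsupp.single (g * ψ s * wv ψ w) 1 - Finsupp.single (g * ψ s) 1) = _
      show _ = Finsupp.single (g * ψ s * wv ψ w) 1 - Finsupp.single g 1
      abel
    | false =>
      show d1 ψ (- edge (g * (ψ s)⁻¹) s) + _ = _
      rw [map_neg, d1_edge, inv_mul_cancel_right]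
      show -(Finsupp.single g 1 - Finsupp.single (g * (ψ s)⁻¹) 1) +
        (Finsupp.single (g * (ψ s)⁻¹ * wv ψ w) 1 - Finsupp.single (g * (ψ s)⁻¹) 1) = _
      show _ = Finsupp.single (g * (ψ s)⁻¹ * wv ψ w) 1 - Finsupp.single g 1
      abel

theorem d1_fc (g : G) (w : FreeGroup S) :
    d1 ψ (fc ψ g w) = Finsupp.single (g * FreeGroup.lift ψ w) 1 - Finsupp.single g 1 := by
  induction w using Quot.inductionOn with
  | h w =>
    show d1 ψ (pc ψ g w) = Finsupp.single (g * FreeGroup.lift ψ (FreeGroup.mk w)) 1 -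
      Finsupp.single g 1
    rw [d1_pc, wv_eq_lift]

/-- Exactness at the vertices. -/
theorem exact_zero (hsurj : Function.Surjective (FreeGroup.lift ψ)) (a : G →₀ ℤ)
    (ha : aug a = 0) : ∃ b, d1 ψ b = a := by
  classical
  choose σ hσ using hsurj
  let h : (G →₀ ℤ) →+ (G →₀ (S →₀ ℤ)) :=
    Finsupp.liftAddHom (fun g => (AddMonoidHom.flip (AddMonoidHom.smul :
      ℤ →+ (G →₀ (S →₀ ℤ)) →+ (G →₀ (S →₀ ℤ)))) (fc ψ 1 (σ g)))
  have hh : ∀ (g : G) (n : ℤ), h (Finsupp.single g n) = n • fc ψ 1 (σ g) := by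
    intro g n
    simp [h]
  have key : ∀ a : G →₀ ℤ, d1 ψ (h a) = a - Finsupp.single 1 (aug a) := by
    intro a
    have : (d1 ψ).comp h = (AddMonoidHom.id (G →₀ ℤ)) - (Finsupp.singleAddHom 1).comp aug := by
      ext g : 2
      simp only [AddMonoidHom.comp_apply, Finsupp.singleAddHom_apply, AddMonoidHom.sub_apply,
        AddMonoidHom.id_apply]
      rw [hh, one_smul, d1_fc, hσ, one_mul, aug_single]
    have h2 := congrArg (fun f => f a) this
    simpa using h2
  refine ⟨h a, ?_⟩
  rw [key, ha, Finsupp.single_zero, sub_zero]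

/-- The additive subgroup generated by the relator cycles. -/
noncomputable def relSub (R : Set (FreeGroup S)) : AddSubgroup (G →₀ (S →₀ ℤ)) :=
  AddSubgroup.closure {c | ∃ g : G, ∃ r ∈ R, c = fc ψ g r}

theorem fc_mem_relSub (R : Set (FreeGroup S)) (hR : ∀ r ∈ R, FreeGroup.lift ψ r = 1)
    (w : FreeGroup S) (hw : w ∈ Subgroup.normalClosure R) (g : G) :
    fc ψ g w ∈ relSub ψ R := by
  have hle : Subgroup.normalClosure R ≤ (FreeGroup.lift ψ).ker := by
    apply Subgroup.normalClosure_le_normal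
    intro r hr
    exact hR r hr
  let N : Subgroup (FreeGroup S) :=
    { carrier := {w | w ∈ (FreeGroup.lift ψ).ker ∧ ∀ g : G, fc ψ g w ∈ relSub ψ R}
      mul_mem' := by
        rintro u v ⟨hu, hu'⟩ ⟨hv, hv'⟩
        refine ⟨mul_mem hu hv, fun g => ?_⟩
        rw [fc_mul]
        exact add_mem (hu' g) (hv' _)
      one_mem' := ⟨one_mem _, fun g => by rw [fc_one]; exact zero_mem _⟩
      inv_mem' := by
        rintro u ⟨hu, hu'⟩
        refine ⟨inv_mem hu, fun g => ?_⟩
        rw [fc_inv]
        exact neg_mem (hu' _) }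
  have hN : N.Normal := by
    constructor
    rintro n ⟨hn, hn'⟩ v
    refine ⟨(FreeGroup.lift ψ).normal_ker.conj_mem n hn v, fun g => ?_⟩
    rw [fc_mul, fc_mul, fc_inv]
    have h1 : FreeGroup.lift ψ (v * n) = FreeGroup.lift ψ v := by
      rw [map_mul, MonoidHom.mem_ker.1 hn, mul_one]
    rw [h1, mul_inv_cancel_right]
    have : fc ψ g v + fc ψ (g * FreeGroup.lift ψ v) n + -fc ψ g v =
      fc ψ (g * FreeGroup.lift ψ v) n := by abel
    rw [this]
    exact hn' _
  have hRN : Subgroup.normalClosure R ≤ N := by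
    apply Subgroup.normalClosure_le_normal
    intro r hr
    refine ⟨hR r hr, fun g => ?_⟩
    exact AddSubgroup.subset_closure ⟨g, r, hr, rfl⟩
  exact (hRN hw).2 g

/-- **Exactness in the middle**: cycles are generated by the relator cycles. -/
theorem exact_one (R : Set (FreeGroup S)) (hsurj : Function.Surjective (FreeGroup.lift ψ))
    (hker : (FreeGroup.lift ψ).ker = Subgroup.normalClosure R)
    (a : G →₀ (S →₀ ℤ)) (ha : d1 ψ a = 0) : a ∈ relSub ψ R := by
  classical
  have hR : ∀ r ∈ R, FreeGroup.lift ψ r = 1 := by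
    intro r hr
    have : r ∈ (FreeGroup.lift ψ).ker := by
      rw [hker]
      exact Subgroup.subset_normalClosure hr
    exact this
  choose σ hσ using hsurj
  let h : (G →₀ ℤ) →+ (G →₀ (S →₀ ℤ)) :=
    Finsupp.liftAddHom (fun g => (AddMonoidHom.flip (AddMonoidHom.smul :
      ℤ →+ (G →₀ (S →₀ ℤ)) →+ (G →₀ (S →₀ ℤ)))) (fc ψ 1 (σ g)))
  have hh : ∀ (g : G) (n : ℤ), h (Finsupp.single g n) = n • fc ψ 1 (σ g) := by
    intro g n
    simp [h]
  have key : ((QuotientAddGroup.mk' (relSub ψ R)).comp h).comp (d1 ψ) =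
      QuotientAddGroup.mk' (relSub ψ R) := by
    ext g s : 2
    ext
    simp only [AddMonoidHom.comp_apply, Finsupp.singleAddHom_apply]
    rw [d1_single, map_sub, hh, hh, one_smul, one_smul]
    show (QuotientAddGroup.mk (fc ψ 1 (σ (g * ψ s)) - fc ψ 1 (σ g)) :
      (G →₀ (S →₀ ℤ)) ⧸ relSub ψ R) = QuotientAddGroup.mk (edge g s)
    rw [QuotientAddGroup.eq]
    -- the loop word
    have hw : σ g * FreeGroup.of s * (σ (g * ψ s))⁻¹ ∈ Subgroup.normalClosure R := by
      rw [← hker, MonoidHom.mem_ker, map_mul, map_mul, map_inv, hσ, hσ, FreeGroup.lift_apply_of,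
        mul_inv_cancel]
    have h1 := fc_mem_relSub ψ R hR _ hw 1
    rw [fc_mul, fc_mul, fc_inv, map_mul, hσ, hσ, FreeGroup.lift_apply_of, one_mul, one_mul,
      mul_inv_cancel] at h1
    have h2 : fc ψ g (FreeGroup.of s) = edge g s := by
      show pc ψ g [(s, true)] = edge g s
      rw [pc, pc, add_zero]
      rfl
    rw [h2] at h1
    have h3 : -(fc ψ 1 (σ (g * ψ s)) - fc ψ 1 (σ g)) + edge g s =
      fc ψ 1 (σ g) + edge g s + -fc ψ 1 (σ (g * ψ s)) := by abel
    rw [h3]
    exact h1
  have h4 := congrArg (fun f => f a) key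
  simp only [AddMonoidHom.comp_apply, ha, map_zero] at h4
  exact (QuotientAddGroup.eq_zero_iff a).1 h4.symm

end Crest.Agent.R199.Fox
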