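import Crest.Agent.R199.Gadget1

/-! Part I (S1 version): input data of the gadget construction (lines, directions, code, classes). -/

set_option autoImplicit false

namespace Crest.Agent.R199

open Finset

open Classical in
/-- Input data. `P` = points of the affine space, `E` = base points of lines, `S` = parameters of the
directions of a block, `x : Option Z` = index of a block (gadget). `b x s p = w` means: the point `p` is on the
bulk line `(w, δ x s)` with base point `w` and direction `δ x s` (for `p = (u, y)`: `b x s p = y - u • δ x s`).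
`t (z, k)` = the three points of the class `z`. -/
structure GInput (g : ℕ) where
  P : Type
  Z : Type
  E : Type
  S : Type
  fP : Fintype P
  fZ : Fintype Z
  fE : Fintype E
  fS : Fintype S
  q : ℕ
  C : Submodule (ZMod 2) (P → ZMod 2)
  t : Z × Fin 3 → P
  t_inj : Function.Injective t
  b : Option Z → S → P → E
  /-- a line has at most `q` points -/
  line_card : ∀ x s w, (univ.filter fun p : P => b x s p = w).card ≤ q
  /-- the bulk lines are in the code -/
  line_mem : ∀ x s w, (fun p : P => if b x s p = w then (1 : ZMod 2) else 0) ∈ C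
  rank : Module.finrank (ZMod 2) C = Fintype.card Z
  /-- codewords with class sums `e_z` -/
  dual : ∀ z, ∃ κ ∈ C, ∀ z', ∑ k : Fin 3, κ (t (z', k)) = if z' = z then 1 else 0
  /-- two points determine the line, two directions determine the block -/
  ident : ∀ (x y : Option Z) (s₁ s₂ s₁' s₂' : S) (p₁ p₂ r₁ r₂ : P), p₁ ≠ p₂ → r₁ ≠ r₂ → s₁ ≠ s₂ →
    b x s₁ p₁ = b x s₁ p₂ → b y s₁' p₁ = b y s₁' p₂ →
    b x s₂ r₁ = b x s₂ r₂ → b y s₂' r₁ = b y s₂' r₂ → x = y ∧ s₁ = s₁'
  even_S : Even (Fintype.card S)
  big : 100 * (q + 1) ^ (g + 8) ≤ Fintype.card S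
  one_le_q : 1 ≤ q
  nonempty_P : Nonempty P
  nonempty_Z : Nonempty Z

end Crest.Agent.R199
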