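import Mathlib

/-! Part I (simplified version S1): the output of the finite design.

`W` = sheets of a gadget, gadgets are indexed by `Option Z` (`none` = closed gadget: all flags matched),
points (letters) are `Z × Fin 3`. A flag of the gadget `x` is a pair `f = (v, j)` with `j ∈ fl x v`.
`μ x` is the matching of the flags of the gadget `x`; its only fixed point is `root z` for `x = some z`. -/

set_option autoImplicit false

namespace Crest.Agent.R199

/-- combinatorial part of the gadget system -/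
structure Gad1 (Z W : Type) (g : ℕ) where
  fl : Option Z → W → Finset (Z × Fin 3)
  root : Z → W × (Z × Fin 3)
  μ : Option Z → W × (Z × Fin 3) → W × (Z × Fin 3)
  root_flag : ∀ z, (root z).2 ∈ fl (some z) (root z).1
  root_cls : ∀ z, (root z).2.1 = z
  μ_flag : ∀ x f, f.2 ∈ fl x f.1 → (μ x f).2 ∈ fl x (μ x f).1
  μ_invol : ∀ x f, f.2 ∈ fl x f.1 → μ x (μ x f) = f
  μ_fix : ∀ x f, f.2 ∈ fl x f.1 → (μ x f = f ↔ ∃ z, x = some z ∧ f = root z)
  μ_cls : ∀ x f, f.2 ∈ fl x f.1 → (μ x f).2.1 = f.2.1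
  μ_ne : ∀ x f, f.2 ∈ fl x f.1 → μ x f ≠ f → (μ x f).2 ≠ f.2
  /-- no reduced closed walk with less than `g` edges -/
  girth : ∀ x n, n + 1 < g → ∀ c : ℕ → W × (Z × Fin 3),
    (∀ i ≤ n, (c i).2 ∈ fl x (c i).1 ∧ μ x (c i) ≠ c i) →
    (∀ i < n, (c (i + 1)).1 = (μ x (c i)).1 ∧ c (i + 1) ≠ μ x (c i)) →
    (μ x (c n)).1 ≠ (c 0).1
  /-- unique reading: `v i` (`i < 6`) are consecutive sheets of a reduced walk in the gadget `x`,
  entered through the point `a i`, left through the point `b i`; the same for `w i` in the gadget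
  `y`. -/
  uniq : ∀ (x y : Option Z) (v w : ℕ → W) (a b : ℕ → Z × Fin 3),
    (∀ i < 6, a i ≠ b i ∧ a i ∈ fl x (v i) ∧ b i ∈ fl x (v i) ∧ a i ∈ fl y (w i) ∧
      b i ∈ fl y (w i)) →
    (∀ i < 5, μ x (v i, b i) = (v (i + 1), a (i + 1)) ∧ μ x (v i, b i) ≠ (v i, b i) ∧
      μ y (w i, b i) = (w (i + 1), a (i + 1)) ∧ μ y (w i, b i) ≠ (w i, b i)) →
    x = y ∧ v 0 = w 0
  letters : ∀ j : Z × Fin 3, ∃ x v, j ∈ fl x v

/-- gadget system: combinatorial part together with the code -/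
structure GadgetSys1 (Z C W : Type) [Fintype Z] [AddCommGroup C] [Module (ZMod 2) C] (g : ℕ)
    extends Gad1 Z W g where
  ev : Z × Fin 3 → C →ₗ[ZMod 2] ZMod 2
  finC : Module.Finite (ZMod 2) C
  rank : Module.finrank (ZMod 2) C = Fintype.card Z
  code : Option Z → W → C
  mem_fl : ∀ x v j, j ∈ fl x v ↔ ev j (code x v) = 1
  /-- the closed gadget is not empty -/
  closed_ne : ∃ v, code none v ≠ 0

end Crest.Agent.R199
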