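import Crest.Agent.R199.GadgetCon

/-! Part I (S1 version): assembly of the gadget system from the input data. -/

set_option autoImplicit false
set_option linter.unusedSectionVars false
set_option linter.unusedVariables false

namespace Crest.Agent.R199

open Finset

/-- the correction codeword of the gadget `x`; `M` = flags to be matched, `R` = root flag -/
lemma exists_corr {P Z : Type} [Fintype P] [Fintype Z] [DecidableEq Z]
    (C : Submodule (ZMod 2) (P → ZMod 2)) (t : Z × Fin 3 → P)
    (dual : ∀ z : Z, ∃ κ ∈ C, ∀ z' : Z, ∑ k : Fin 3, κ (t (z', k)) = if z' = z then 1 else 0)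
    (x : Option Z) :
    ∃ κ ∈ C, ∃ M R : Z × Fin 3 → Prop, ∃ _ : DecidablePred M,
      (∀ z', (univ.filter fun k => M (z', k)).card = 0 ∨
        (univ.filter fun k => M (z', k)).card = 2) ∧
      (∀ j, κ (t j) = 1 ↔ (M j ∨ R j)) ∧ (∀ j, M j → ¬ R j) ∧ (x = none → ∀ j, ¬ R j) ∧
      ∀ z, x = some z → ∃ k0, ∀ j, R j ↔ j = (z, k0) := by
  classical
  rcases x with _ | z
  · refine ⟨0, C.zero_mem, fun _ => False, fun _ => False, fun _ => instDecidableFalse, ?_, ?_, ?_,
      ?_, ?_⟩
    · intro z'; left; simp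
    · intro j; simp
    · intro j h; exact h.elim
    · intro _ j h; exact h
    · intro z h; exact absurd h (by simp)
  · obtain ⟨κ, hκ, hs⟩ := dual z
    obtain ⟨k0, hk0, hodd⟩ := ones_odd (fun k => κ (t (z, k))) (by rw [hs z, if_pos rfl])
    refine ⟨κ, hκ, fun j => κ (t j) = 1 ∧ j ≠ (z, k0), fun j => j = (z, k0),
      fun j => inferInstance, ?_, ?_, ?_, ?_, ?_⟩
    · intro z'
      by_cases hz : z' = z
      · subst hz
        have : (univ.filter fun k => κ (t (z', k)) = 1 ∧ (z', k) ≠ (z', k0)) =
            (univ.filter fun k => κ (t (z', k)) = 1 ∧ k ≠ k0) := by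
          apply filter_congr
          intro k _
          simp
        rw [this]
        exact hodd
      · have : (univ.filter fun k => κ (t (z', k)) = 1 ∧ (z', k) ≠ (z, k0)) =
            (univ.filter fun k => κ (t (z', k)) = 1) := by
          apply filter_congr
          intro k _
          simp [hz]
        rw [this]
        exact ones_even (fun k => κ (t (z', k))) (by rw [hs z', if_neg hz])
    · intro j
      by_cases hj : j = (z, k0)
      · subst hj
        simp [hk0]
      · simp [hj]
    · intro j h; exact h.2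
    · intro h; exact absurd h (by simp)
    · intro z' h
      have : z = z' := Option.some_injective _ h
      subst this
      exact ⟨k0, fun j => Iff.rfl⟩

section asm

variable {P Z E S : Type}

/-- flag of the gadget → flag of the matching construction -/
def toFl (f : Option (E × S) × (Z × Fin 3)) : ((Z × Fin 3) × S) ⊕ (Z × Fin 3) :=
  match f with
  | (some v, j) => Sum.inl (j, v.2)
  | (none, j) => Sum.inr j

/-- the converse -/
def ofFl (t : Z × Fin 3 → P) (b : S → P → E) (a : ((Z × Fin 3) × S) ⊕ (Z × Fin 3)) :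
    Option (E × S) × (Z × Fin 3) :=
  match a with
  | Sum.inl h => (some (b h.2 (t h.1), h.2), h.1)
  | Sum.inr j => (none, j)

lemma toFl_ofFl (t : Z × Fin 3 → P) (b : S → P → E) (a : ((Z × Fin 3) × S) ⊕ (Z × Fin 3)) :
    toFl (ofFl t b a) = a := by
  rcases a with ⟨j, s⟩ | j <;> rfl

lemma idx_toFl (f : Option (E × S) × (Z × Fin 3)) : idx (toFl f) = f.2 := by
  rcases f with ⟨_ | ⟨w, s⟩, j⟩ <;> rfl

lemma ofFl_snd (t : Z × Fin 3 → P) (b : S → P → E) (a : ((Z × Fin 3) × S) ⊕ (Z × Fin 3)) :
    (ofFl t b a).2 = idx a := by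
  rcases a with ⟨j, s⟩ | j <;> rfl

lemma ofFl_fst (t : Z × Fin 3 → P) (b : S → P → E) (a : ((Z × Fin 3) × S) ⊕ (Z × Fin 3)) :
    (ofFl t b a).1 = Insert.insV (vtxB t b) a := by
  rcases a with ⟨j, s⟩ | j <;> rfl

/-- flag predicate -/
def Flg (t : Z × Fin 3 → P) (b : S → P → E) (κ : P → ZMod 2)
    (f : Option (E × S) × (Z × Fin 3)) : Prop :=
  match f with
  | (some v, j) => b v.2 (t j) = v.1
  | (none, j) => κ (t j) = 1

lemma ofFl_toFl {t : Z × Fin 3 → P} {b : S → P → E} {κ : P → ZMod 2}
    {f : Option (E × S) × (Z × Fin 3)} (hf : Flg t b κ f) : ofFl t b (toFl f) = f := by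
  rcases f with ⟨_ | ⟨w, s⟩, j⟩
  · rfl
  · simp only [Flg] at hf
    simp only [toFl, ofFl]
    rw [hf]

end asm

theorem gadgetSys_of_input {g : ℕ} (I : GInput (g + 6)) :
    ∃ (Z C W : Type) (_ : Fintype Z) (_ : Fintype W) (_ : AddCommGroup C)
      (_ : Module (ZMod 2) C), Nonempty (GadgetSys1 Z C W g) := by
  classical
  obtain ⟨P, Z, E, S, fP, fZ, fE, fS, q, C, t, t_inj, b, line_card, line_mem, rank, dual, ident,
    even_S, big, hq, neP, neZ⟩ := I
  have hSpos : 0 < Fintype.card S := by
    have : 1 ≤ (q + 1) ^ (g + 6 + 8) := Nat.one_le_pow _ _ (Nat.succ_pos q)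
    omega
  obtain ⟨s0⟩ : Nonempty S := Fintype.card_pos_iff.1 hSpos
  obtain ⟨p0⟩ := neP
  choose κ hκC M R decM hM hκ hMR hnone hsome using exists_corr C t dual
  have hG := fun x : Option Z => @exists_gadget P Z E S fP fZ fE fS _ _ _ t t_inj (b x) q (g + 6)
    (fun s w => by
      have := line_card x s w
      convert this using 2) hq even_S big (M x) (decM x) (hM x)
  choose τ hinv hbulk hnM hMM hinrM hcls hne hdir hcyc using hG
  choose k0 hk0 using fun z : Z => hsome (some z) z rfl
  let flag : Option Z → Option (E × S) × (Z × Fin 3) → Prop := fun x f => Flg t (b x) (κ x) f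
  let μ : Option Z → Option (E × S) × (Z × Fin 3) → Option (E × S) × (Z × Fin 3) :=
    fun x f => ofFl t (b x) (τ x (toFl f))
  have hret : ∀ x f, flag x f → ofFl t (b x) (toFl f) = f := fun x f hf => ofFl_toFl hf
  -- fixed points
  have hfix : ∀ x f, flag x f → (μ x f = f ↔ τ x (toFl f) = toFl f) := by
    intro x f hf
    constructor
    · intro h
      have := congrArg toFl h
      simp only [μ, toFl_ofFl] at this
      exact this
    · intro h
      simp only [μ, h]
      exact hret x f hf
  have hfix2 : ∀ x f, flag x f → (μ x f = f ↔ ∃ z, x = some z ∧ f = (none, (z, k0 z))) := by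
    intro x f hf
    rw [hfix x f hf]
    rcases f with ⟨_ | ⟨w, s⟩, j⟩
    · simp only [toFl]
      have hfl : κ x (t j) = 1 := hf
      constructor
      · intro h
        have hnMj : ¬ M x j := by
          intro hMj
          obtain ⟨h', hh'⟩ := hMM x j hMj
          rw [hh'] at h
          exact absurd h (by simp)
        have hR : R x j := ((hκ x j).1 hfl).resolve_left hnMj
        rcases x with _ | z
        · exact absurd hR (hnone none rfl j)
        · exact ⟨z, rfl, by rw [(hk0 z j).1 hR]⟩
      · rintro ⟨z, rfl, hz⟩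
        have hj : j = (z, k0 z) := (Prod.ext_iff.1 hz).2
        have hR : R (some z) j := (hk0 z j).2 hj
        exact hnM _ j (fun hMj => hMR _ j hMj hR)
    · simp only [toFl]
      constructor
      · intro h; exact absurd h (hbulk x _)
      · rintro ⟨z, rfl, hz⟩
        exact absurd (Prod.ext_iff.1 hz).1 (by simp)
  have hflag : ∀ x f, flag x f → flag x (μ x f) := by
    intro x f hf
    rcases hτ : τ x (toFl f) with ⟨j, s⟩ | j
    · simp only [flag, μ, hτ, ofFl, Flg]
    · simp only [flag, μ, hτ, ofFl, Flg]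
      rcases f with ⟨_ | ⟨w, s⟩, j0⟩
      · simp only [toFl] at hτ
        have hnMj : ¬ M x j0 := by
          intro hMj
          obtain ⟨h', hh'⟩ := hMM x j0 hMj
          rw [hh'] at hτ
          exact absurd hτ (by simp)
        rw [hnM x j0 hnMj] at hτ
        rw [← Sum.inr_injective hτ]
        exact hf
      · simp only [toFl] at hτ
        exact (hκ x j).2 (Or.inl (hinrM x _ j hτ))
  have hμτ : ∀ x f, toFl (μ x f) = τ x (toFl f) := fun x f => toFl_ofFl _ _ _
  have hμinv : ∀ x f, flag x f → μ x (μ x f) = f := by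
    intro x f hf
    have h1 : μ x (μ x f) = ofFl t (b x) (τ x (toFl (μ x f))) := rfl
    rw [h1, hμτ, hinv x]
    exact hret x f hf
  have hμcls : ∀ x f, (μ x f).2.1 = f.2.1 := by
    intro x f
    simp only [μ, ofFl_snd]
    rw [hcls x, idx_toFl]
  have hμne : ∀ x f, flag x f → μ x f ≠ f → (μ x f).2 ≠ f.2 := by
    intro x f hf hne' heq
    have h1 := hne x (toFl f) (fun h => hne' ((hfix x f hf).2 h))
    apply h1
    rw [idx_toFl, ← ofFl_snd t (b x)]
    exact congrArg Prod.snd heq
  have hclosed : ∀ x, NoClosed (Insert.insV (vtxB t (b x))) (τ x) (g + 6) :=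
    fun x => (hcyc x).noClosed (hinv x)
  -- girth
  have hgirth : ∀ x n, n + 1 < g + 6 → ∀ c : ℕ → Option (E × S) × (Z × Fin 3),
      (∀ i ≤ n, flag x (c i) ∧ μ x (c i) ≠ c i) →
      (∀ i < n, (c (i + 1)).1 = (μ x (c i)).1 ∧ c (i + 1) ≠ μ x (c i)) →
      (μ x (c n)).1 ≠ (c 0).1 := by
    intro x n hn c hc hstep
    have hτne : ∀ i ≤ n, τ x (toFl (c i)) ≠ toFl (c i) := fun i hi h =>
      (hc i hi).2 ((hfix x _ (hc i hi).1).2 h)
    have hV : ∀ i ≤ n, Insert.insV (vtxB t (b x)) (toFl (c i)) = (c i).1 := by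
      intro i hi
      rw [← ofFl_fst, hret x _ (hc i hi).1]
    have h := hclosed x n hn (fun i => toFl (c i)) ?_ (hτne n le_rfl)
    · intro h2
      apply h
      rw [hV 0 (Nat.zero_le n), ← h2, ← ofFl_fst]
    · intro i hi
      refine ⟨hτne i hi.le, ?_, ?_⟩
      · rw [hV (i + 1) hi, (hstep i hi).1, ← ofFl_fst]
      · intro h3
        apply (hstep i hi).2
        rw [← hret x _ (hc (i + 1) hi).1, h3]
  -- the sheets of a reading avoid the correction vertex except once
  have honce : ∀ (x : Option Z) (v : ℕ → Option (E × S)) (a b' : ℕ → Z × Fin 3),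
      (∀ i < 6, a i ≠ b' i ∧ flag x (v i, a i) ∧ flag x (v i, b' i)) →
      (∀ i < 5, μ x (v i, b' i) = (v (i + 1), a (i + 1)) ∧ μ x (v i, b' i) ≠ (v i, b' i)) →
      ∀ i j, i < j → j < 6 → v i = none → v j = none → False := by
    intro x v a b' h1 h2 i j hij hj hvi hvj
    obtain ⟨n, rfl⟩ : ∃ n, j = i + n + 1 := ⟨j - i - 1, by omega⟩
    refine hgirth x n (by omega) (fun l => (v (i + l), b' (i + l))) ?_ ?_ ?_
    · intro l hl
      exact ⟨(h1 (i + l) (by omega)).2.2, (h2 (i + l) (by omega)).2⟩
    · intro l hl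
      have h3 := (h2 (i + l) (by omega)).1
      simp only
      rw [h3]
      refine ⟨rfl, ?_⟩
      intro h4
      exact (h1 (i + l + 1) (by omega)).1 ((Prod.ext_iff.1 h4).2).symm
    · have h3 := (h2 (i + n) (by omega)).1
      simp only [add_zero]
      rw [h3, hvi]
      exact hvj
  -- directions change along bulk edges
  have hdir' : ∀ (x : Option Z) (v v' : E × S) (j j' : Z × Fin 3),
      μ x (some v, j) = (some v', j') → v.2 ≠ v'.2 := by
    intro x v v' j j' h
    have h1 := congrArg toFl h
    rw [hμτ] at h1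
    simp only [toFl] at h1
    exact (hdir x _ _ h1).symm
  refine ⟨Z, C, Option (E × S), fZ, inferInstance, inferInstance, inferInstance, ⟨?_⟩⟩
  refine
    { fl := fun x v => univ.filter fun j => flag x (v, j)
      root := fun z => (none, (z, k0 z))
      μ := μ
      root_flag := ?_
      root_cls := fun z => rfl
      μ_flag := ?_
      μ_invol := ?_
      μ_fix := ?_
      μ_cls := ?_
      μ_ne := ?_
      girth := ?_
      uniq := ?_
      letters := ?_
      ev := fun j => (LinearMap.proj (t j)) ∘ₗ C.subtype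
      finC := inferInstance
      rank := rank
      code := fun x v => match v with
        | some ws => ⟨fun p : P => if b x ws.2 p = ws.1 then (1 : ZMod 2) else 0, by
            have := line_mem x ws.2 ws.1
            convert this using 2⟩
        | none => ⟨κ x, hκC x⟩
      mem_fl := ?_
      closed_ne := ?_ }
  · intro z
    rw [mem_filter]
    exact ⟨mem_univ _, (hκ (some z) _).2 (Or.inr ((hk0 z _).2 rfl))⟩
  · intro x f hf
    rw [mem_filter] at hf ⊢
    exact ⟨mem_univ _, hflag x f hf.2⟩
  · intro x f hf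
    rw [mem_filter] at hf
    exact hμinv x f hf.2
  · intro x f hf
    rw [mem_filter] at hf
    exact hfix2 x f hf.2
  · intro x f hf
    exact hμcls x f
  · intro x f hf hne'
    rw [mem_filter] at hf
    exact hμne x f hf.2 hne'
  · intro x n hn c hc hstep
    exact hgirth x n (by omega) c (fun i hi => ⟨(mem_filter.1 (hc i hi).1).2, (hc i hi).2⟩) hstep
  · intro x y v w a b' h1 h2
    have h1x : ∀ i < 6, a i ≠ b' i ∧ flag x (v i, a i) ∧ flag x (v i, b' i) := fun i hi =>
      ⟨(h1 i hi).1, (mem_filter.1 (h1 i hi).2.1).2, (mem_filter.1 (h1 i hi).2.2.1).2⟩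
    have h1y : ∀ i < 6, a i ≠ b' i ∧ flag y (w i, a i) ∧ flag y (w i, b' i) := fun i hi =>
      ⟨(h1 i hi).1, (mem_filter.1 (h1 i hi).2.2.2.1).2, (mem_filter.1 (h1 i hi).2.2.2.2).2⟩
    have ox := honce x v a b' h1x (fun i hi => ⟨(h2 i hi).1, (h2 i hi).2.1⟩)
    have oy := honce y w a b' h1y (fun i hi => ⟨(h2 i hi).2.2.1, (h2 i hi).2.2.2⟩)
    -- a pair of consecutive bulk sheets in both readings
    obtain ⟨i, hi5, hv0, hv1, hw0, hw1⟩ : ∃ i, i < 5 ∧ v i ≠ none ∧ v (i + 1) ≠ none ∧
        w i ≠ none ∧ w (i + 1) ≠ none := by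
      by_contra hall
      push Not at hall
      have hp : ∀ i, i < 5 → (v i = none ∨ v (i + 1) = none) ∨ (w i = none ∨ w (i + 1) = none) := by
        intro i hi
        by_cases h3 : v i = none
        · exact Or.inl (Or.inl h3)
        · by_cases h4 : v (i + 1) = none
          · exact Or.inl (Or.inr h4)
          · by_cases h5 : w i = none
            · exact Or.inr (Or.inl h5)
            · exact Or.inr (Or.inr (hall i hi h3 h4 h5))
      have pv : ∀ i i', i + 2 ≤ i' → i' < 5 → (v i = none ∨ v (i + 1) = none) →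
          (v i' = none ∨ v (i' + 1) = none) → False := by
        intro i i' hii hi' h3 h4
        rcases h3 with h3 | h3 <;> rcases h4 with h4 | h4
        · exact ox i i' (by omega) (by omega) h3 h4
        · exact ox i (i' + 1) (by omega) (by omega) h3 h4
        · exact ox (i + 1) i' (by omega) (by omega) h3 h4
        · exact ox (i + 1) (i' + 1) (by omega) (by omega) h3 h4
      have pw : ∀ i i', i + 2 ≤ i' → i' < 5 → (w i = none ∨ w (i + 1) = none) →
          (w i' = none ∨ w (i' + 1) = none) → False := by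
        intro i i' hii hi' h3 h4
        rcases h3 with h3 | h3 <;> rcases h4 with h4 | h4
        · exact oy i i' (by omega) (by omega) h3 h4
        · exact oy i (i' + 1) (by omega) (by omega) h3 h4
        · exact oy (i + 1) i' (by omega) (by omega) h3 h4
        · exact oy (i + 1) (i' + 1) (by omega) (by omega) h3 h4
      rcases hp 0 (by omega) with h3 | h3 <;> rcases hp 2 (by omega) with h4 | h4 <;>
        rcases hp 4 (by omega) with h5 | h5
      · exact pv 0 2 (by omega) (by omega) h3 h4
      · exact pv 0 2 (by omega) (by omega) h3 h4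
      · exact pv 0 4 (by omega) (by omega) h3 h5
      · exact pw 2 4 (by omega) (by omega) h4 h5
      · exact pv 2 4 (by omega) (by omega) h4 h5
      · exact pw 0 4 (by omega) (by omega) h3 h5
      · exact pw 0 2 (by omega) (by omega) h3 h4
      · exact pw 0 2 (by omega) (by omega) h3 h4
    obtain ⟨v0, hv0'⟩ := Option.ne_none_iff_exists'.1 hv0
    obtain ⟨v1, hv1'⟩ := Option.ne_none_iff_exists'.1 hv1
    obtain ⟨w0, hw0'⟩ := Option.ne_none_iff_exists'.1 hw0
    obtain ⟨w1, hw1'⟩ := Option.ne_none_iff_exists'.1 hw1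
    have x0 := h1x i (by omega)
    have x1 := h1x (i + 1) (by omega)
    have y0 := h1y i (by omega)
    have y1 := h1y (i + 1) (by omega)
    rw [hv0'] at x0
    rw [hv1'] at x1
    rw [hw0'] at y0
    rw [hw1'] at y1
    have hs : v0.2 ≠ v1.2 := by
      have h3 := (h2 i hi5).1
      rw [hv0', hv1'] at h3
      exact hdir' x v0 v1 _ _ h3
    have e1 : b x v0.2 (t (a i)) = v0.1 := x0.2.1
    have e2 : b x v0.2 (t (b' i)) = v0.1 := x0.2.2
    have e3 : b y w0.2 (t (a i)) = w0.1 := y0.2.1
    have e4 : b y w0.2 (t (b' i)) = w0.1 := y0.2.2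
    have e5 : b x v1.2 (t (a (i + 1))) = v1.1 := x1.2.1
    have e6 : b x v1.2 (t (b' (i + 1))) = v1.1 := x1.2.2
    have e7 : b y w1.2 (t (a (i + 1))) = w1.1 := y1.2.1
    have e8 : b y w1.2 (t (b' (i + 1))) = w1.1 := y1.2.2
    obtain ⟨hxy, hss⟩ := ident x y v0.2 v1.2 w0.2 w1.2 (t (a i)) (t (b' i)) (t (a (i + 1)))
      (t (b' (i + 1))) (fun h => x0.1 (t_inj h)) (fun h => x1.1 (t_inj h)) hs
      (e1.trans e2.symm) (e3.trans e4.symm) (e5.trans e6.symm) (e7.trans e8.symm)
    refine ⟨hxy, ?_⟩
    subst hxy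
    have hvw : v i = w i := by
      rw [hv0', hw0']
      congr 1
      refine Prod.ext ?_ hss
      rw [← e1, ← e3, hss]
    -- go back
    have hback : ∀ j, j ≤ i → v (i - j) = w (i - j) := by
      intro j
      induction j with
      | zero => intro _; simpa using hvw
      | succ j ih =>
        intro hj
        have h3 := ih (by omega)
        obtain ⟨l, hl⟩ : ∃ l, i - j = l + 1 := ⟨i - j - 1, by omega⟩
        have hl' : i - (j + 1) = l := by omega
        rw [hl'] 
        rw [hl] at h3
        have h4 := h2 l (by omega)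
        have f1 : μ x (v (l + 1), a (l + 1)) = (v l, b' l) := by
          rw [← h4.1]
          exact hμinv x _ (h1x l (by omega)).2.2
        have f2 : μ x (w (l + 1), a (l + 1)) = (w l, b' l) := by
          rw [← h4.2.2.1]
          exact hμinv x _ (h1y l (by omega)).2.2
        rw [h3, f2] at f1
        exact ((Prod.ext_iff.1 f1).1).symm
    have := hback i le_rfl
    simpa using this
  · intro j
    refine ⟨none, some (b none s0 (t j), s0), ?_⟩
    rw [mem_filter]
    exact ⟨mem_univ _, rfl⟩
  · intro x v j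
    rw [mem_filter]
    rcases v with _ | ⟨w, s⟩
    · simp only [mem_univ, true_and]
      rfl
    · simp only [mem_univ, true_and, flag, Flg]
      change b x s (t j) = w ↔ (if b x s (t j) = w then (1 : ZMod 2) else 0) = 1
      by_cases h : b x s (t j) = w <;> simp [h]
  · refine ⟨some (b none s0 p0, s0), ?_⟩
    intro h
    have h2 := congrArg (fun c : C => (c : P → ZMod 2) p0) h
    simp at h2

end Crest.Agent.R199
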