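import Mathlib

/-!
R199 (S0303), Part I.4 (a)-(c): Hall steps.
-/

set_option autoImplicit false
set_option linter.unusedSectionVars false
set_option linter.unusedVariables false

namespace Crest.Agent.R199.HallStep

open Finset

/-- degree form of Hall's theorem -/
lemma hall_deg {ι α : Type*} [Fintype ι] [Fintype α] [DecidableEq ι] [DecidableEq α]
    (t : ι → Finset α) (D : ℕ) (hD : 0 < D) (h1 : ∀ i, D ≤ (t i).card)
    (h2 : ∀ a, (univ.filter (fun i => a ∈ t i)).card ≤ D) :
    ∃ f : ι → α, Function.Injective f ∧ ∀ i, f i ∈ t i := by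
  rw [← Finset.all_card_le_biUnion_card_iff_exists_injective]
  intro s
  have := Finset.card_mul_le_card_mul (s := s) (t := s.biUnion t) (m := D) (n := D)
    (fun i a => a ∈ t i)
    (by
      intro i hi
      refine le_trans (h1 i) (card_le_card ?_)
      intro a ha
      rw [mem_bipartiteAbove]
      exact ⟨mem_biUnion.2 ⟨i, hi, ha⟩, ha⟩)
    (by
      intro a ha
      refine le_trans (card_le_card ?_) (h2 a)
      intro i hi
      rw [mem_bipartiteBelow] at hi
      rw [mem_filter]
      exact ⟨mem_univ _, hi.2⟩)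
  exact Nat.le_of_mul_le_mul_right this hD

/-- Choice of directions such that the chosen sheets are pairwise distinct. -/
lemma hall_dir {D Bl S W P : Type*} [Fintype D] [Fintype Bl] [Fintype S] [Fintype W] [Fintype P]
    [DecidableEq D] [DecidableEq Bl] [DecidableEq S] [DecidableEq W] [DecidableEq P]
    (blk : D → Bl) (pt : D → P) (b : Bl → S → P → W) (A : Finset S) (q K : ℕ)
    (hq : ∀ i s w, (univ.filter (fun j => b i s j = w)).card ≤ q)
    (hK : ∀ i j, (univ.filter (fun d => blk d = i ∧ pt d = j)).card ≤ K)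
    (hA : 0 < A.card) (h : q * K ≤ A.card) :
    ∃ σ : D → S, (∀ d, σ d ∈ A) ∧
      Function.Injective (fun d => (blk d, σ d, b (blk d) (σ d) (pt d))) := by
  let t : D → Finset (Bl × S × W) := fun d => A.image (fun s => (blk d, s, b (blk d) s (pt d)))
  have hcard : ∀ d, A.card ≤ (t d).card := by
    intro d
    rw [card_image_of_injective]
    intro s s' hss
    simp only [Prod.mk.injEq] at hss
    exact hss.2.1
  have hdeg : ∀ a, (univ.filter (fun d => a ∈ t d)).card ≤ A.card := by
    rintro ⟨i, s, w⟩
    refine le_trans ?_ h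
    have hsub : (univ.filter (fun d => (i, s, w) ∈ t d)) ⊆
        (univ.filter (fun j => b i s j = w)).biUnion
          (fun j => univ.filter (fun d => blk d = i ∧ pt d = j)) := by
      intro d hd
      rw [mem_filter] at hd
      obtain ⟨-, hd⟩ := hd
      simp only [t, mem_image, Prod.mk.injEq] at hd
      obtain ⟨s', hs', e1, e2, e3⟩ := hd
      subst e1; subst e2
      rw [mem_biUnion]
      refine ⟨pt d, ?_, ?_⟩
      · rw [mem_filter]; exact ⟨mem_univ _, e3⟩
      · rw [mem_filter]; exact ⟨mem_univ _, rfl, rfl⟩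
    refine le_trans (card_le_card hsub) ?_
    refine le_trans card_biUnion_le ?_
    refine le_trans (sum_le_card_nsmul _ _ K (fun j _ => hK i j)) ?_
    rw [smul_eq_mul]
    exact Nat.mul_le_mul_right _ (hq i s w)
  obtain ⟨f, hf, hft⟩ := hall_deg t A.card hA hcard hdeg
  have hex : ∀ d, ∃ s ∈ A, (blk d, s, b (blk d) s (pt d)) = f d := by
    intro d
    have := hft d
    simp only [t, mem_image] at this
    exact this
  choose σ hσA hσ using hex
  refine ⟨σ, hσA, ?_⟩
  intro d d' hdd
  apply hf
  rw [← hσ d, ← hσ d']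
  exact hdd

end Crest.Agent.R199.HallStep
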