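import Crest.Agent.R199.Words
import Crest.Agent.R199.Graded

/-! Part IV-b: the group is word-hyperbolic.

Cells are indexed by `D.Grp × D.Pos`; two different indices are adjacent when their cells share a group
element; the level of a cell is `M.cl`.  The interface `Model` says that this is a graded graph. -/

set_option autoImplicit false

namespace Crest.Agent.R199

variable {S : Type}

namespace SCData

variable (D : SCData S)

theorem gw_nil : D.gw [] = 1 := by
  unfold gw
  rw [← FreeGroup.one_eq_mk, map_one]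

theorem gw_append (w w' : List (S × Bool)) : D.gw (w ++ w') = D.gw w * D.gw w' := by
  unfold gw
  rw [← FreeGroup.mul_mk, map_mul]

theorem gw_invRev (w : List (S × Bool)) : D.gw (FreeGroup.invRev w) = (D.gw w)⁻¹ := by
  unfold gw
  rw [← FreeGroup.inv_mk, map_inv]

theorem gw_closed {x : D.Pos} {w : List (S × Bool)} (h : D.A.read w x = some x) : D.gw w = 1 :=
  PresentedGroup.one_of_mem (rels := D.rels) ⟨x, w, h, rfl⟩

/-- words with the same end points represent the same group element -/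
theorem gw_eq_of_read {x y : D.Pos} {w w' : List (S × Bool)} (h : D.A.read w x = some y)
    (h' : D.A.read w' x = some y) : D.gw w = D.gw w' := by
  have h1 : D.A.read (w ++ FreeGroup.invRev w') x = some x :=
    D.A.read_append_some.mpr ⟨y, h, D.A.read_invRev h'⟩
  have h2 := D.gw_closed h1
  rw [gw_append, gw_invRev] at h2
  exact mul_inv_eq_one.mp h2

variable {D}

theorem Same.refl (g : D.Grp) (x : D.Pos) : D.Same g x g x := ⟨[], rfl, by rw [gw_nil, mul_one]⟩

theorem Same.symm {g h : D.Grp} {x y : D.Pos} (H : D.Same g x h y) : D.Same h y g x := by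
  obtain ⟨w, h1, h2⟩ := H
  exact ⟨FreeGroup.invRev w, D.A.read_invRev h1, by rw [h2, gw_invRev, mul_inv_cancel_right]⟩

theorem Same.trans {g h k : D.Grp} {x y z : D.Pos} (H : D.Same g x h y) (H' : D.Same h y k z) :
    D.Same g x k z := by
  obtain ⟨w, h1, h2⟩ := H
  obtain ⟨w', h1', h2'⟩ := H'
  exact ⟨w ++ w', D.A.read_append_some.mpr ⟨y, h1, h1'⟩, by rw [h2', h2, gw_append, mul_assoc]⟩

variable (D)

/-- the cell of position `x` at `g` -/
def cellSet (i : D.Grp × D.Pos) : Set D.Grp := {h | ∃ y, D.Same i.1 i.2 h y}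

/-- adjacency of cells -/
def cellGraph : SimpleGraph (D.Grp × D.Pos) where
  Adj i j := i ≠ j ∧ (D.cellSet i ∩ D.cellSet j).Nonempty
  symm := by
    constructor
    rintro i j ⟨h1, h2⟩
    exact ⟨h1.symm, by rwa [Set.inter_comm]⟩
  loopless := ⟨fun i h => h.1 rfl⟩

variable {D}

theorem graded_cellGraph (M : D.Model) :
    Graded D.cellGraph (fun i => M.cl i.1 i.2) where
  adj_le := by
    rintro ⟨g, x⟩ ⟨h, y⟩ ⟨_, k, ⟨x', hx'⟩, ⟨y', hy'⟩⟩
    have h1 := M.cl_same _ _ _ _ hx'
    have h2 := M.cl_same _ _ _ _ hy'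
    have h3 := M.cl_le k x'
    have h4 := M.lev_le k y'
    simp only at *
    omega
  down := by
    rintro ⟨g, x⟩ hne
    obtain ⟨h, y, hS, hl⟩ := M.base g x
    simp only at hne
    obtain ⟨n, hn⟩ := Nat.exists_eq_succ_of_ne_zero hne
    obtain ⟨x'', hx''⟩ := M.down h n (by rw [hl, hn])
    refine ⟨(h, x''), ⟨?_, h, ⟨y, hS⟩, ⟨x'', Same.refl h x''⟩⟩, ?_⟩
    · intro he
      have : M.cl g x = M.cl h x'' := congrArg (fun i : D.Grp × D.Pos => M.cl i.1 i.2) he
      omega
    · simp only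
      omega
  base := by
    rintro ⟨g, x⟩ ⟨h, y⟩ ha hb
    by_cases he : ((g, x) : D.Grp × D.Pos) = (h, y)
    · exact Or.inl he
    · refine Or.inr ⟨he, 1, ?_, ?_⟩
      · obtain ⟨k, z, hS, hl⟩ := M.base g x
        simp only at ha
        rw [ha, M.lev_eq_zero] at hl
        subst hl
        exact ⟨z, hS⟩
      · obtain ⟨k, z, hS, hl⟩ := M.base h y
        simp only at hb
        rw [hb, M.lev_eq_zero] at hl
        subst hl
        exact ⟨z, hS⟩
  common := by
    rintro ⟨g, x⟩ ⟨h, y⟩ ⟨_, k, ⟨x', hx'⟩, ⟨y', hy'⟩⟩ hl hne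
    simp only at hl hne hx' hy'
    have h1 := M.cl_same _ _ _ _ hx'
    have h2 := M.cl_same _ _ _ _ hy'
    obtain ⟨b, p, q, hp, hq, hb⟩ := M.share k x' y' (by rw [h1, h2, hl])
    obtain ⟨n, hn⟩ := Nat.exists_eq_succ_of_ne_zero hne
    obtain ⟨z, hz⟩ := M.down b n (by rw [hb, h1, hn])
    refine ⟨(b, z), ⟨?_, b, ⟨p, hx'.trans hp⟩, ⟨z, Same.refl b z⟩⟩,
      ⟨?_, b, ⟨q, hy'.trans hq⟩, ⟨z, Same.refl b z⟩⟩, ?_⟩
    · intro he
      have : M.cl g x = M.cl b z := congrArg (fun i : D.Grp × D.Pos => M.cl i.1 i.2) he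
      omega
    · intro he
      have : M.cl h y = M.cl b z := congrArg (fun i : D.Grp × D.Pos => M.cl i.1 i.2) he
      omega
    · simp only
      omega
  clique := by
    rintro ⟨g, x⟩ ⟨h, y⟩ ⟨gp, xp⟩ ⟨gr, xr⟩ hab hl ⟨_, k, ⟨ya, hya⟩, ⟨yp, hyp⟩⟩ hp
      ⟨_, k', ⟨yb, hyb⟩, ⟨yr, hyr⟩⟩ hr
    simp only at hl hp hr hya hyp hyb hyr
    -- a common base element
    obtain ⟨g0, x0, y0, h0x, h0y, hlev⟩ : ∃ (g0 : D.Grp) (x0 y0 : D.Pos),
        D.Same g x g0 x0 ∧ D.Same h y g0 y0 ∧ M.lev g0 = M.cl g x := by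
      rcases hab with he | ⟨_, c, ⟨x', hx'⟩, ⟨y', hy'⟩⟩
      · obtain ⟨g0, x0, hS, hl0⟩ := M.base g x
        cases he
        exact ⟨g0, x0, x0, hS, hS, hl0⟩
      · have h1 := M.cl_same _ _ _ _ hx'
        have h2 := M.cl_same _ _ _ _ hy'
        simp only at h1 h2 hx' hy'
        obtain ⟨b, p, q, hp', hq', hb⟩ := M.share c x' y' (by rw [h1, h2, hl])
        exact ⟨b, p, q, hx'.trans hp', hy'.trans hq', by rw [hb, h1]⟩
    have c1 := M.cl_same _ _ _ _ h0x
    have c2 := M.cl_same _ _ _ _ h0y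
    have c3 := M.cl_same _ _ _ _ hya
    have c4 := M.cl_same _ _ _ _ hyp
    have c5 := M.cl_same _ _ _ _ hyb
    have c6 := M.cl_same _ _ _ _ hyr
    have d1 := M.cl_le k ya
    have d2 := M.lev_le k yp
    have d3 := M.cl_le k' yb
    have d4 := M.lev_le k' yr
    obtain ⟨z, z1, z2, hz1, hz2⟩ := M.clique g0 x0 y0 k ya yp k' yb yr (by omega) (by omega)
      (h0x.symm.trans hya) (h0y.symm.trans hyb) (by omega) (by omega) (by omega) (by omega)
    by_cases he : ((gp, xp) : D.Grp × D.Pos) = (gr, xr)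
    · exact Or.inl he
    · exact Or.inr ⟨he, z, ⟨z1, hyp.trans hz1⟩, ⟨z2, hyr.trans hz2⟩⟩

theorem cellGraph_connected (M : D.Model) (x₀ : D.Pos) : D.cellGraph.Connected := by
  have key : ∀ (n : ℕ) (i : D.Grp × D.Pos), M.cl i.1 i.2 = n →
      D.cellGraph.Reachable i (1, x₀) := by
    intro n
    induction n with
    | zero =>
      intro i hi
      have hz : M.cl (1 : D.Grp) x₀ = 0 := by
        have h1 := M.cl_le (1 : D.Grp) x₀
        have h2 := (M.lev_eq_zero 1).mpr rfl
        omega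
      rcases (graded_cellGraph M).base i (1, x₀) hi hz with h | h
      · rw [h]
      · exact h.reachable
    | succ n ih =>
      intro i hi
      obtain ⟨j, hj, hl⟩ := (graded_cellGraph M).down i (by omega)
      exact hj.reachable.trans (ih j (by omega))
  have : Nonempty (D.Grp × D.Pos) := ⟨(1, x₀)⟩
  exact ⟨fun i j => (key _ i rfl).trans (key _ j rfl).symm⟩

end SCData

theorem isHyperbolicGroup_of_subsingleton (G : Type) [Group G] [Subsingleton G] :
    Crest.GroupTheory.IsHyperbolicGroup G := by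
  refine ⟨∅, ?_, 0, le_rfl, ?_⟩
  · exact Subsingleton.elim _ _
  · intro w x y z
    rw [Subsingleton.elim w 1, Subsingleton.elim x 1, Subsingleton.elim y 1, Subsingleton.elim z 1]
    simp

theorem hyperbolic (D : SCData S) (M : D.Model) : Crest.GroupTheory.IsHyperbolicGroup D.Grp := by
  classical
  have := D.finPos
  by_cases hP : Nonempty D.Pos
  · obtain ⟨x₀⟩ := hP
    refine isHyperbolicGroup_of_cells (cell := D.cellSet) (Γ := D.cellGraph) (i₀ := (1, x₀))
      (lev := fun i => M.cl i.1 i.2) ?_ ?_ ?_ ?_ (SCData.cellGraph_connected M x₀)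
      (SCData.graded_cellGraph M) ⟨x₀, SCData.Same.refl _ _⟩ ?_
    · intro g
      exact ⟨(g, x₀), x₀, SCData.Same.refl _ _⟩
    · rintro k ⟨g, x⟩
      refine ⟨(k * g, x), ?_⟩
      rintro h ⟨y, w, hw, he⟩
      simp only at hw he
      exact ⟨y, w, hw, by rw [he, mul_assoc]⟩
    · have hsub : {g : D.Grp | ∃ i, (1 : D.Grp) ∈ D.cellSet i ∧ g ∈ D.cellSet i} ⊆
          Set.range (fun p : D.Pos × D.Pos =>
            if h : ∃ w : List (S × Bool), D.A.read w p.1 = some p.2 then D.gw h.choose else 1) := by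
        rintro g ⟨⟨h, x⟩, ⟨y, hy⟩, ⟨z, hz⟩⟩
        obtain ⟨w, hw, he⟩ := hy.symm.trans hz
        rw [one_mul] at he
        refine ⟨(y, z), ?_⟩
        have hex : ∃ w : List (S × Bool), D.A.read w y = some z := ⟨w, hw⟩
        simp only
        rw [dif_pos hex, he]
        exact D.gw_eq_of_read hex.choose_spec hw
      exact (Set.finite_range _).subset hsub
    · intro i j
      rfl
    · have h1 := M.cl_le (1 : D.Grp) x₀
      have h2 := (M.lev_eq_zero 1).mpr rfl
      simp only
      omega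
  · have : IsEmpty S := by
      constructor
      intro s
      obtain ⟨x, _⟩ := D.letters (s, true)
      exact hP ⟨x⟩
    have : Subsingleton D.Grp := by
      have : Subsingleton (FreeGroup S) := inferInstance
      exact (PresentedGroup.mk_surjective (rels := D.rels)).subsingleton
    exact isHyperbolicGroup_of_subsingleton _

end Crest.Agent.R199
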