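import Mathlib
import Crest.Agent.R199.Graded

/-! Part IV-a: an abstract hyperbolicity criterion for graded graphs (independent of the rest),
reduced to `Graded.fourPoint`. -/

set_option autoImplicit false

namespace Crest.Agent.R199

/-- `Chain adj n x y`: there is a chain of `n` steps from `x` to `y`. -/
inductive Chain {C : Type} (adj : C → C → Prop) : ℕ → C → C → Prop
  | refl (x : C) : Chain adj 0 x x
  | step {n : ℕ} {x y z : C} : Chain adj n x y → adj y z → Chain adj (n + 1) x z

/-- distance in the graph with (reflexive) adjacency `adj` -/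
noncomputable def cdist {C : Type} (adj : C → C → Prop) (x y : C) : ℕ := sInf {n | Chain adj n x y}

theorem Chain.cons {C : Type} {adj : C → C → Prop} {n : ℕ} {x y z : C} (h : adj x y)
    (h' : Chain adj n y z) : Chain adj (n + 1) x z := by
  induction h' with
  | refl => exact Chain.step (Chain.refl _) h
  | step _ h2 ih => exact Chain.step (ih h) h2

/-- the simple graph of a symmetric relation -/
def relGraph {C : Type} (adj : C → C → Prop) (hsymm : ∀ x y, adj x y → adj y x) :
    SimpleGraph C where
  Adj x y := x ≠ y ∧ adj x y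
  symm := ⟨fun _ _ h => ⟨h.1.symm, hsymm _ _ h.2⟩⟩
  loopless := ⟨fun _ h => h.1 rfl⟩

theorem chain_of_walk {C : Type} {adj : C → C → Prop} {hsymm : ∀ x y, adj x y → adj y x}
    {x y : C} (w : (relGraph adj hsymm).Walk x y) : Chain adj w.length x y := by
  induction w with
  | nil => exact Chain.refl _
  | cons h _ ih => exact Chain.cons h.2 ih

theorem walk_of_chain {C : Type} {adj : C → C → Prop} {hsymm : ∀ x y, adj x y → adj y x}
    {n : ℕ} {x y : C} (h : Chain adj n x y) :
    ∃ w : (relGraph adj hsymm).Walk x y, w.length ≤ n := by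
  induction h with
  | refl => exact ⟨SimpleGraph.Walk.nil, le_rfl⟩
  | @step n x y z _ h2 ih =>
    obtain ⟨w, hw⟩ := ih
    by_cases hyz : y = z
    · subst hyz; exact ⟨w, by omega⟩
    · have hadj : (relGraph adj hsymm).Adj y z := ⟨hyz, h2⟩
      refine ⟨w.concat hadj, ?_⟩
      have := SimpleGraph.Walk.length_concat w hadj
      omega

theorem cdist_eq_dist {C : Type} {adj : C → C → Prop} {hsymm : ∀ x y, adj x y → adj y x}
    (hc : (relGraph adj hsymm).Connected) (x y : C) :
    cdist adj x y = (relGraph adj hsymm).dist x y := by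
  apply le_antisymm
  · obtain ⟨w, hw⟩ := hc.exists_walk_length_eq_dist x y
    rw [← hw]
    exact Nat.sInf_le (chain_of_walk w)
  · have hne : {n | Chain adj n x y}.Nonempty := by
      obtain ⟨w, hw⟩ := hc.exists_walk_length_eq_dist x y
      exact ⟨_, chain_of_walk w⟩
    obtain ⟨w, hw⟩ := walk_of_chain (hsymm := hsymm) (Nat.sInf_mem hne)
    exact (SimpleGraph.dist_le w).trans hw

/-- A graded graph in which adjacent cells of the same positive level have pairwise adjacent
down-neighbours and a common down-neighbour is hyperbolic (four point condition with base point on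
level 0). `adj` is reflexive and symmetric. -/
theorem four_point_of_graded {C : Type} (adj : C → C → Prop) (L : C → ℕ)
    (hrefl : ∀ x, adj x x) (hsymm : ∀ x y, adj x y → adj y x)
    (h0 : ∀ x y, adj x y → L x ≤ L y + 1)
    (h1 : ∀ x n, L x = n + 1 → ∃ e, L e = n ∧ adj x e)
    (h2 : ∀ x y e e', adj x y → L x = L y → L e + 1 = L x → L e' + 1 = L x → adj x e → adj y e' →
      adj e e')
    (h3 : ∀ x y, adj x y → L x = L y → 0 < L x → ∃ e, L e + 1 = L x ∧ adj x e ∧ adj y e)
    (h4 : ∀ x y, L x = 0 → L y = 0 → adj x y) :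
    ∃ δ : ℕ, ∀ o x y z : C, L o = 0 →
      min ((cdist adj x o : ℤ) + cdist adj y o - cdist adj x y)
          ((cdist adj y o : ℤ) + cdist adj z o - cdist adj y z) - δ ≤
        (cdist adj x o : ℤ) + cdist adj z o - cdist adj x z := by
  refine ⟨16, ?_⟩
  intro o x y z ho
  set Γ := relGraph adj hsymm with hΓ
  -- every vertex is reachable from `o`
  have hreach : ∀ n a, L a = n → Γ.Reachable o a := by
    intro n
    induction n with
    | zero =>
      intro a ha
      by_cases hoa : o = a
      · subst hoa; exact SimpleGraph.Reachable.refl _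
      · exact SimpleGraph.Adj.reachable (G := Γ) ⟨hoa, h4 o a ho ha⟩
    | succ n ih =>
      intro a ha
      obtain ⟨e, he, hae⟩ := h1 a n ha
      have hne : e ≠ a := by rintro rfl; omega
      exact (ih e he).trans (SimpleGraph.Adj.reachable (G := Γ) ⟨hne, hsymm _ _ hae⟩)
  have hc : Γ.Connected := by
    have : Nonempty C := ⟨o⟩
    refine ⟨fun a b => ((hreach _ a rfl).symm.trans (hreach _ b rfl))⟩
  have H : Graded Γ L := by
    refine ⟨fun {a b} h => h0 a b h.2, ?_, ?_, ?_, ?_⟩
    · intro a ha
      obtain ⟨n, hn⟩ := Nat.exists_eq_succ_of_ne_zero ha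
      obtain ⟨e, he, hae⟩ := h1 a n hn
      exact ⟨e, ⟨by rintro rfl; omega, hae⟩, by omega⟩
    · intro a b ha hb
      by_cases hab : a = b
      · exact Or.inl hab
      · exact Or.inr ⟨hab, h4 a b ha hb⟩
    · intro a b hab hl ha
      obtain ⟨e, he, hae, hbe⟩ := h3 a b hab.2 hl (Nat.pos_of_ne_zero ha)
      exact ⟨e, ⟨by rintro rfl; omega, hae⟩, ⟨by rintro rfl; omega, hbe⟩, he⟩
    · intro a b p r hab hl hap hlp hbr hlr
      have hab' : adj a b := by
        rcases hab with rfl | hab
        · exact hrefl a
        · exact hab.2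
      by_cases hpr : p = r
      · exact Or.inl hpr
      · exact Or.inr ⟨hpr, h2 a b p r hab' hl hlp (by omega) hap.2 hbr.2⟩
  have hf := H.fourPoint hc x y z
  have hx := H.dist_base hc ho x
  have hy := H.dist_base hc ho y
  have hz := H.dist_base hc ho z
  rw [cdist_eq_dist hc, cdist_eq_dist hc, cdist_eq_dist hc, cdist_eq_dist hc, cdist_eq_dist hc,
    cdist_eq_dist hc]
  rw [SimpleGraph.dist_comm] at hx hy hz
  rw [← hΓ]
  push_cast
  omega

end Crest.Agent.R199
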