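import Mathlib

/-!
# Row 199, I.3: a basis of the code of lines with low load at every point

`F` a finite field, `E` a finite `F`-module, points `F × E`, lines `{(u, w + u d)}`.
-/

set_option autoImplicit false
set_option linter.unusedSectionVars false

namespace Crest.Agent.R199

open Module

section LowLoad

variable {F E K : Type*} [Field F] [Fintype F] [DecidableEq F] [AddCommGroup E] [Module F E]
  [Fintype E] [DecidableEq E] [Field K]

/-- the indicator function of the line `{(u, w + u • d)}` -/
def lineFn (F : Type*) {E : Type*} (K : Type*) [Field F] [AddCommGroup E] [Module F E] [DecidableEq E] [Field K]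
    (l : E × E) : F × E → K := fun p => if p.2 = l.1 + p.1 • l.2 then 1 else 0

/-- the number of lines of `B` through the point `p` -/
def load (B : Finset (E × E)) (p : F × E) : ℕ := (B.filter fun l => p.2 = l.1 + p.1 • l.2).card

theorem sum_parallel (w d η : E) (b : F) :
    ∑ a : F, lineFn F K (w + a • η, d + b • η) = ∑ a : F, lineFn F K (w + a • η, d) := by
  funext p
  rw [Finset.sum_apply, Finset.sum_apply]
  refine Fintype.sum_equiv (Equiv.addRight (p.1 * b)) _ _ fun a => ?_
  simp only [lineFn, Equiv.coe_addRight]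
  have : w + a • η + p.1 • (d + b • η) = w + (a + p.1 * b) • η + p.1 • d := by
    rw [smul_add, add_smul, mul_smul]; abel
  exact if_congr (by rw [this]) rfl rfl

theorem card_on_line (l : E × E) :
    (Finset.univ.filter fun p : F × E => p.2 = l.1 + p.1 • l.2).card ≤ Fintype.card F := by
  have : (Finset.univ.filter fun p : F × E => p.2 = l.1 + p.1 • l.2) ⊆
      Finset.univ.image (fun u : F => (u, l.1 + u • l.2)) := by
    intro p hp
    rw [Finset.mem_filter] at hp
    rw [Finset.mem_image]
    exact ⟨p.1, Finset.mem_univ _, Prod.ext rfl hp.2.symm⟩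
  exact (Finset.card_le_card this).trans (Finset.card_image_le.trans (by simp))

theorem sum_load_le (B : Finset (E × E)) : ∑ p : F × E, load B p ≤ B.card * Fintype.card F := by
  have h1 : ∑ p : F × E, load B p =
      ∑ l ∈ B, (Finset.univ.filter fun p : F × E => p.2 = l.1 + p.1 • l.2).card := by
    unfold load
    simp_rw [Finset.card_filter]
    rw [Finset.sum_comm]
  rw [h1]
  refine (Finset.sum_le_sum fun l _ => card_on_line l).trans ?_
  simp

/-- The load hypothesis and its maximality. -/
theorem low_load (lam : ℕ)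
    (hlam : finrank K (Submodule.span K (Set.range (lineFn F K : E × E → F × E → K))) *
      Fintype.card F ^ 2 ≤ lam ^ 2)
    (hside : finrank K (Submodule.span K (Set.range (lineFn F K : E × E → F × E → K))) *
      Fintype.card F * (Fintype.card F - 1) < (Fintype.card E - 1) * lam) :
    ∃ B : Finset (E × E), LinearIndepOn K (lineFn F K : E × E → F × E → K) (B : Set (E × E)) ∧
      Submodule.span K ((lineFn F K : E × E → F × E → K) '' (B : Set (E × E))) =
        Submodule.span K (Set.range (lineFn F K : E × E → F × E → K)) ∧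
      ∀ p : F × E, load B p ≤ lam := by
  classical
  set C0 := Submodule.span K (Set.range (lineFn F K : E × E → F × E → K)) with hC0
  set ρ := finrank K C0 with hρ
  set q := Fintype.card F with hq
  have hlam0 : 0 < lam := by
    rcases Nat.eq_zero_or_pos lam with h | h
    · rw [h, mul_zero] at hside; omega
    · exact h
  -- maximal family
  obtain ⟨B, hB, hmax⟩ := Finset.exists_max_image
    (Finset.univ.filter fun B : Finset (E × E) =>
      LinearIndepOn K (lineFn F K : E × E → F × E → K) (B : Set (E × E)) ∧ ∀ p : F × E, load B p ≤ lam)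
    Finset.card ⟨∅, by
      rw [Finset.mem_filter]
      refine ⟨Finset.mem_univ _, ?_, fun p => by simp [load]⟩
      rw [Finset.coe_empty]; exact linearIndepOn_empty K _⟩
  rw [Finset.mem_filter] at hB
  obtain ⟨-, hind, hload⟩ := hB
  refine ⟨B, hind, ?_, hload⟩
  set SB := Submodule.span K ((lineFn F K : E × E → F × E → K) '' (B : Set (E × E))) with hSB
  have hSBle : SB ≤ C0 := Submodule.span_mono (Set.image_subset_range _ _)
  by_contra hne
  -- saturated points
  set X : Finset (F × E) := Finset.univ.filter fun p => load B p = lam with hX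
  -- lines outside the span meet X
  have hmeet : ∀ l : E × E, lineFn F K l ∉ SB → ∃ p ∈ X, p.2 = l.1 + p.1 • l.2 := by
    intro l hl
    by_contra hcon
    push Not at hcon
    have hlB : l ∉ B := fun h => hl (Submodule.subset_span ⟨l, h, rfl⟩)
    have h1 := hmax (insert l B) (by
      rw [Finset.mem_filter]
      refine ⟨Finset.mem_univ _, ?_, ?_⟩
      · rw [Finset.coe_insert, linearIndepOn_insert (by exact_mod_cast hlB)]
        exact ⟨hind, hl⟩
      · intro p
        unfold load
        rw [Finset.filter_insert]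
        split_ifs with hp
        · have h2 : load B p ≠ lam := by
            intro h3
            exact hcon p (by rw [hX, Finset.mem_filter]; exact ⟨Finset.mem_univ _, h3⟩) hp
          have h3 := hload p
          refine (Finset.card_insert_le _ _).trans ?_
          change load B p + 1 ≤ lam
          omega
        · exact hload p)
    rw [Finset.card_insert_of_notMem hlB] at h1
    omega
  -- |X| * lam ≤ ρ q
  have hBcard : B.card ≤ ρ := by
    have h1 : finrank K SB = B.card := by
      have h2 : LinearIndependent K (fun x : (B : Set (E × E)) => lineFn F K (x : E × E)) := hind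
      have h3 := finrank_span_eq_card h2
      rw [hSB, Set.image_eq_range]
      exact h3.trans (by simp)
    rw [← h1]
    exact Submodule.finrank_mono hSBle
  have hXcard : X.card * lam ≤ ρ * q := by
    have h1 : X.card * lam = ∑ p ∈ X, load B p := by
      rw [Finset.sum_congr rfl (fun p hp => (Finset.mem_filter.1 hp).2), Finset.sum_const, smul_eq_mul]
    rw [h1]
    refine (Finset.sum_le_univ_sum_of_nonneg fun p => Nat.zero_le _).trans ?_
    exact (sum_load_le B).trans (Nat.mul_le_mul_right _ hBcard)
  have hXq : X.card * (q - 1) < Fintype.card E - 1 := by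
    have h1 : X.card * (q - 1) * lam < (Fintype.card E - 1) * lam := by
      calc X.card * (q - 1) * lam = X.card * lam * (q - 1) := by ring
        _ ≤ ρ * q * (q - 1) := Nat.mul_le_mul_right _ hXcard
        _ < _ := hside
    exact Nat.lt_of_mul_lt_mul_right h1
  -- a line outside the span
  obtain ⟨l0, hl0⟩ : ∃ l : E × E, lineFn F K l ∉ SB := by
    by_contra hcon
    push Not at hcon
    apply hne
    refine le_antisymm hSBle (Submodule.span_le.2 ?_)
    rintro _ ⟨l, rfl⟩
    exact hcon l
  -- good directions
  let G : E × E → E → Prop := fun l η => ∀ p ∈ X, ∀ a : F, p.2 - l.1 - p.1 • l.2 = a • η → a = 0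
  -- bad nonzero directions come from pairs
  have hbad : ∀ (l : E × E) (η : E), η ≠ 0 → ¬ G l η → ∃ p ∈ X, p.2 ≠ l.1 + p.1 • l.2 ∧
      ∃ a : F, a ≠ 0 ∧ η = a • (p.2 - l.1 - p.1 • l.2) := by
    intro l η hη hG
    simp only [G] at hG
    push Not at hG
    obtain ⟨p, hp, a, hpa, ha⟩ := hG
    refine ⟨p, hp, ?_, a⁻¹, inv_ne_zero ha, ?_⟩
    · intro h
      rw [h, add_sub_cancel_left, sub_self] at hpa
      rcases smul_eq_zero.1 hpa.symm with h1 | h1
      · exact ha h1
      · exact hη h1
    · rw [hpa, smul_smul, inv_mul_cancel₀ ha, one_smul]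
  -- existence of a good nonzero direction
  have hgood : ∀ l : E × E, ∃ η : E, η ≠ 0 ∧ G l η := by
    intro l
    by_contra hcon
    push Not at hcon
    have h1 : (Finset.univ.erase (0 : E)) ⊆
        (X ×ˢ (Finset.univ.erase (0 : F))).image (fun pa => pa.2 • (pa.1.2 - l.1 - pa.1.1 • l.2)) := by
      intro η hη
      have hη0 := (Finset.mem_erase.1 hη).1
      obtain ⟨p, hp, _, a, ha, h2⟩ := hbad l η hη0 (hcon η hη0)
      rw [Finset.mem_image]
      exact ⟨(p, a), Finset.mem_product.2 ⟨hp, Finset.mem_erase.2 ⟨ha, Finset.mem_univ _⟩⟩, h2.symm⟩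
    have h2 := (Finset.card_le_card h1).trans Finset.card_image_le
    rw [Finset.card_product, Finset.card_erase_of_mem (Finset.mem_univ _),
      Finset.card_erase_of_mem (Finset.mem_univ _), Finset.card_univ, Finset.card_univ, ← hq] at h2
    omega
  -- for a good direction, the lines of the plane meet X only on l
  have hplane : ∀ (l : E × E) (η : E), G l η → ∀ (a b : F), ∀ p ∈ X,
      p.2 = (l.1 + a • η) + p.1 • (l.2 + b • η) → a + p.1 * b = 0 ∧ p.2 = l.1 + p.1 • l.2 := by
    intro l η hG a b p hp h
    have h1 : p.2 - l.1 - p.1 • l.2 = (a + p.1 * b) • η := by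
      rw [h, smul_add, add_smul, mul_smul]; abel
    have h2 := hG p hp _ h1
    rw [h2, zero_smul] at h1
    refine ⟨h2, ?_⟩
    rw [sub_sub, sub_eq_zero] at h1
    exact h1
  -- the key congruence: sum over the class b
  have hcls : ∀ (l : E × E) (η : E), lineFn F K l ∉ SB → G l η → ∀ b : F,
      ∑ a : F, lineFn F K (l.1 + a • η, l.2 + b • η) ∉ SB := by
    intro l η hl hG b h
    rw [sum_parallel, ← Finset.add_sum_erase _ _ (Finset.mem_univ (0 : F))] at h
    have h1 : ∑ a ∈ Finset.univ.erase (0 : F), lineFn F K (l.1 + a • η, l.2) ∈ SB := by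
      refine SB.sum_mem fun a ha => ?_
      by_contra h2
      obtain ⟨p, hp, h3⟩ := hmeet _ h2
      have h4 := hplane l η hG a 0 p hp (by simpa using h3)
      rw [mul_zero, add_zero] at h4
      exact (Finset.mem_erase.1 ha).1 h4.1
    have h2 := (Submodule.add_mem_iff_left SB h1).1 h
    rw [zero_smul, add_zero] at h2
    exact hl h2
  -- step 1: a line outside the span meeting X in one point
  obtain ⟨l, P, hl, hPX, hPl, honly⟩ : ∃ (l : E × E) (P : F × E), lineFn F K l ∉ SB ∧ P ∈ X ∧
      P.2 = l.1 + P.1 • l.2 ∧ ∀ p ∈ X, p.2 = l.1 + p.1 • l.2 → p = P := by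
    obtain ⟨η, hη, hG⟩ := hgood l0
    have h1 := hcls l0 η hl0 hG 1
    obtain ⟨a, ha⟩ : ∃ a : F, lineFn F K (l0.1 + a • η, l0.2 + (1 : F) • η) ∉ SB := by
      by_contra hcon
      push Not at hcon
      exact h1 (SB.sum_mem fun a _ => hcon a)
    obtain ⟨P, hPX, hP⟩ := hmeet _ ha
    refine ⟨_, P, ha, hPX, hP, ?_⟩
    intro p hp hpl
    obtain ⟨h2, h3⟩ := hplane l0 η hG a 1 p hp hpl
    obtain ⟨h4, h5⟩ := hplane l0 η hG a 1 P hPX hP
    have h6 : p.1 = P.1 := by
      rw [mul_one] at h2 h4
      exact add_left_cancel (h2.trans h4.symm)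
    exact Prod.ext h6 (by rw [h3, h5, h6])
  -- step 2: lines in the span through P
  have hstep : ∀ d' : E, lineFn F K (P.2 - P.1 • d', d') ∈ SB →
      ∃ p ∈ X.erase P, ∃ a : F, a ≠ 0 ∧ d' = l.2 + a • (p.2 - l.1 - p.1 • l.2) := by
    intro d' hd'
    by_cases hη : d' - l.2 = 0
    · exfalso
      apply hl
      have h1 : d' = l.2 := sub_eq_zero.1 hη
      have h2 : ((P.2 - P.1 • d', d') : E × E) = l := by
        rw [h1]
        refine Prod.ext ?_ rfl
        simp only
        rw [hPl, add_sub_cancel_right]
      rwa [h2] at hd'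
    · have hnG : ¬ G l (d' - l.2) := by
        intro hG
        have h1 := hcls l (d' - l.2) hl hG 1
        apply h1
        refine SB.sum_mem fun a _ => ?_
        by_contra h2
        obtain ⟨p, hp, h3⟩ := hmeet _ h2
        obtain ⟨h4, h5⟩ := hplane l (d' - l.2) hG a 1 p hp h3
        have h6 := honly p hp h5
        subst h6
        apply h2
        rw [mul_one] at h4
        have h7 : ((l.1 + a • (d' - l.2), l.2 + (1 : F) • (d' - l.2)) : E × E) = (p.2 - p.1 • d', d') := by
          refine Prod.ext ?_ ?_
          · simp only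
            rw [eq_neg_of_add_eq_zero_left h4, hPl, neg_smul, smul_sub]; abel
          · simp only
            rw [one_smul]; abel
        rw [h7]; exact hd'
      obtain ⟨p, hp, h1, a, ha, h2⟩ := hbad l _ hη hnG
      refine ⟨p, Finset.mem_erase.2 ⟨?_, hp⟩, a, ha, ?_⟩
      · intro h; rw [h] at h1; exact h1 hPl
      · rw [← h2]; abel
  -- count
  have hcount : lam ≤ (X.card - 1) * (q - 1) := by
    have h1 : load B P = lam := (Finset.mem_filter.1 hPX).2
    rw [← h1]
    have h2 : (B.filter fun l => P.2 = l.1 + P.1 • l.2) ⊆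
        ((X.erase P) ×ˢ (Finset.univ.erase (0 : F))).image (fun pa =>
          (P.2 - P.1 • (l.2 + pa.2 • (pa.1.2 - l.1 - pa.1.1 • l.2)),
            l.2 + pa.2 • (pa.1.2 - l.1 - pa.1.1 • l.2))) := by
      intro l' hl'
      rw [Finset.mem_filter] at hl'
      have h3 : ((P.2 - P.1 • l'.2, l'.2) : E × E) = l' := by
        refine Prod.ext ?_ rfl
        simp only
        rw [hl'.2, add_sub_cancel_right]
      obtain ⟨p, hp, a, ha, h4⟩ := hstep l'.2 (by
        rw [h3]; exact Submodule.subset_span ⟨l', hl'.1, rfl⟩)
      rw [Finset.mem_image]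
      refine ⟨(p, a), Finset.mem_product.2 ⟨hp, Finset.mem_erase.2 ⟨ha, Finset.mem_univ _⟩⟩, ?_⟩
      simp only
      rw [← h4, h3]
    have h3 := (Finset.card_le_card h2).trans Finset.card_image_le
    rw [Finset.card_product, Finset.card_erase_of_mem hPX,
      Finset.card_erase_of_mem (Finset.mem_univ _), Finset.card_univ] at h3
    exact h3
  have hXpos : 1 ≤ X.card := Finset.card_pos.2 ⟨P, hPX⟩
  have hqpos : 1 ≤ q := Fintype.card_pos
  have h1 : lam * lam ≤ (X.card - 1) * (q - 1) * lam := Nat.mul_le_mul_right _ hcount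
  have h2 : (X.card - 1) * (q - 1) * lam < X.card * q * lam := by
    refine Nat.mul_lt_mul_of_pos_right ?_ hlam0
    calc (X.card - 1) * (q - 1) ≤ (X.card - 1) * q := Nat.mul_le_mul_left _ (Nat.sub_le _ _)
      _ < X.card * q := Nat.mul_lt_mul_of_pos_right (by omega) hqpos
  have h3 : X.card * q * lam ≤ ρ * q ^ 2 := by
    calc X.card * q * lam = X.card * lam * q := by ring
      _ ≤ ρ * q * q := Nat.mul_le_mul_right _ hXcard
      _ = ρ * q ^ 2 := by ring
  have h4 : lam * lam = lam ^ 2 := by ring
  omega

end LowLoad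

end Crest.Agent.R199
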