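import Crest.Agent.R199.Design1
import Crest.Agent.R199.AlgIII
import Crest.Agent.R199.Words

/-! Part III: the group of a design is not residually finite (helper446).
`hemb`: cells embed (this is `Model.embed`).

For a position `x₀` let `K` be its component, `γ y = gw w` for a word `w` from `x₀` to `y`, and
`chain = ∑_{sheets y of K} single (γ y) (code y)`.  Then `δ chain` is the sum over the nodes `n` of `K` of
`∑_{incoming j} single (γ n) e_{cls j}`, so only the dangling node of `K` (if any) contributes. -/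

set_option autoImplicit false

open Finset

namespace Crest.Agent.R199

open Crest.Agent.R199.AlgIII

namespace NotRF1

variable {S Z C : Type} [Fintype S] [Fintype Z] [AddCommGroup C] [Module (ZMod 2) C]

section words
variable (D : SCData S)

theorem gw_append (w w' : List (S × Bool)) : D.gw (w ++ w') = D.gw w * D.gw w' := by
  unfold SCData.gw
  rw [← FreeGroup.mul_mk, map_mul]

theorem gw_invRev (w : List (S × Bool)) : D.gw (FreeGroup.invRev w) = (D.gw w)⁻¹ := by
  unfold SCData.gw
  rw [← FreeGroup.inv_mk, map_inv]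

theorem gw_closed {x : D.Pos} {w : List (S × Bool)} (h : D.A.read w x = some x) : D.gw w = 1 :=
  PresentedGroup.one_of_mem (rels := D.rels) ⟨x, w, h, rfl⟩

theorem gw_eq_of_read {x y : D.Pos} {w w' : List (S × Bool)} (h : D.A.read w x = some y)
    (h' : D.A.read w' x = some y) : D.gw w = D.gw w' := by
  have h1 : D.A.read (w ++ FreeGroup.invRev w') x = some x :=
    D.A.read_append_some.mpr ⟨y, h, D.A.read_invRev h'⟩
  have h2 := gw_closed D h1
  rw [gw_append, gw_invRev] at h2
  exact mul_inv_eq_one.mp h2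

/-- the developing map of the component of `x₀` (value `1` outside) -/
noncomputable def dev (x₀ y : D.Pos) : D.Grp :=
  open Classical in if h : ∃ w, D.A.read w x₀ = some y then D.gw h.choose else 1

theorem dev_eq {x₀ y : D.Pos} {w : List (S × Bool)} (h : D.A.read w x₀ = some y) :
    dev D x₀ y = D.gw w := by
  classical
  have h' : ∃ w, D.A.read w x₀ = some y := ⟨w, h⟩
  rw [dev, dif_pos h']
  exact gw_eq_of_read D h'.choose_spec h

end words

section chain
variable (D : DesignData1 S Z C)

/-- the component -/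
def K (x₀ y : D.Pos) : Prop := ∃ w, D.A.read w x₀ = some y

theorem K_step {x₀ y z : D.Pos} {a : S × Bool} (h : K D x₀ y) (h' : D.A.st a y = some z) :
    K D x₀ z := by
  obtain ⟨w, hw⟩ := h
  exact ⟨w ++ [a], D.A.read_append_some.mpr ⟨y, hw, by rw [D.A.read_singleton]; exact h'⟩⟩

theorem dev_step {x₀ y z : D.Pos} {a : S × Bool} (h : K D x₀ y) (h' : D.A.st a y = some z) :
    dev D.toSCData x₀ z = dev D.toSCData x₀ y * D.toSCData.gw [a] := by
  obtain ⟨w, hw⟩ := h
  have h2 : D.A.read (w ++ [a]) x₀ = some z :=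
    D.A.read_append_some.mpr ⟨y, hw, by rw [D.A.read_singleton]; exact h'⟩
  rw [dev_eq D.toSCData h2, dev_eq D.toSCData hw, gw_append]

/-- class map -/
noncomputable def Dm [DecidableEq Z] (j : S) : C →ₗ[ZMod 2] (Z → ZMod 2) :=
  (LinearMap.single (ZMod 2) (fun _ : Z => ZMod 2) (D.cls j)) ∘ₗ D.ev j

theorem Dm_apply [DecidableEq Z] (j : S) (c : C) : Dm D j c = Pi.single (D.cls j) (D.ev j c) := rfl

/-- codewords of the component -/
noncomputable def ell (x₀ y : D.Pos) : C :=
  open Classical in if K D x₀ y ∧ D.sh y then D.code y else 0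

theorem ev_ell (x₀ y : D.Pos) (j : S) :
    D.ev j (ell D x₀ y) ≠ 0 ↔ K D x₀ y ∧ (D.A.st (j, true) y).isSome := by
  classical
  rw [D.out_sheet, ell]
  by_cases h : K D x₀ y ∧ D.sh y
  · rw [if_pos h]
    constructor
    · intro h1
      exact ⟨h.1, h.2, zmod2_eq_one h1⟩
    · rintro ⟨-, -, h1⟩
      rw [h1]
      decide
  · rw [if_neg h, map_zero]
    constructor
    · intro h1
      exact absurd rfl h1
    · rintro ⟨h1, h2, -⟩
      exact absurd ⟨h1, h2⟩ h

/-- the chain of a component -/
noncomputable def chn [Fintype D.Pos] (x₀ : D.Pos) : D.toSCData.Grp →₀ C :=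
  ∑ y, Finsupp.single (dev D.toSCData x₀ y) (ell D x₀ y)

/-- the boundary of the chain as a sum over the nodes -/
theorem delta_chn [Fintype D.Pos] [DecidableEq Z] (x₀ : D.Pos) :
    delta (fun j => D.toSCData.gw [(j, true)]) (Dm D) (chn D x₀) =
      ∑ n : D.Pos, ∑ j : S, open Classical in
        (if K D x₀ n ∧ (D.A.st (j, false) n).isSome then
          Finsupp.single (dev D.toSCData x₀ n) (Pi.single (D.cls j) 1 : Z → ZMod 2) else 0) := by
  classical
  rw [chn, map_sum]
  simp only [delta_single, Dm_apply]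
  rw [← Finset.sum_product' (s := univ) (t := univ)
    (f := fun (y : D.Pos) (j : S) => Finsupp.single
      (dev D.toSCData x₀ y * D.toSCData.gw [(j, true)])
      (Pi.single (D.cls j) (D.ev j (ell D x₀ y)) : Z → ZMod 2)),
    ← Finset.sum_product' (s := univ) (t := univ)
    (f := fun (n : D.Pos) (j : S) => if K D x₀ n ∧ (D.A.st (j, false) n).isSome then
          Finsupp.single (dev D.toSCData x₀ n) (Pi.single (D.cls j) 1 : Z → ZMod 2) else 0),
    univ_product_univ, ← sum_filter]
  have h1 : ∑ x : D.Pos × S, Finsupp.single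
      (dev D.toSCData x₀ x.1 * D.toSCData.gw [(x.2, true)])
      (Pi.single (D.cls x.2) (D.ev x.2 (ell D x₀ x.1)) : Z → ZMod 2) =
      ∑ x ∈ (univ : Finset (D.Pos × S)).filter
        (fun x => K D x₀ x.1 ∧ (D.A.st (x.2, true) x.1).isSome),
        Finsupp.single (dev D.toSCData x₀ x.1 * D.toSCData.gw [(x.2, true)])
          (Pi.single (D.cls x.2) 1 : Z → ZMod 2) := by
    rw [sum_filter]
    refine sum_congr rfl fun x _ => ?_
    split_ifs with h
    · rw [zmod2_eq_one ((ev_ell D x₀ x.1 x.2).2 h)]
    · have h2 : D.ev x.2 (ell D x₀ x.1) = 0 := by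
        by_contra h3
        exact h ((ev_ell D x₀ x.1 x.2).1 h3)
      rw [h2]
      simp
  rw [h1]
  refine Finset.sum_bij' (fun x _ => ((D.A.st (x.2, true) x.1).getD x.1, x.2))
    (fun x _ => ((D.A.st (x.2, false) x.1).getD x.1, x.2)) ?_ ?_ ?_ ?_ ?_
  · rintro ⟨y, j⟩ hx
    rw [mem_filter] at hx ⊢
    obtain ⟨-, h2, h3⟩ := hx
    simp only at h2 h3
    obtain ⟨n, hn⟩ := Option.isSome_iff_exists.1 h3
    refine ⟨mem_univ _, ?_⟩
    simp only [hn, Option.getD_some]
    have h4 := D.A.symm _ _ _ hn
    simp only [Bool.not_true] at h4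
    exact ⟨K_step D h2 hn, by rw [h4]; rfl⟩
  · rintro ⟨n, j⟩ hx
    rw [mem_filter] at hx ⊢
    obtain ⟨-, h2, h3⟩ := hx
    simp only at h2 h3
    obtain ⟨y, hy⟩ := Option.isSome_iff_exists.1 h3
    refine ⟨mem_univ _, ?_⟩
    simp only [hy, Option.getD_some]
    have h4 := D.A.symm _ _ _ hy
    simp only [Bool.not_false] at h4
    exact ⟨K_step D h2 hy, by rw [h4]; rfl⟩
  · rintro ⟨y, j⟩ hx
    rw [mem_filter] at hx
    obtain ⟨-, h2, h3⟩ := hx
    simp only at h2 h3
    obtain ⟨n, hn⟩ := Option.isSome_iff_exists.1 h3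
    have h4 := D.A.symm _ _ _ hn
    simp only [Bool.not_true] at h4
    simp only [hn, Option.getD_some, h4]
  · rintro ⟨n, j⟩ hx
    rw [mem_filter] at hx
    obtain ⟨-, h2, h3⟩ := hx
    simp only at h2 h3
    obtain ⟨y, hy⟩ := Option.isSome_iff_exists.1 h3
    have h4 := D.A.symm _ _ _ hy
    simp only [Bool.not_false] at h4
    simp only [hy, Option.getD_some, h4]
  · rintro ⟨y, j⟩ hx
    rw [mem_filter] at hx
    obtain ⟨-, h2, h3⟩ := hx
    simp only at h2 h3
    obtain ⟨n, hn⟩ := Option.isSome_iff_exists.1 h3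
    simp only [hn, Option.getD_some]
    rw [dev_step D h2 hn]

/-- two equal classes cancel -/
theorem double_zero [DecidableEq Z] {G : Type*} (g : G) (z : Z) :
    (Finsupp.single g (Pi.single z 1 : Z → ZMod 2)) + Finsupp.single g (Pi.single z 1) = 0 := by
  rw [← Finsupp.single_add]
  have : (Pi.single z 1 : Z → ZMod 2) + Pi.single z 1 = 0 := by
    rw [← Pi.single_add]
    have h : (1 : ZMod 2) + 1 = 0 := by decide
    rw [h]
    simp
  rw [this, Finsupp.single_zero]

/-- the contribution of a node without dangling is `0` -/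
theorem node_zero [DecidableEq Z] (x₀ n : D.Pos) (hn : K D x₀ n → ∀ z, D.dang z ≠ n) :
    (∑ j : S, open Classical in
        (if K D x₀ n ∧ (D.A.st (j, false) n).isSome then
          Finsupp.single (dev D.toSCData x₀ n) (Pi.single (D.cls j) 1 : Z → ZMod 2) else 0)) = 0 := by
  classical
  by_cases hK : K D x₀ n
  · by_cases hs : D.sh n
    · refine Finset.sum_eq_zero fun j _ => ?_
      rw [if_neg]
      rintro ⟨-, h⟩
      obtain ⟨y, hy⟩ := Option.isSome_iff_exists.1 h
      have h4 := D.A.symm _ _ _ hy
      simp only [Bool.not_false] at h4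
      exact D.out_node j y n h4 hs
    · obtain ⟨j, j', hne, hcls, hj⟩ := D.node_in n hs (hn hK)
      rw [← sum_filter]
      have : (univ : Finset S).filter (fun i => K D x₀ n ∧ (D.A.st (i, false) n).isSome) =
          {j, j'} := by
        ext i
        rw [mem_filter, mem_insert, mem_singleton]
        constructor
        · rintro ⟨-, -, h⟩
          exact (hj i).1 h
        · intro h
          exact ⟨mem_univ _, hK, (hj i).2 h⟩
      rw [this, sum_pair hne, hcls, double_zero]
  · refine Finset.sum_eq_zero fun j _ => ?_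
    rw [if_neg]
    rintro ⟨h, -⟩
    exact hK h

theorem delta_chn_dang [Fintype D.Pos] [DecidableEq Z] (z : Z) :
    delta (fun j => D.toSCData.gw [(j, true)]) (Dm D) (chn D (D.dang z)) =
      Finsupp.single 1 (Pi.single z 1) := by
  classical
  rw [delta_chn, Finset.sum_eq_single (D.dang z)]
  · obtain ⟨j, hj, hj'⟩ := D.dang_in z
    have hK : K D (D.dang z) (D.dang z) := ⟨[], rfl⟩
    rw [← sum_filter]
    have : (univ : Finset S).filter
        (fun i => K D (D.dang z) (D.dang z) ∧ (D.A.st (i, false) (D.dang z)).isSome) = {j} := by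
      ext i
      rw [mem_filter, mem_singleton]
      constructor
      · rintro ⟨-, -, h⟩
        exact (hj' i).1 h
      · intro h
        exact ⟨mem_univ _, hK, (hj' i).2 h⟩
    rw [this, sum_singleton, hj]
    have h1 : dev D.toSCData (D.dang z) (D.dang z) = 1 := by
      have h2 : D.A.read [] (D.dang z) = some (D.dang z) := rfl
      rw [dev_eq D.toSCData h2]
      exact gw_closed D.toSCData h2
    rw [h1]
  · intro n _ hn
    apply node_zero
    rintro ⟨w, hw⟩ z' rfl
    exact hn (by rw [D.dang_sep z z' w hw])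
  · intro h
    exact absurd (mem_univ _) h

theorem delta_chn_closed [Fintype D.Pos] [DecidableEq Z] (xc : D.Pos)
    (h : ∀ w z, D.A.read w xc ≠ some (D.dang z)) :
    delta (fun j => D.toSCData.gw [(j, true)]) (Dm D) (chn D xc) = 0 := by
  classical
  rw [delta_chn]
  refine Finset.sum_eq_zero fun n _ => ?_
  apply node_zero
  rintro ⟨w, hw⟩ z rfl
  exact h w z hw

end chain

end NotRF1

open NotRF1

theorem not_residuallyFinite_of_design1 {S Z C : Type} [Fintype S] [Fintype Z] [AddCommGroup C]
    [Module (ZMod 2) C] (D : DesignData1 S Z C)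
    (hemb : ∀ (w : List (S × Bool)) (x y : D.Pos), D.A.read w x = some y →
      D.toSCData.gw w = 1 → y = x) :
    ¬ Group.ResiduallyFinite D.toSCData.Grp := by
  classical
  have := D.finPos
  have := Fintype.ofFinite D.Pos
  have := D.finC
  obtain ⟨xc, hxs, hxc, hcl⟩ := D.closed
  refine not_RF (K := ZMod 2) (W := Z → ZMod 2) (by rw [D.rank, Module.finrank_pi])
    (fun j => D.toSCData.gw [(j, true)]) (Dm D) ?_ (chn D xc) ?_ (delta_chn_closed D xc hcl)
  · intro w
    refine ⟨∑ z, w z • chn D (D.dang z), ?_⟩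
    simp only [map_sum, map_smul, delta_chn_dang]
    have : w = ∑ z, w z • (Pi.single z 1 : Z → ZMod 2) := by
      ext z
      rw [Finset.sum_apply, Finset.sum_eq_single z]
      · simp
      · intro b _ hb
        simp [Pi.single_eq_of_ne hb.symm]
      · intro h
        exact absurd (mem_univ _) h
    conv_rhs => rw [this, Finsupp.single_finsetSum]
    simp only [Finsupp.smul_single]
  · intro h0
    have h1 := congrArg (fun f => f 1) h0
    rw [chn] at h1
    simp only [Finsupp.coe_zero, Pi.zero_apply] at h1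
    rw [Finsupp.finsetSum_apply, Finset.sum_eq_single xc] at h1
    · have h2 : D.A.read [] xc = some xc := rfl
      rw [dev_eq D.toSCData h2, gw_closed D.toSCData h2, Finsupp.single_eq_same, ell,
        if_pos ⟨⟨[], rfl⟩, hxs⟩] at h1
      exact hxc h1
    · intro y _ hy
      by_cases hK : K D xc y
      · obtain ⟨w, hw⟩ := hK
        apply Finsupp.single_eq_of_ne
        rw [dev_eq D.toSCData hw]
        intro h
        exact hy (hemb w xc y hw h.symm)
      · rw [ell, if_neg (fun h => hK h.1), Finsupp.single_zero, Finsupp.coe_zero, Pi.zero_apply]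
    · intro h
      exact absurd (mem_univ _) h

end Crest.Agent.R199
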