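import Crest.Agent.R199.Limit
import Crest.Agent.R199.Hyp
import Crest.Agent.R199.Torsion
import Crest.Agent.R199.NotRF1
import Crest.Agent.R199.Build1
import Crest.Agent.R199.DesignExists1

/-! Row 199, final assembly. -/

set_option autoImplicit false

namespace Crest.Agent.R199

theorem main : ∃ (G : Type) (_ : Group G),
      (∀ g : G, IsOfFinOrder g → g = 1) ∧ Crest.GroupTheory.IsHyperbolicGroup G ∧
        ¬ Group.ResiduallyFinite G := by
  obtain ⟨Z, C, W, iZ, iW, iC, iM, ⟨Γ⟩⟩ := exists_gadgetSys1 150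
  obtain ⟨D⟩ := design_of_gadgets1 Γ
  obtain ⟨M⟩ := exists_model D.toSCData
  exact ⟨D.toSCData.Grp, inferInstance, fun g hg => torsionFree D.toSCData M g hg,
    hyperbolic D.toSCData M, not_residuallyFinite_of_design1 D M.embed⟩

end Crest.Agent.R199
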