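import Crest.Agent.R199.Words
import Crest.Agent.R199.AlgIII

/-! Part III-b: the group of design data with a model is not residually finite.

For `z` with `dang z = some d` let `ρ z = ∑ over the sheets x in the component of d of
single (gw w) (code x)` where `w` is any word from `d` to `x` (well defined by the relators).
For `dang z = none` use `triv`: `ρ z = single (b j)⁻¹ c`, `b j = gw [(j, true)]`.
Boundary: every node of the component has two incoming points of the same class, except `d`.
Non-injectivity: take `c = code xc`; the cells `(b j, dang (cls j))`, `ev j c = 1`, are pairwise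
distinct (`embed`, `dang_sep`), two distinct cells share at most `β` elements (`near`), so by `big`
some sheet of the cell of `j₀` is in no other one. -/

set_option autoImplicit false

namespace Crest.Agent.R199

open Finset AlgIII

namespace NRD

section words

variable {S : Type} (D : SCData S)

theorem gw_nil : D.gw [] = 1 := by
  show PresentedGroup.mk D.rels 1 = 1
  exact map_one _

theorem gw_append (u w : List (S × Bool)) : D.gw (u ++ w) = D.gw u * D.gw w := by
  show PresentedGroup.mk D.rels (FreeGroup.mk (u ++ w)) = _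
  rw [← FreeGroup.mul_mk, map_mul]
  rfl

theorem gw_invRev (w : List (S × Bool)) : D.gw (FreeGroup.invRev w) = (D.gw w)⁻¹ := by
  show PresentedGroup.mk D.rels (FreeGroup.mk (FreeGroup.invRev w)) = _
  rw [← FreeGroup.inv_mk, map_inv]
  rfl

theorem gw_neg (j : S) : D.gw [(j, false)] = (D.gw [(j, true)])⁻¹ := by
  rw [← gw_invRev]
  rfl

theorem gw_closed {x : D.Pos} {w : List (S × Bool)} (h : D.A.read w x = some x) :
    D.gw w = 1 := by
  show PresentedGroup.mk D.rels (FreeGroup.mk w) = 1
  apply (PresentedGroup.mk_eq_one_iff).2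
  exact Subgroup.subset_normalClosure ⟨x, w, h, rfl⟩

theorem gw_unique {x y : D.Pos} {w w' : List (S × Bool)} (h : D.A.read w x = some y)
    (h' : D.A.read w' x = some y) : D.gw w = D.gw w' := by
  have h1 : D.A.read (w ++ FreeGroup.invRev w') x = some x := by
    rw [PAct.read_append_some]
    exact ⟨y, h, D.A.read_invRev h'⟩
  have h2 := gw_closed D h1
  rw [gw_append, gw_invRev, mul_inv_eq_one] at h2
  exact h2

/-- The component of a position. -/
def comp (d : D.Pos) : Set D.Pos := {x | ∃ w, D.A.read w d = some x}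

open Classical in
/-- The group element of a position of the component. -/
noncomputable def pos (d x : D.Pos) : D.Grp :=
  if h : ∃ w, D.A.read w d = some x then D.gw h.choose else 1

theorem pos_eq {d x : D.Pos} {w : List (S × Bool)} (h : D.A.read w d = some x) :
    pos D d x = D.gw w := by
  have h' : ∃ w, D.A.read w d = some x := ⟨w, h⟩
  rw [pos, dif_pos h']
  exact gw_unique D h'.choose_spec h

theorem pos_self (d : D.Pos) : pos D d d = 1 := by
  rw [pos_eq D (w := []) rfl, gw_nil]

theorem comp_step {d x y : D.Pos} {a : S × Bool} (hx : x ∈ comp D d)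
    (h : D.A.st a x = some y) : y ∈ comp D d ∧ pos D d y = pos D d x * D.gw [a] := by
  obtain ⟨w, hw⟩ := hx
  have h1 : D.A.read (w ++ [a]) d = some y := by
    rw [PAct.read_append_some]
    exact ⟨x, hw, by rw [PAct.read_singleton]; exact h⟩
  refine ⟨⟨_, h1⟩, ?_⟩
  rw [pos_eq D h1, pos_eq D hw, gw_append]

theorem comp_self (d : D.Pos) : d ∈ comp D d := ⟨[], rfl⟩

end words

section embed

variable {S : Type} {D : SCData S} (M : D.Model)

include M in
theorem pos_inj {d x y : D.Pos} (hx : x ∈ comp D d) (hy : y ∈ comp D d)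
    (h : pos D d x = pos D d y) : x = y := by
  obtain ⟨w, hw⟩ := hx
  obtain ⟨w', hw'⟩ := hy
  rw [pos_eq D hw, pos_eq D hw'] at h
  have h1 : D.A.read (FreeGroup.invRev w ++ w') x = some y := by
    rw [PAct.read_append_some]
    exact ⟨d, D.A.read_invRev hw, hw'⟩
  refine (M.embed _ x y h1 ?_).symm
  rw [gw_append, gw_invRev, h, inv_mul_cancel]

end embed

section chain

variable {S Z C : Type} [Fintype S] [Fintype Z] [AddCommGroup C] [Module (ZMod 2) C]
variable (D : DesignData S Z C)

/-- The letter of `j`. -/
noncomputable def bt (j : S) : D.toSCData.Grp := D.toSCData.gw [(j, true)]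

open Classical in
/-- The component of the twisted class map. -/
noncomputable def Dm (j : S) : C →ₗ[ZMod 2] (Z → ZMod 2) :=
  (LinearMap.single (ZMod 2) (fun _ : Z => ZMod 2) (D.cls j)) ∘ₗ (D.ev j)

open Classical in
theorem Dm_apply (j : S) (c : C) : Dm D j c = Pi.single (D.cls j) (D.ev j c) := rfl

theorem st_true_iff {x y : D.Pos} {j : S} :
    D.A.st (j, true) x = some y ↔ D.A.st (j, false) y = some x :=
  ⟨fun h => D.A.symm _ _ _ h, fun h => D.A.symm _ _ _ h⟩

open Classical in
/-- The chain of a gadget. -/
noncomputable def gch [Fintype D.Pos] (d : D.Pos) : D.toSCData.Grp →₀ C :=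
  ∑ x ∈ univ.filter (fun x => D.sh x ∧ x ∈ comp D.toSCData d),
    Finsupp.single (pos D.toSCData d x) (D.code x)

theorem two_single {G W : Type*} [AddCommGroup W] [Module (ZMod 2) W] (g : G) (w : W) :
    Finsupp.single g w + Finsupp.single g w = 0 := by
  rw [← Finsupp.single_add]
  have : w + w = 0 := by
    have h : (1 : ZMod 2) + 1 = 0 := by decide
    rw [← one_smul (ZMod 2) w, ← add_smul, h, zero_smul]
  rw [this, Finsupp.single_zero]

open Classical in
theorem delta_gch [Fintype D.Pos] (z : Z) (d : D.Pos) (hd : D.dang z = some d) :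
    delta (bt D) (Dm D) (gch D d) = Finsupp.single 1 (Pi.single z 1) := by
  set cd : Finset D.Pos := univ.filter (fun x => x ∈ comp D.toSCData d) with hcd
  have hmem : ∀ x, x ∈ cd ↔ x ∈ comp D.toSCData d := by intro x; simp [hcd]
  set T : D.Pos → S → (D.toSCData.Grp →₀ (Z → ZMod 2)) := fun y j =>
    Finsupp.single (pos D.toSCData d y) (Pi.single (D.cls j) 1) with hT
  -- the boundary as a sum over edges
  have h1 : delta (bt D) (Dm D) (gch D d) =
      ∑ x ∈ cd, ∑ j, ∑ y ∈ cd, if D.A.st (j, true) x = some y then T y j else 0 := by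
    rw [gch, map_sum]
    have h2 : ∀ x ∈ univ.filter (fun x => D.sh x ∧ x ∈ comp D.toSCData d),
        delta (bt D) (Dm D) (Finsupp.single (pos D.toSCData d x) (D.code x)) =
        ∑ j, ∑ y ∈ cd, if D.A.st (j, true) x = some y then T y j else 0 := by
      intro x hx
      rw [mem_filter] at hx
      rw [delta_single]
      refine sum_congr rfl fun j _ => ?_
      rw [Dm_apply]
      by_cases hj : D.ev j (D.code x) = 1
      · obtain ⟨y, hy⟩ := Option.isSome_iff_exists.1 ((D.out_sheet j x).2 ⟨hx.2.1, hj⟩)
        obtain ⟨hyc, hyp⟩ := comp_step D.toSCData hx.2.2 hy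
        rw [sum_eq_single y]
        · rw [if_pos hy, hT, hj]
          simp only
          rw [hyp]
          rfl
        · intro y' _ hy'
          rw [if_neg]
          intro h
          rw [h] at hy
          exact hy' (Option.some.inj hy)
        · intro h
          exact absurd ((hmem y).2 hyc) h
      · have hj0 : D.ev j (D.code x) = 0 := by
          by_contra h
          exact hj (zmod2_eq_one h)
        rw [hj0, Pi.single_zero, Finsupp.single_zero, sum_eq_zero]
        intro y _
        rw [if_neg]
        intro h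
        exact hj ((D.out_sheet j x).1 (by rw [h]; rfl)).2
    rw [sum_congr rfl h2]
    refine sum_subset_zero_on_sdiff ?_ ?_ (fun _ _ => rfl)
    · intro x hx
      rw [mem_filter] at hx
      exact (hmem x).2 hx.2.2
    · intro x hx
      obtain ⟨hx1, hx2⟩ := mem_sdiff.1 hx
      refine sum_eq_zero fun j _ => sum_eq_zero fun y _ => ?_
      rw [if_neg]
      intro h
      apply hx2
      exact mem_filter.2 ⟨mem_univ _, ((D.out_sheet j x).1 (by rw [h]; rfl)).1, (hmem x).1 hx1⟩
  rw [h1]
  -- swap
  have h3 : ∑ x ∈ cd, ∑ j, ∑ y ∈ cd, (if D.A.st (j, true) x = some y then T y j else 0) =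
      ∑ y ∈ cd, ∑ j, if (D.A.st (j, false) y).isSome then T y j else 0 := by
    rw [sum_comm]
    conv_rhs => rw [sum_comm]
    refine sum_congr rfl fun j _ => ?_
    rw [sum_comm]
    refine sum_congr rfl fun y hy => ?_
    by_cases h : (D.A.st (j, false) y).isSome
    · rw [if_pos h]
      obtain ⟨x, hx⟩ := Option.isSome_iff_exists.1 h
      rw [sum_eq_single x]
      · rw [if_pos ((st_true_iff D).2 hx)]
      · intro x' _ hx'
        rw [if_neg]
        intro h'
        rw [(st_true_iff D).1 h'] at hx
        exact hx' (Option.some.inj hx)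
      · intro h'
        exact absurd ((hmem x).2 (comp_step D.toSCData ((hmem y).1 hy) hx).1) h'
    · rw [if_neg h]
      refine sum_eq_zero fun x _ => ?_
      rw [if_neg]
      intro h'
      apply h
      rw [(st_true_iff D).1 h']
      rfl
  rw [h3]
  rw [sum_eq_single d]
  · obtain ⟨j, hjz, hj⟩ := D.dang_in z d hd
    rw [sum_eq_single j]
    · rw [if_pos ((hj j).2 rfl), hT]
      simp only
      rw [pos_self, hjz]
    · intro i _ hi
      rw [if_neg]
      intro h
      exact hi ((hj i).1 h)
    · intro h
      exact absurd (mem_univ _) h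
  · intro y hy hyd
    by_cases hs : D.sh y
    · refine sum_eq_zero fun j _ => ?_
      rw [if_neg]
      intro h
      obtain ⟨x, hx⟩ := Option.isSome_iff_exists.1 h
      exact D.out_node j x y ((st_true_iff D).2 hx) hs
    · have hnd : ∀ z', D.dang z' ≠ some y := by
        intro z' hz'
        obtain ⟨w, hw⟩ := (hmem y).1 hy
        have := D.dang_sep z z' d y w hd hz' hw
        rw [← this, hd] at hz'
        exact hyd (Option.some.inj hz').symm
      obtain ⟨j, j', hjj, hc, hin⟩ := D.node_in y hs hnd
      have h4 : ∑ i, (if (D.A.st (i, false) y).isSome then T y i else 0) = T y j + T y j' := by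
        rw [← sum_pair hjj]
        symm
        rw [← sum_filter]
        apply sum_congr _ (fun _ _ => rfl)
        ext i
        rw [mem_insert, mem_singleton, mem_filter]
        constructor
        · intro h
          exact ⟨mem_univ _, (hin i).2 h⟩
        · intro h
          exact (hin i).1 h.2
      rw [h4, hT]
      simp only
      rw [hc]
      exact two_single _ _
  · intro h
    exact absurd ((hmem d).2 (comp_self _ d)) h

end chain

section good

variable {S Z C : Type} [Fintype S] [Fintype Z] [AddCommGroup C] [Module (ZMod 2) C]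
variable {D : DesignData S Z C} (M : D.toSCData.Model)

include M in
/-- Two flags of one sheet have different letters in the group. -/
theorem bt_ne {x : D.Pos} {j j' : S} (hs : D.sh x) (hj : D.ev j (D.code x) = 1)
    (hj' : D.ev j' (D.code x) = 1) (hne : j' ≠ j) : bt D j ≠ bt D j' := by
  intro h
  obtain ⟨y1, hy1⟩ := Option.isSome_iff_exists.1 ((D.out_sheet j x).2 ⟨hs, hj⟩)
  obtain ⟨y2, hy2⟩ := Option.isSome_iff_exists.1 ((D.out_sheet j' x).2 ⟨hs, hj'⟩)
  have h1 : D.A.read [(j, false), (j', true)] y1 = some y2 := by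
    rw [PAct.read_cons, (st_true_iff D).1 hy1]
    simp only [Option.bind_some]
    rw [PAct.read_singleton, hy2]
  have h2 : D.toSCData.gw [(j, false), (j', true)] = 1 := by
    have : D.toSCData.gw ([(j, false)] ++ [(j', true)]) = (bt D j)⁻¹ * bt D j' := by
      rw [gw_append, gw_neg]
      rfl
    rw [h, inv_mul_cancel] at this
    exact this
  have h3 : y2 = y1 := M.embed _ _ _ h1 h2
  rw [h3] at hy2
  have h4 : D.A.read [(j, true), (j', false)] x = some x := by
    rw [PAct.read_cons, hy1]
    simp only [Option.bind_some]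
    rw [PAct.read_singleton, (st_true_iff D).1 hy2]
  refine D.girth x [(j, true), (j', false)] ?_ (by simp) ?_ h4
  · rw [FreeGroup.isReduced_cons_cons]
    refine ⟨?_, FreeGroup.IsReduced.singleton⟩
    intro h5
    exact absurd h5.symm hne
  · have := D.two_le_m
    simp only [List.length_cons, List.length_nil]
    omega

theorem same_of_comp {g : D.toSCData.Grp} {d y : D.Pos} (hy : y ∈ comp D.toSCData d) :
    D.toSCData.Same g d (g * pos D.toSCData d y) y := by
  obtain ⟨w, hw⟩ := hy
  exact ⟨w, hw, by rw [pos_eq D.toSCData hw]⟩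

include M in
theorem ne_of_pos {x : D.Pos} {j j₀ : S} (hs : D.sh x) (hj : D.ev j (D.code x) = 1)
    (hj₀ : D.ev j₀ (D.code x) = 1) (hne : j ≠ j₀) {d d' y y' : D.Pos}
    (hd : D.dang (D.cls j₀) = some d) (hd' : D.dang (D.cls j) = some d')
    (hy : y ∈ comp D.toSCData d) (hy' : y' ∈ comp D.toSCData d')
    (h : bt D j₀ * pos D.toSCData d y = bt D j * pos D.toSCData d' y') : y' ≠ y := by
  intro hyy
  subst hyy
  obtain ⟨w, hw⟩ := hy
  obtain ⟨w', hw'⟩ := hy'
  have h1 : D.A.read (w ++ FreeGroup.invRev w') d = some d' := by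
    rw [PAct.read_append_some]
    exact ⟨_, hw, D.A.read_invRev hw'⟩
  have h2 := D.dang_sep _ _ _ _ _ hd hd' h1
  rw [← h2, hd] at hd'
  have h3 := Option.some.inj hd'
  subst h3
  exact bt_ne M hs hj₀ hj hne (mul_right_cancel h)

include M in
theorem exists_good (e : S → D.toSCData.Grp) {xc : D.Pos} {j₀ : S} {d : D.Pos} {β : ℕ}
    (hxc : D.sh xc)
    (hj₀ : D.ev j₀ (D.code xc) = 1) (hd : D.dang (D.cls j₀) = some d)
    (hβ : ∀ x₀ : D.Pos, {y : D.Pos | ∃ w : List (S × Bool), w.length ≤ 6 * D.m ∧
      D.A.read w x₀ = some y}.ncard ≤ β)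
    (hbig : {j : S | D.ev j (D.code xc) = 1}.ncard * β + 1 <
      {y : D.Pos | D.sh y ∧ ∃ w : List (S × Bool), D.A.read w d = some y}.ncard) :
    ∃ y, D.sh y ∧ y ∈ comp D.toSCData d ∧ bt D j₀ * pos D.toSCData d y ≠ 1 ∧
      ∀ j, D.ev j (D.code xc) = 1 → j ≠ j₀ → (∀ d', D.dang (D.cls j) = some d' →
        ∀ y' ∈ comp D.toSCData d',
          bt D j₀ * pos D.toSCData d y ≠ bt D j * pos D.toSCData d' y') ∧
        (D.dang (D.cls j) = none → bt D j₀ * pos D.toSCData d y ≠ e j) := by
  classical
  have : Finite D.Pos := D.finPos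
  by_contra hcon
  set Bad : S → Set D.Pos := fun j => {y | y ∈ comp D.toSCData d ∧ ((∃ d',
    D.dang (D.cls j) = some d' ∧ ∃ y' ∈ comp D.toSCData d',
      bt D j₀ * pos D.toSCData d y = bt D j * pos D.toSCData d' y') ∨
      (D.dang (D.cls j) = none ∧ bt D j₀ * pos D.toSCData d y = e j))} with hBad
  have hβ1 : 1 ≤ β := by
    refine le_trans ?_ (hβ xc)
    rw [Nat.one_le_iff_ne_zero, Ne, Set.ncard_eq_zero (Set.toFinite _),
      Set.eq_empty_iff_forall_notMem]
    intro h
    exact h xc ⟨[], Nat.zero_le _, rfl⟩
  set Bad1 : Set D.Pos := {y | y ∈ comp D.toSCData d ∧ bt D j₀ * pos D.toSCData d y = 1}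
    with hBad1
  have hB1 : Bad1.ncard ≤ 1 := by
    rw [Set.ncard_le_one]
    rintro a ⟨ha, ha'⟩ b ⟨hb, hb'⟩
    exact pos_inj M ha hb (mul_left_cancel (ha'.trans hb'.symm))
  have hBj : ∀ j, D.ev j (D.code xc) = 1 → j ≠ j₀ → (Bad j).ncard ≤ β := by
    intro j hj hne
    rcases hdj : D.dang (D.cls j) with _ | d'
    · refine le_trans ?_ hβ1
      rw [Set.ncard_le_one]
      have hb : ∀ y ∈ Bad j, y ∈ comp D.toSCData d ∧ bt D j₀ * pos D.toSCData d y = e j := by
        rintro y ⟨hy, ⟨d', hd', -⟩ | ⟨-, h⟩⟩
        · rw [hdj] at hd'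
          cases hd'
        · exact ⟨hy, h⟩
      intro a ha b hb'
      exact pos_inj M (hb a ha).1 (hb b hb').1
        (mul_left_cancel ((hb a ha).2.trans (hb b hb').2.symm))
    · have hdata : ∀ y ∈ Bad j, ∃ y', y' ∈ comp D.toSCData d' ∧
          bt D j₀ * pos D.toSCData d y = bt D j * pos D.toSCData d' y' ∧ y' ≠ y := by
        rintro y ⟨hy, ⟨d'', hd'', y', hy', h⟩ | ⟨h0, -⟩⟩
        swap
        · rw [hdj] at h0
          cases h0
        rw [hdj] at hd''
        have := Option.some.inj hd''
        subst this
        exact ⟨y', hy', h, ne_of_pos M hxc hj hj₀ hne hd hdj hy hy' h⟩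
      rcases le_total (M.cl (bt D j) d') (M.cl (bt D j₀) d) with hle | hle
      · obtain ⟨x₀, hx₀⟩ := M.near (bt D j₀) d
        refine le_trans (Set.ncard_le_ncard ?_ (Set.toFinite _)) (hβ x₀)
        intro y hy
        obtain ⟨y', hy', h, hne'⟩ := hdata y hy
        have s1 := same_of_comp (D := D) (g := bt D j₀) hy.1
        have s2 := same_of_comp (D := D) (g := bt D j) hy'
        refine hx₀ _ y y' s1 hne' ?_
        rw [M.cl_same _ _ _ _ s1, h, M.cl_same _ _ _ _ s2]
        exact hle
      · obtain ⟨x₀, hx₀⟩ := M.near (bt D j) d'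
        refine le_trans ?_ (hβ x₀)
        choose! f hf1 hf2 hf3 using hdata
        refine Set.ncard_le_ncard_of_injOn f ?_ ?_ (Set.toFinite _)
        · intro y hy
          have s1 := same_of_comp (D := D) (g := bt D j₀) hy.1
          have s2 := same_of_comp (D := D) (g := bt D j) (hf1 y hy)
          refine hx₀ _ (f y) y s2 (hf3 y hy).symm ?_
          rw [M.cl_same _ _ _ _ s2, ← hf2 y hy, M.cl_same _ _ _ _ s1]
          exact hle
        · intro a ha b hb hab
          have h1 := hf2 a ha
          have h2 := hf2 b hb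
          rw [hab, ← h2] at h1
          exact pos_inj M ha.1 hb.1 (mul_left_cancel h1)
  have hcover : {y : D.Pos | D.sh y ∧ ∃ w : List (S × Bool), D.A.read w d = some y} ⊆
      Bad1 ∪ ⋃ j ∈ (univ.filter (fun j => D.ev j (D.code xc) = 1)).erase j₀, Bad j := by
    rintro y ⟨hs, hy⟩
    by_cases h1 : bt D j₀ * pos D.toSCData d y = 1
    · exact Or.inl ⟨hy, h1⟩
    · right
      by_contra hnot
      apply hcon
      refine ⟨y, hs, hy, h1, fun j hj hne => ⟨fun d' hd' y' hy' h => hnot ?_,
        fun h0 h => hnot ?_⟩⟩
      · simp only [Set.mem_iUnion]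
        exact ⟨j, mem_erase.2 ⟨hne, mem_filter.2 ⟨mem_univ _, hj⟩⟩, hy,
          Or.inl ⟨d', hd', y', hy', h⟩⟩
      · simp only [Set.mem_iUnion]
        exact ⟨j, mem_erase.2 ⟨hne, mem_filter.2 ⟨mem_univ _, hj⟩⟩, hy, Or.inr ⟨h0, h⟩⟩
  have hJ : {j : S | D.ev j (D.code xc) = 1}.ncard =
      (univ.filter (fun j => D.ev j (D.code xc) = 1)).card := by
    rw [← Set.ncard_coe_finset]
    congr 1
    ext j
    simp
  have hj₀mem : j₀ ∈ univ.filter (fun j => D.ev j (D.code xc) = 1) :=
    mem_filter.2 ⟨mem_univ _, hj₀⟩
  have hle : {y : D.Pos | D.sh y ∧ ∃ w : List (S × Bool), D.A.read w d = some y}.ncard ≤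
      1 + ((univ.filter (fun j => D.ev j (D.code xc) = 1)).erase j₀).card * β := by
    refine le_trans (Set.ncard_le_ncard hcover (Set.toFinite _)) ?_
    refine le_trans (Set.ncard_union_le _ _) (add_le_add hB1 ?_)
    have : ∀ s : Finset S, (∀ j ∈ s, (Bad j).ncard ≤ β) →
        (⋃ j ∈ s, Bad j).ncard ≤ s.card * β := by
      intro s
      induction s using Finset.induction_on with
      | empty => intro _; simp
      | insert a s ha ih =>
        intro h
        rw [Finset.set_biUnion_insert, card_insert_of_notMem ha, add_mul, one_mul, add_comm]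
        exact le_trans (Set.ncard_union_le _ _) (add_le_add (h a (mem_insert_self _ _))
          (ih fun j hj => h j (mem_insert_of_mem hj)))
    apply this
    intro j hj
    rw [mem_erase, mem_filter] at hj
    exact hBj j hj.2.2 hj.1
  rw [card_erase_of_mem hj₀mem, ← hJ] at hle
  have h5 : ({j : S | D.ev j (D.code xc) = 1}.ncard - 1) * β ≤
      {j : S | D.ev j (D.code xc) = 1}.ncard * β :=
    Nat.mul_le_mul_right _ (Nat.sub_le _ _)
  omega

end good

end NRD

open NRD

variable {S Z C : Type} [Fintype S] [Fintype Z] [AddCommGroup C] [Module (ZMod 2) C]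

theorem not_residuallyFinite_of_design (D : DesignData S Z C) (M : D.toSCData.Model) :
    ¬ Group.ResiduallyFinite D.toSCData.Grp := by
  classical
  have : Finite D.Pos := D.finPos
  have hfin : Fintype D.Pos := Fintype.ofFinite _
  obtain ⟨xc, j₀, d, β, hxc, hj₀, hd, hβ, hbig⟩ := D.big
  have : Nonempty Z := ⟨D.cls j₀⟩
  have : Module.Finite (ZMod 2) C := Module.finite_of_finrank_pos (by
    rw [D.rank]; exact Fintype.card_pos)
  -- the section
  have hsec : ∀ z : Z, ∃ ξ : D.toSCData.Grp →₀ C,
      delta (bt D) (Dm D) ξ = Finsupp.single 1 (Pi.single z 1) ∧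
      (∀ d', D.dang z = some d' → ξ = gch D d') ∧
      (D.dang z = none → ∃ (c : C) (g : D.toSCData.Grp), ξ = Finsupp.single g c) := by
    intro z
    cases hz : D.dang z with
    | none =>
      obtain ⟨c, j, hj, hc⟩ := D.triv z hz
      refine ⟨Finsupp.single (bt D j)⁻¹ c, ?_, ?_, ?_⟩
      · rw [delta_single, sum_eq_single j]
        · rw [inv_mul_cancel, Dm_apply, (hc j).2 rfl, hj]
        · intro i _ hi
          have : D.ev i c = 0 := by
            by_contra h
            exact hi ((hc i).1 (zmod2_eq_one h))
          rw [Dm_apply, this, Pi.single_zero, Finsupp.single_zero]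
        · intro h
          exact absurd (mem_univ _) h
      · intro d' hd'
        cases hd'
      · intro _
        exact ⟨c, _, rfl⟩
    | some d' =>
      refine ⟨gch D d', delta_gch D z d' hz, ?_, ?_⟩
      · intro d'' hd''
        rw [Option.some.inj hd'']
      · intro h
        cases h
  choose ξ hξ1 hξ2 hξ3 using hsec
  have hξ4 : ∀ z, ∃ g : D.toSCData.Grp, D.dang z = none → ∃ c : C, ξ z = Finsupp.single g c := by
    intro z
    by_cases hz : D.dang z = none
    · obtain ⟨c, g, h⟩ := hξ3 z hz
      exact ⟨g, fun _ => ⟨c, h⟩⟩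
    · exact ⟨1, fun h => absurd h hz⟩
  choose gz hgz using hξ4
  set ρ : (Z → ZMod 2) → (D.toSCData.Grp →₀ C) := fun w => ∑ z, w z • ξ z with hρdef
  refine not_RF_of_section (by rw [D.rank, Module.finrank_pi]) (bt D) (Dm D) ρ ?_ (D.code xc) ?_
  · intro w
    rw [hρdef]
    simp only [map_sum, map_smul, hξ1]
    have : w = ∑ z, w z • (Pi.single z 1 : Z → ZMod 2) := by
      ext z
      rw [Finset.sum_apply, Finset.sum_eq_single z]
      · simp
      · intro b _ hb
        simp [Pi.single_eq_of_ne hb.symm]
      · intro h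
        exact absurd (mem_univ _) h
    conv_rhs => rw [this, Finsupp.single_finsetSum]
    simp only [Finsupp.smul_single]
  · -- a sheet that is in no other cell
    obtain ⟨y, hys, hyc, hy1, hy2⟩ := exists_good M (fun i => bt D i * gz (D.cls i))
      hxc hj₀ hd hβ hbig
    -- its codeword is nonzero
    have hcode : D.code y ≠ 0 := by
      intro h0
      obtain ⟨w, hw⟩ := hyc
      rcases List.eq_nil_or_concat w with rfl | ⟨w', a, rfl⟩
      · have hdy : d = y := Option.some.inj hw
        obtain ⟨j, -, hj⟩ := D.dang_in _ d hd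
        obtain ⟨x, hx⟩ := Option.isSome_iff_exists.1 ((hj j).2 rfl)
        exact D.out_node j x d ((st_true_iff D).2 hx) (hdy ▸ hys)
      · rw [List.concat_eq_append, PAct.read_append_some] at hw
        obtain ⟨x, -, hx⟩ := hw
        rw [PAct.read_singleton] at hx
        obtain ⟨j, b⟩ := a
        cases b with
        | true => exact D.out_node j x y hx hys
        | false =>
          have := ((D.out_sheet j y).1 (by rw [(st_true_iff D).2 hx]; rfl)).2
          rw [h0, map_zero] at this
          exact absurd this (by decide)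
    intro hcon
    have h2 := congrArg (fun f => f (bt D j₀ * pos D.toSCData d y)) hcon
    rw [Finsupp.single_eq_of_ne hy1, Finsupp.finsetSum_apply] at h2
    have hρi : ∀ i, ρ (Dm D i (D.code xc)) = D.ev i (D.code xc) • ξ (D.cls i) := by
      intro i
      rw [hρdef]
      simp only [Dm_apply]
      rw [Finset.sum_eq_single (D.cls i)]
      · simp
      · intro b _ hb
        simp [Pi.single_eq_of_ne hb]
      · intro h
        exact absurd (mem_univ _) h
    have hchain : ∀ (i : S) (d' : D.Pos), D.dang (D.cls i) = some d' →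
        lt (ZMod 2) C (bt D i) (ξ (D.cls i)) =
        ∑ x ∈ univ.filter (fun x => D.sh x ∧ x ∈ comp D.toSCData d'),
          Finsupp.single (bt D i * pos D.toSCData d' x) (D.code x) := by
      intro i d' hd'
      rw [hξ2 _ d' hd', gch, map_sum]
      exact sum_congr rfl fun x _ => lt_single _ _ _
    have hterm : ∀ i ∈ (univ : Finset S), (lt (ZMod 2) C (bt D i) (ρ (Dm D i (D.code xc))))
        (bt D j₀ * pos D.toSCData d y) = if i = j₀ then D.code y else 0 := by
      intro i _
      rw [hρi, map_smul, Finsupp.smul_apply]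
      by_cases hc : D.ev i (D.code xc) = 1
      · rw [hc, one_smul]
        by_cases hii : i = j₀
        · rw [if_pos hii, hii, hchain j₀ d hd, Finsupp.finsetSum_apply, Finset.sum_eq_single y]
          · exact Finsupp.single_eq_same
          · intro x hx hxy
            apply Finsupp.single_eq_of_ne
            intro h
            exact hxy (pos_inj M (mem_filter.1 hx).2.2 hyc (mul_left_cancel h.symm))
          · intro h
            exact absurd (mem_filter.2 ⟨mem_univ _, hys, hyc⟩) h
        · rw [if_neg hii]
          rcases hdi : D.dang (D.cls i) with _ | d'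
          · obtain ⟨c, hc'⟩ := hgz _ hdi
            rw [hc', lt_single]
            apply Finsupp.single_eq_of_ne
            exact (hy2 i hc hii).2 hdi
          · rw [hchain i d' hdi, Finsupp.finsetSum_apply]
            refine Finset.sum_eq_zero fun x hx => ?_
            apply Finsupp.single_eq_of_ne
            intro h
            exact (hy2 i hc hii).1 d' hdi x (mem_filter.1 hx).2.2 h
      · have hc0 : D.ev i (D.code xc) = 0 := by
          by_contra h
          exact hc (zmod2_eq_one h)
        rw [hc0, zero_smul, if_neg]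
        intro h
        rw [h, hj₀] at hc0
        exact absurd hc0 (by decide)
    rw [Finset.sum_congr rfl hterm, Finset.sum_ite_eq' univ j₀] at h2
    simp only [mem_univ, if_true] at h2
    exact hcode h2.symm

end Crest.Agent.R199
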