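import Crest.Agent.R199.PRank
import Crest.Agent.R199.GInput
import Crest.Agent.R199.TriplesB

/-! Part I, parameters: existence of the input data `GInput g`. -/

set_option autoImplicit false

namespace Crest.Agent.R199

open Finset

open Classical in
/-- Dual basis of the classes, from the greedy triples. -/
theorem params_classes {P : Type} [Fintype P] (C : Submodule (ZMod 2) (P → ZMod 2))
    (hC : 3 * Module.finrank (ZMod 2) C + 1 ≤ Fintype.card P) :
    ∃ t : Fin (Module.finrank (ZMod 2) C) × Fin 3 → P, Function.Injective t ∧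
      ∀ z, ∃ κ ∈ C, ∀ z', ∑ k : Fin 3, κ (t (z', k)) = if z' = z then 1 else 0 := by
  obtain ⟨t, B, ht, -, hB, hinj⟩ := TB.greedy_triples C hC _ le_rfl
  have hB0 : B = ∅ := by
    rw [← Finset.card_eq_zero]; omega
  refine ⟨fun zk => t zk.1 zk.2, ?_, ?_⟩
  · rintro ⟨z, k⟩ ⟨z', k'⟩ h
    obtain ⟨h1, h2⟩ := ht z z' k k' h
    rw [h1, h2]
  · let D : C →ₗ[ZMod 2] (Fin (Module.finrank (ZMod 2) C) → ZMod 2) :=
      { toFun := fun f z => ∑ k, f.1 (t z k)
        map_add' := by
          intro f g; funext z; simp [Finset.sum_add_distrib]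
        map_smul' := by
          intro a f; funext z; simp [Finset.mul_sum] }
    have hDi : Function.Injective D := by
      rw [injective_iff_map_eq_zero]
      intro f hf
      apply Subtype.ext
      refine hinj f.1 f.2 (fun z => congrFun hf z) ?_
      intro b hb
      rw [hB0] at hb
      simp at hb
    have hDs : Function.Surjective D :=
      (LinearMap.injective_iff_surjective_of_finrank_eq_finrank (by simp)).1 hDi
    intro z
    obtain ⟨κ, hκ⟩ := hDs (Pi.single z 1)
    refine ⟨κ.1, κ.2, fun z' => ?_⟩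
    have := congrFun hκ z'
    simpa [D, Pi.single_apply] using this

theorem params_big (q g : ℕ) (hq : 2 ≤ q) : 100 * (q + 1) ^ (g + 8) ≤ q ^ (2 * g + 23) := by
  have h1 : q + 1 ≤ q ^ 2 := by nlinarith
  have h2 : (q + 1) ^ (g + 8) ≤ (q ^ 2) ^ (g + 8) := Nat.pow_le_pow_left h1 _
  have h3 : 100 ≤ q ^ 7 := by
    calc 100 ≤ 2 ^ 7 := by norm_num
      _ ≤ q ^ 7 := Nat.pow_le_pow_left hq _
  calc 100 * (q + 1) ^ (g + 8) ≤ q ^ 7 * (q ^ 2) ^ (g + 8) := Nat.mul_le_mul h3 h2
    _ = q ^ (2 * g + 23) := by rw [← pow_mul, ← pow_add]; congr 1; ring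

theorem exists_field_two (m : ℕ) (hm : m ≠ 0) :
    ∃ (F : Type) (_ : Field F) (_ : Fintype F), Fintype.card F = 2 ^ m := by
  have : Fact (Nat.Prime 2) := ⟨Nat.prime_two⟩
  have hc : Nat.card (GaloisField 2 m) = 2 ^ m := GaloisField.card 2 m hm
  have hfin : Finite (GaloisField 2 m) := by
    apply Nat.finite_of_card_ne_zero
    rw [hc]; positivity
  obtain ⟨inst⟩ := nonempty_fintype (GaloisField 2 m)
  refine ⟨GaloisField 2 m, inferInstance, inst, ?_⟩
  rw [← Nat.card_eq_fintype_card, hc]

open Classical in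
/-- Construction over fields `F`, `K` with `card K = (card F) ^ c`. -/
theorem gInput_of_fields (g c n : ℕ) (hn : n = 3 * c) (hcpos : c ≠ 0)
    (F K : Type) [Field F] [Fintype F] [Field K] [Fintype K]
    (hK : Fintype.card K = Fintype.card F ^ c) (hKeven : Even (Fintype.card K))
    (hbig : 100 * (Fintype.card F + 1) ^ (g + 8) ≤ Fintype.card K)
    (hrank : 4 * Module.finrank (ZMod 2) (Submodule.span (ZMod 2)
      (Set.range fun wd : (Fin n → F) × (Fin n → F) => _root_.R199.lineVec wd.1 wd.2)) ≤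
      Fintype.card (F × (Fin n → F))) : Nonempty (GInput g) := by
  have hq2 : 2 ≤ Fintype.card F := Fintype.one_lt_card
  have hV : Fintype.card (F × (Fin n → F)) = Fintype.card F ^ (n + 1) := by
    simp [pow_succ, mul_comm]
  obtain ⟨C, hC⟩ : ∃ C : Submodule (ZMod 2) (F × (Fin n → F) → ZMod 2),
    C = Submodule.span (ZMod 2)
      (Set.range fun wd : (Fin n → F) × (Fin n → F) => _root_.R199.lineVec wd.1 wd.2) := ⟨_, rfl⟩
  rw [← hC] at hrank
  have hline : ∀ w d : Fin n → F, _root_.R199.lineVec w d ∈ C := by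
    intro w d
    rw [hC]
    exact Submodule.subset_span ⟨(w, d), rfl⟩
  have hne : 1 ≤ Module.finrank (ZMod 2) C := by
    rw [Nat.one_le_iff_ne_zero]
    intro h0
    have hbot := Submodule.finrank_eq_zero.1 h0
    have h1 := hline 0 0
    rw [hbot, Submodule.mem_bot] at h1
    have h2 := congrFun h1 (0, 0)
    simp [_root_.R199.lineVec] at h2
  have hC3 : 3 * Module.finrank (ZMod 2) C + 1 ≤ Fintype.card (F × (Fin n → F)) := by omega
  obtain ⟨t, ht, hdual⟩ := params_classes C hC3
  -- blocks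
  have hcardE : Fintype.card (K × K × K) = Fintype.card (Fin n → F) := by
    simp only [Fintype.card_prod, hK, Fintype.card_fun, Fintype.card_fin]
    rw [← pow_add, ← pow_add]; congr 1; omega
  let φ : K × K × K ≃ (Fin n → F) := Fintype.equivOfCardEq hcardE
  have hcardX : Fintype.card (Option (Fin (Module.finrank (ZMod 2) C))) ≤
      Fintype.card ((K × K) × (K × K)) := by
    have h1 : Fintype.card ((K × K) × (K × K)) = Fintype.card F ^ (4 * c) := by
      simp only [Fintype.card_prod, hK]
      rw [← pow_add, ← pow_add]; congr 1; ring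
    rw [h1, Fintype.card_option, Fintype.card_fin]
    have h2 : Fintype.card F ^ (n + 1) ≤ Fintype.card F ^ (4 * c) :=
      Nat.pow_le_pow_right (by omega) (by omega)
    rw [hV] at hrank
    omega
  obtain ⟨ψ⟩ := Function.Embedding.nonempty_of_card_le hcardX
  obtain ⟨δ, hδ⟩ : ∃ δ : Option (Fin (Module.finrank (ZMod 2) C)) → K → (Fin n → F),
    ∀ x s, δ x s = φ (s, (ψ x).1.1 * s + (ψ x).2.1, (ψ x).1.2 * s + (ψ x).2.2) := ⟨_, fun _ _ => rfl⟩
  refine ⟨{
    P := F × (Fin n → F), Z := Fin (Module.finrank (ZMod 2) C), E := Fin n → F, S := K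
    fP := inferInstance, fZ := inferInstance, fE := inferInstance, fS := inferInstance
    q := Fintype.card F, C := C, t := t, t_inj := ht
    b := fun x s p => p.2 - p.1 • δ x s
    line_card := ?_
    line_mem := ?_
    rank := by simp
    dual := by
      intro z
      obtain ⟨κ, hκ, h⟩ := hdual z
      refine ⟨κ, hκ, fun z' => ?_⟩
      rw [h z']
      by_cases hz : z' = z
      · rw [if_pos hz, if_pos hz]
      · rw [if_neg hz, if_neg hz]
    ident := ?_
    even_S := hKeven
    big := hbig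
    one_le_q := by omega
    nonempty_P := ⟨(0, 0)⟩
    nonempty_Z := ⟨⟨0, hne⟩⟩ }⟩
  · intro x s w
    rw [← Finset.card_univ (α := F)]
    refine Finset.card_le_card_of_injOn (fun p => p.1) (fun _ _ => Finset.mem_univ _) ?_
    rintro ⟨u, y⟩ h ⟨u', y'⟩ h' huu
    simp only [Finset.coe_filter, Finset.mem_univ, true_and, Set.mem_ofPred_eq] at h h' huu
    subst huu
    have : y = y' := by
      rw [← sub_left_inj, h, h']
    rw [this]
  · intro x s w
    convert hline w (δ x s) using 1
    funext p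
    simp only [_root_.R199.lineVec]
    congr 1
    rw [eq_iff_iff]
    constructor
    · intro h; rw [← h]; simp
    · intro h; rw [h]; simp
  · intro x y s₁ s₂ s₁' s₂' p₁ p₂ r₁ r₂ hp hr hs h1 h2 h3 h4
    -- two points determine the direction
    have key : ∀ (p p' : F × (Fin n → F)) (d d' : Fin n → F), p ≠ p' →
        p.2 - p.1 • d = p'.2 - p'.1 • d → p.2 - p.1 • d' = p'.2 - p'.1 • d' → d = d' := by
      intro p p' d d' hpp e1 e2
      have hu : p.1 - p'.1 ≠ 0 := by
        intro h0
        have hu' : p.1 = p'.1 := sub_eq_zero.1 h0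
        apply hpp
        refine Prod.ext hu' ?_
        rw [hu'] at e1
        exact sub_left_inj.1 e1
      have e3 : (p.1 - p'.1) • d = p.2 - p'.2 := by
        rw [sub_smul]
        have := e1
        rw [sub_eq_sub_iff_sub_eq_sub] at this
        exact this.symm
      have e4 : (p.1 - p'.1) • d' = p.2 - p'.2 := by
        rw [sub_smul]
        have := e2
        rw [sub_eq_sub_iff_sub_eq_sub] at this
        exact this.symm
      exact smul_right_injective _ hu (e3.trans e4.symm)
    have d1 := key p₁ p₂ _ _ hp h1 h2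
    have d2 := key r₁ r₂ _ _ hr h3 h4
    rw [hδ, hδ] at d1 d2
    have d1' := φ.injective d1
    have d2' := φ.injective d2
    simp only [Prod.mk.injEq] at d1' d2'
    obtain ⟨a1, a2, a3⟩ := d1'
    obtain ⟨b1, b2, b3⟩ := d2'
    subst a1 b1
    refine ⟨?_, rfl⟩
    apply ψ.injective
    have hs' : s₁ - s₂ ≠ 0 := sub_ne_zero.2 hs
    have e1 : (ψ x).1.1 = (ψ y).1.1 := by
      have : ((ψ x).1.1 - (ψ y).1.1) * (s₁ - s₂) = 0 := by linear_combination a2 - b2
      rcases mul_eq_zero.1 this with h | h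
      · exact sub_eq_zero.1 h
      · exact absurd h hs'
    have e2 : (ψ x).1.2 = (ψ y).1.2 := by
      have : ((ψ x).1.2 - (ψ y).1.2) * (s₁ - s₂) = 0 := by linear_combination a3 - b3
      rcases mul_eq_zero.1 this with h | h
      · exact sub_eq_zero.1 h
      · exact absurd h hs'
    rw [e1] at a2
    rw [e2] at a3
    exact Prod.ext (Prod.ext e1 e2) (Prod.ext (add_left_cancel a2) (add_left_cancel a3))

theorem exists_gInput (g : ℕ) : Nonempty (GInput g) := by
  obtain ⟨c, hc⟩ : ∃ c, c = 2 * g + 23 := ⟨_, rfl⟩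
  obtain ⟨n, hn⟩ : ∃ n, n = 3 * c := ⟨_, rfl⟩
  have hμ' : n + 1 ≤ 2 ^ (n + 1) := Nat.le_of_lt Nat.lt_two_pow_self
  obtain ⟨T0, hT0⟩ := _root_.R199.exists_small_rank n 4 (n + 1) hμ'
  have hμT : (n + 1) * (T0 + 1) ≠ 0 := by positivity
  have hcpos : c ≠ 0 := by omega
  obtain ⟨F, _, _, hF⟩ := exists_field_two _ hμT
  obtain ⟨K, _, _, hK⟩ := exists_field_two _ (Nat.mul_ne_zero hμT hcpos)
  have hK' : Fintype.card K = Fintype.card F ^ c := by rw [hF, hK, ← pow_mul]
  refine gInput_of_fields g c n hn hcpos F K hK' ?_ ?_ (hT0 (T0 + 1) (by omega) F hF)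
  · rw [hK]
    exact (Nat.even_pow.2 ⟨even_two, Nat.mul_ne_zero hμT hcpos⟩)
  · rw [hK', hc]
    exact params_big _ g Fintype.one_lt_card

end Crest.Agent.R199
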