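import Crest.Agent.R199.AlgIII

/-!
# Row 199, Part III with the concrete gadgets

`partIII` : a gadget system (matched flags, one root flag per gadget `some z`, closed gadget `none`)
whose closed words are trivial in `G` and whose cells embed in `G` forces `G` to be not residually
finite.  The labelled graph `Pos` only enters through a walk relation `Wk`.
-/

set_option autoImplicit false

open Finset

namespace Crest.Agent.R199.PartIII

open Crest.Agent.R199.AlgIII

section alg

variable {Z κ C V G : Type*} [Fintype Z] [DecidableEq Z] [Fintype κ] [DecidableEq κ]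
  [AddCommGroup C] [Module (ZMod 2) C] [Fintype V] [DecidableEq V] [Group G]

/-- The component of the class map at the flag type `i = (z, k)`. -/
def Dm (ev : Z × κ → C →ₗ[ZMod 2] ZMod 2) (i : Z × κ) : C →ₗ[ZMod 2] (Z → ZMod 2) :=
  (LinearMap.single (ZMod 2) (fun _ : Z => ZMod 2) i.1) ∘ₗ ev i

omit [Fintype Z] [Fintype κ] [DecidableEq κ] in
theorem Dm_apply (ev : Z × κ → C →ₗ[ZMod 2] ZMod 2) (i : Z × κ) (c : C) :
    Dm ev i c = Pi.single i.1 (ev i c) := rfl

/-- Matched flags cancel, only the fixed flags survive. -/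
theorem delta_sum (ev : Z × κ → C →ₗ[ZMod 2] ZMod 2) (b : Z × κ → G) (γ : V → G) (ℓ : V → C)
    (τ : V × (Z × κ) → V × (Z × κ))
    (hτ : ∀ f, ev f.2 (ℓ f.1) ≠ 0 → ev (τ f).2 (ℓ (τ f).1) ≠ 0 ∧ τ (τ f) = f ∧
      (τ f).2.1 = f.2.1 ∧ γ (τ f).1 * b (τ f).2 = γ f.1 * b f.2) :
    delta b (Dm ev) (∑ v, Finsupp.single (γ v) (ℓ v)) =
      ∑ f ∈ (univ : Finset (V × (Z × κ))).filter (fun f => ev f.2 (ℓ f.1) ≠ 0 ∧ τ f = f),
        Finsupp.single (γ f.1 * b f.2) (Pi.single f.2.1 1 : Z → ZMod 2) := by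
  classical
  rw [map_sum]
  simp only [delta_single, Dm_apply]
  rw [← Finset.sum_product' (s := univ) (t := univ)
    (f := fun v i => Finsupp.single (γ v * b i) (Pi.single i.1 (ev i (ℓ v)) : Z → ZMod 2))]
  have hsub : ∑ x ∈ (univ ×ˢ univ : Finset (V × (Z × κ))),
      Finsupp.single (γ x.1 * b x.2) (Pi.single x.2.1 (ev x.2 (ℓ x.1)) : Z → ZMod 2) =
      ∑ x ∈ (univ : Finset (V × (Z × κ))).filter (fun f => ev f.2 (ℓ f.1) ≠ 0),
      Finsupp.single (γ x.1 * b x.2) (Pi.single x.2.1 1 : Z → ZMod 2) := by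
    rw [univ_product_univ, sum_filter]
    refine sum_congr rfl fun f _ => ?_
    split_ifs with h
    · rw [zmod2_eq_one h]
    · push Not at h
      rw [h]
      simp
  rw [hsub, ← Finset.sum_filter_add_sum_filter_not (s := (univ : Finset (V × (Z × κ))).filter
    (fun f => ev f.2 (ℓ f.1) ≠ 0)) (p := fun f => τ f = f)]
  have hz : ∑ x ∈ ((univ : Finset (V × (Z × κ))).filter
      (fun f => ev f.2 (ℓ f.1) ≠ 0)).filter (fun f => ¬ τ f = f),
      Finsupp.single (γ x.1 * b x.2) (Pi.single x.2.1 1 : Z → ZMod 2) = 0 := by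
    refine Finset.sum_involution (fun f _ => τ f) ?_ ?_ ?_ ?_
    · intro f hf
      rw [mem_filter, mem_filter] at hf
      obtain ⟨-, -, h5, h6⟩ := hτ f hf.1.2
      rw [h6, h5, ← Finsupp.single_add]
      have : (Pi.single f.2.1 1 : Z → ZMod 2) + Pi.single f.2.1 1 = 0 := by
        rw [← Pi.single_add]
        have h : (1 : ZMod 2) + 1 = 0 := by decide
        rw [h]
        simp
      rw [this, Finsupp.single_zero]
    · intro f hf _
      rw [mem_filter, mem_filter] at hf
      exact hf.2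
    · intro f hf
      rw [mem_filter, mem_filter] at hf ⊢
      obtain ⟨h3, h4, -, -⟩ := hτ f hf.1.2
      refine ⟨⟨mem_univ _, h3⟩, ?_⟩
      rw [h4]
      exact fun h => hf.2 h.symm
    · intro f hf
      rw [mem_filter, mem_filter] at hf
      exact (hτ f hf.1.2).2.1
  rw [hz, add_zero, filter_filter]

/-- **Part III, gadget form with a closed gadget.** -/
theorem not_RF_of_closed [Module.Finite (ZMod 2) C]
    (ev : Z × κ → C →ₗ[ZMod 2] ZMod 2) (hrank : Module.finrank (ZMod 2) C = Fintype.card Z)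
    (code : Option Z → V → C) (μ : Option Z → V × (Z × κ) → V × (Z × κ))
    (root : Z → V × (Z × κ))
    (hroot : ∀ z, ev (root z).2 (code (some z) (root z).1) ≠ 0)
    (hroot_cls : ∀ z, (root z).2.1 = z)
    (hflag : ∀ x f, ev f.2 (code x f.1) ≠ 0 → ev (μ x f).2 (code x (μ x f).1) ≠ 0)
    (hinv : ∀ x f, ev f.2 (code x f.1) ≠ 0 → μ x (μ x f) = f)
    (hfix : ∀ x f, ev f.2 (code x f.1) ≠ 0 → (μ x f = f ↔ ∃ z, x = some z ∧ f = root z))
    (hcls : ∀ x f, ev f.2 (code x f.1) ≠ 0 → (μ x f).2.1 = f.2.1)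
    (b : Z × κ → G) (γ : Option Z → V → G)
    (hγ : ∀ x f, ev f.2 (code x f.1) ≠ 0 → γ x (μ x f).1 * b (μ x f).2 = γ x f.1 * b f.2)
    (cc : V → Prop) (v0 : V) (hv0 : code none v0 ≠ 0) (hc0 : cc v0)
    (hcμ : ∀ f, ev f.2 (code none f.1) ≠ 0 → cc f.1 → cc (μ none f).1)
    (hinj : ∀ v v', cc v → cc v' → γ none v = γ none v' → v = v') :
    ¬ Group.ResiduallyFinite G := by
  classical
  -- the gadgets give all unit vectors
  have hgad : ∀ z, delta b (Dm ev) (∑ v, Finsupp.single (γ (some z) v) (code (some z) v)) =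
      Finsupp.single (γ (some z) (root z).1 * b (root z).2) (Pi.single z 1 : Z → ZMod 2) := by
    intro z
    rw [delta_sum ev b (γ (some z)) (code (some z)) (μ (some z))
      (fun f hf => ⟨hflag _ f hf, hinv _ f hf, hcls _ f hf, hγ _ f hf⟩)]
    have : (univ : Finset (V × (Z × κ))).filter
        (fun f => ev f.2 (code (some z) f.1) ≠ 0 ∧ μ (some z) f = f) = {root z} := by
      ext f
      rw [mem_filter, mem_singleton]
      constructor
      · rintro ⟨-, h1, h2⟩
        obtain ⟨z', h3, h4⟩ := (hfix _ f h1).1 h2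
        rw [h4, Option.some.inj h3]
      · rintro rfl
        exact ⟨mem_univ _, hroot z, (hfix _ _ (hroot z)).2 ⟨z, rfl, rfl⟩⟩
    rw [this, sum_singleton, hroot_cls]
  set ξ : Z → (G →₀ C) := fun z =>
    lt (ZMod 2) C (γ (some z) (root z).1 * b (root z).2)⁻¹
      (∑ v, Finsupp.single (γ (some z) v) (code (some z) v)) with hξ
  have hξδ : ∀ z, delta b (Dm ev) (ξ z) = Finsupp.single 1 (Pi.single z 1 : Z → ZMod 2) := by
    intro z
    rw [hξ]
    simp only
    rw [delta_lt, hgad, lt_single, inv_mul_cancel]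
  have hsurj : ∀ w : Z → ZMod 2, ∃ ζ : G →₀ C, delta b (Dm ev) ζ = Finsupp.single 1 w := by
    intro w
    refine ⟨∑ z, w z • ξ z, ?_⟩
    simp only [map_sum, map_smul, hξδ]
    have : w = ∑ z, w z • (Pi.single z 1 : Z → ZMod 2) := by
      ext z
      rw [Finset.sum_apply, Finset.sum_eq_single z]
      · simp
      · intro b _ hb
        simp [Pi.single_eq_of_ne hb.symm]
      · intro h
        exact absurd (mem_univ _) h
    conv_rhs => rw [this, Finsupp.single_finsetSum]
    simp only [Finsupp.smul_single]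
  -- the closed gadget gives a kernel element
  set ℓ : V → C := fun v => if cc v then code none v else 0 with hℓ
  have hℓ1 : ∀ v, cc v → ℓ v = code none v := fun v hv => by simp only [hℓ, if_pos hv]
  have hℓ0 : ∀ (i : Z × κ) v, ev i (ℓ v) ≠ 0 → cc v ∧ ev i (code none v) ≠ 0 := by
    intro i v h
    by_cases hv : cc v
    · rw [hℓ1 v hv] at h
      exact ⟨hv, h⟩
    · simp only [hℓ, if_neg hv, map_zero] at h
      exact absurd rfl h
  refine not_RF (by rw [hrank, Module.finrank_pi]) b (Dm ev) hsurj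
    (∑ v, Finsupp.single (γ none v) (ℓ v)) ?_ ?_
  · intro h0
    have h1 := congrArg (fun f => f (γ none v0)) h0
    rw [Finsupp.finsetSum_apply, Finset.sum_eq_single v0] at h1
    · rw [Finsupp.single_eq_same, hℓ1 v0 hc0] at h1
      exact hv0 h1
    · intro v _ hv
      by_cases hcv : cc v
      · apply Finsupp.single_eq_of_ne
        intro h
        exact hv (hinj v v0 hcv hc0 h.symm)
      · simp only [hℓ, if_neg hcv, Finsupp.single_zero, Finsupp.coe_zero, Pi.zero_apply]
    · intro h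
      exact absurd (mem_univ _) h
  · rw [delta_sum ev b (γ none) ℓ (μ none)]
    · have : (univ : Finset (V × (Z × κ))).filter
          (fun f => ev f.2 (ℓ f.1) ≠ 0 ∧ μ none f = f) = ∅ := by
        rw [filter_eq_empty_iff]
        rintro f - ⟨h1, h2⟩
        obtain ⟨z, h3, -⟩ := (hfix none f (hℓ0 _ _ h1).2).1 h2
        exact absurd h3 (by simp)
      rw [this, sum_empty]
    · intro f hf
      obtain ⟨h1, h2⟩ := hℓ0 _ _ hf
      refine ⟨?_, hinv _ _ h2, hcls _ _ h2, hγ _ _ h2⟩
      rw [hℓ1 _ (hcμ f h2 h1)]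
      exact hflag _ _ h2

end alg

section walks

variable {Z κ C V : Type*} [Fintype Z] [DecidableEq Z] [Fintype κ] [DecidableEq κ]
  [AddCommGroup C] [Module (ZMod 2) C] [Fintype V] [DecidableEq V]

/-- **Part III.** `Pos` is the type of positions of the labelled graph, `Wk` its walk relation, `sh x`
the embedding of the sheets of the gadget `x`. -/
theorem partIII {Pos : Type*} {G : Type*} [Group G]
    (Wk : Pos → List ((Z × κ) × Bool) → Pos → Prop)
    (Wnil : ∀ p, Wk p [] p)
    (Wapp : ∀ {p q r w w'}, Wk p w q → Wk q w' r → Wk p (w ++ w') r)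
    (Winv : ∀ {p q w}, Wk p w q → Wk q (FreeGroup.invRev w) p)
    [Module.Finite (ZMod 2) C]
    (ev : Z × κ → C →ₗ[ZMod 2] ZMod 2) (hrank : Module.finrank (ZMod 2) C = Fintype.card Z)
    (code : Option Z → V → C) (μ : Option Z → V × (Z × κ) → V × (Z × κ))
    (root : Z → V × (Z × κ))
    (hroot : ∀ z, ev (root z).2 (code (some z) (root z).1) ≠ 0)
    (hroot_cls : ∀ z, (root z).2.1 = z)
    (hflag : ∀ x f, ev f.2 (code x f.1) ≠ 0 → ev (μ x f).2 (code x (μ x f).1) ≠ 0)
    (hinv : ∀ x f, ev f.2 (code x f.1) ≠ 0 → μ x (μ x f) = f)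
    (hfix : ∀ x f, ev f.2 (code x f.1) ≠ 0 → (μ x f = f ↔ ∃ z, x = some z ∧ f = root z))
    (hcls : ∀ x f, ev f.2 (code x f.1) ≠ 0 → (μ x f).2.1 = f.2.1)
    (hclosed : ∃ v, code none v ≠ 0)
    (sh : Option Z → V → Pos) (hsh : ∀ v v', sh none v = sh none v' → v = v')
    (hW : ∀ x f, ev f.2 (code x f.1) ≠ 0 →
      Wk (sh x f.1) [(f.2, true), ((μ x f).2, false)] (sh x (μ x f).1))
    (φ : FreeGroup (Z × κ) →* G)
    (hφ : ∀ p w, Wk p w p → φ (FreeGroup.mk w) = 1)
    (hemb : ∀ p w q w' q', Wk p w q → Wk p w' q' → φ (FreeGroup.mk w) = φ (FreeGroup.mk w') →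
      q = q') :
    ¬ Group.ResiduallyFinite G := by
  classical
  obtain ⟨v0, hv0⟩ := hclosed
  -- components
  let R : Option Z → V → V → Prop := fun x v v' => ∃ w, Wk (sh x v) w (sh x v')
  have Rrefl : ∀ x v, R x v v := fun x v => ⟨[], Wnil _⟩
  have Rsymm : ∀ x {v v'}, R x v v' → R x v' v := fun x v v' ⟨w, hw⟩ => ⟨_, Winv hw⟩
  have Rtrans : ∀ x {v v' v''}, R x v v' → R x v' v'' → R x v v'' :=
    fun x v v' v'' ⟨w, hw⟩ ⟨w', hw'⟩ => ⟨_, Wapp hw hw'⟩
  let st : Option Z → Setoid V := fun x => ⟨R x, Rrefl x, Rsymm x, Rtrans x⟩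
  let rep : Option Z → V → V := fun x v => (Quotient.mk (st x) v).out
  have hrep : ∀ x v, R x (rep x v) v := fun x v => Quotient.mk_out (s := st x) v
  have hrepeq : ∀ x {v v'}, R x v v' → rep x v = rep x v' := by
    intro x v v' h
    have : Quotient.mk (st x) v = Quotient.mk (st x) v' := Quotient.sound h
    simp only [rep, this]
  choose wd hwd using hrep
  let γ : Option Z → V → G := fun x v => φ (FreeGroup.mk (wd x v))
  have hRμ : ∀ x f, ev f.2 (code x f.1) ≠ 0 → R x f.1 (μ x f).1 := fun x f hf => ⟨_, hW x f hf⟩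
  refine not_RF_of_closed ev hrank code μ root hroot hroot_cls hflag hinv hfix hcls
    (fun i => φ (FreeGroup.of i)) γ ?_ (fun v => R none v0 v) v0 hv0 (Rrefl none v0) ?_ ?_
  · intro x f hf
    have h1 := hwd x f.1
    have h2 := hwd x (μ x f).1
    rw [← hrepeq x (hRμ x f hf)] at h2
    have h3 := Wapp (Wapp h1 (hW x f hf)) (Winv h2)
    have h4 := hφ _ _ h3
    rw [← FreeGroup.mul_mk, ← FreeGroup.mul_mk, ← FreeGroup.inv_mk, map_mul, map_mul, map_inv]
      at h4
    have h5 : (FreeGroup.mk [(f.2, true), ((μ x f).2, false)] : FreeGroup (Z × κ)) =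
        FreeGroup.of f.2 * (FreeGroup.of (μ x f).2)⁻¹ := by
      rw [FreeGroup.of, FreeGroup.of, FreeGroup.inv_mk, FreeGroup.mul_mk]
      rfl
    rw [h5, map_mul, map_inv] at h4
    show φ (FreeGroup.mk (wd x (μ x f).1)) * φ (FreeGroup.of (μ x f).2) =
      φ (FreeGroup.mk (wd x f.1)) * φ (FreeGroup.of f.2)
    have h6 := mul_inv_eq_one.1 h4
    rw [← h6]
    group
  · intro f hf h
    exact Rtrans none h (hRμ none f hf)
  · intro v v' hv hv' h
    have h1 := hwd none v
    have h2 := hwd none v'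
    rw [← hrepeq none hv] at h1
    rw [← hrepeq none hv'] at h2
    exact hsh _ _ (hemb _ _ _ _ _ h1 h2 h)

end walks

end Crest.Agent.R199.PartIII
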