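import Crest.Agent.R199.SCGroup
import Crest.Agent.R199.CellGraph

/-!
# Row 199: the levels in the presented group form an `IsModel` (interface of `CellGraph`)
-/

set_option autoImplicit false

open FreeGroup

namespace Crest.Agent.R199.SC

variable {S : Type}

theorem CGW_iff {P : PG S} {p q : P.V} {w} : CG.W P.E p w q ↔ P.W p w q := by
  induction w generalizing p with
  | nil =>
    constructor
    · intro h; exact h.of_nil
    · intro h
      have : p = q := h
      subst this
      exact CG.W.nil _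
  | cons a w ih =>
    constructor
    · intro h
      cases h with
      | cons h1 h2 => exact ⟨_, h1, ih.1 h2⟩
    · rintro ⟨u, h1, h2⟩
      exact CG.W.cons h1 (ih.2 h2)

/-- evaluation of letters in the presented group -/
def gev (P : PG S) (a : S × Bool) : Grp P := gw P [a]

theorem evw_gev {P : PG S} (w : List (S × Bool)) : CG.evw (gev P) w = gw P w := by
  induction w with
  | nil => simp
  | cons a w ih =>
    rw [CG.evw_cons, ih, gev, ← gw_append]
    rfl

theorem meets_iff {P : PG S} {Y : ℕ → Set (Grp P)} {n : ℕ} {x : Grp P} {q : P.V} :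
    CG.Meets P.E (gev P) Y n x q ↔ ∃ b ∈ Y n, ∃ r, Same P x q b r := by
  constructor
  · rintro ⟨w, r, h1, h2⟩
    rw [evw_gev] at h2
    exact ⟨_, h2, r, w, CGW_iff.1 h1, rfl⟩
  · rintro ⟨b, hb, r, w, h1, rfl⟩
    exact ⟨w, r, CGW_iff.2 h1, by rw [evw_gev]; exact hb⟩

theorem pathOver_of {P : PG S} {Y : ℕ → Set (Grp P)} {n : ℕ} {x : Grp P} {w : List (S × Bool)}
    (h : ∀ t a t', w = t ++ a :: t' → EdgeOver P (Y n) (x * gw P t) a) :
    CG.PathOver P.E (gev P) Y n x w := by
  induction w generalizing x with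
  | nil => trivial
  | cons a w ih =>
    refine ⟨?_, ih ?_⟩
    · obtain ⟨b, hb, p, q, q', h1, h2⟩ := h [] a w rfl
      rw [gw_nil, mul_one] at h1
      exact ⟨q, q', h2, meets_iff.2 ⟨b, hb, p, h1.symm⟩⟩
    · intro t c t' ht
      have := h (a :: t) c t' (by rw [ht]; rfl)
      have e : gw P (a :: t) = gev P a * gw P t := by
        rw [gev, ← gw_append]; rfl
      rw [e, ← mul_assoc] at this
      exact this

/-- **The interface of `CellGraph`.** -/
theorem Levels.isModel {P : PG S} {m : ℕ} (hP : Small P m) (L : Levels P m) :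
    CG.IsModel P.E (gev P) L.Y m where
  det := P.det
  symm := P.symm
  ev_li := by
    intro a
    show gw P [CG.li a] = (gw P [a])⁻¹
    rw [← gw_invRev]
    simp [invRev, CG.li]
  Y_zero := L.zero
  Y_succ := by
    intro n x
    rw [L.succ]
    constructor
    · rintro ⟨b, hb, p, q, h⟩
      exact ⟨q, meets_iff.2 ⟨b, hb, p, h.symm⟩⟩
    · rintro ⟨q, h⟩
      obtain ⟨b, hb, r, h⟩ := meets_iff.1 h
      exact ⟨b, hb, r, q, h.symm⟩
  Y_univ := L.cover
  embed := by
    intro p w q w' q' h h'
    rw [CGW_iff] at h h'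
    rw [evw_gev, evw_gev]
    constructor
    · exact L.inj h h'
    · rintro rfl; exact gw_eq h h'
  girth := by
    intro p w h hr hl
    exact hP.girth p w hr (CGW_iff.1 h) (by omega)
  uniq := by
    intro p p' q q' w h h' hr hl
    exact hP.uniq w p q p' q' hr hl (CGW_iff.1 h) (CGW_iff.1 h')
  glue := by
    intro n x q q' h h'
    obtain ⟨b, hb, r, hs⟩ := meets_iff.1 h.1
    obtain ⟨b', hb', r', hs'⟩ := meets_iff.1 h'.1
    obtain ⟨c, hc, s, s', u, k1, k2, k3, k4, k5⟩ :=
      L.glue hb hb' hs hs' (Same.refl x q) (Same.refl x q')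
    refine ⟨invRev u, s, s', CGW_iff.2 (P.W_inv k3), CGW_iff.2 (P.W_inv k4), ?_⟩
    rw [evw_gev, gw_invRev]
    nth_rewrite 1 [k5]
    rw [mul_inv_cancel_right]
    exact hc
  conv := by
    intro n x p w q h hx hw hxw
    rw [evw_gev] at hxw
    rw [CGW_iff] at hw
    obtain ⟨w', k1, k2, k3, k4, _, k6⟩ := L.short hx hxw ⟨w, hw, rfl⟩ (by
      intro k hk b r hs hb
      obtain rfl : n = k := by omega
      exact h.2 n (Nat.lt_succ_self n) (meets_iff.2 ⟨b, hb, r, hs⟩))
    exact ⟨w', CGW_iff.2 k3, k1, k2, pathOver_of (k6 n rfl)⟩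

/-- the group of a small cancellation graph is hyperbolic -/
theorem isHyperbolicGroup {P : PG S} {m : ℕ} (hP : Small P m) [Finite P.V] [Nonempty P.V]
    (hlet : ∀ a, ∃ p q, P.E p a q) : Crest.GroupTheory.IsHyperbolicGroup (Grp P) :=
  ((levels (nextOK hP) hlet).isModel hP).isHyperbolicGroup

end Crest.Agent.R199.SC
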