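import Crest.Agent.R199.Defs

/-!
Part II, internal: stages of the BFS model.

A stage of level `n` is a partial complex: a type `V` of vertices (group elements found so far) with a
partial action of the letters, a level function with values `≤ n`, and the relation
`dec v x` ("position `x` at `v` is declared": the cell of `(v,x)` is completely present).
-/

set_option autoImplicit false

namespace Crest.Agent.R199

open FreeGroup (IsReduced)

variable {S : Type}

/-- raw stage data -/
structure Stage (D : SCData S) where
  V : Type
  A : PAct S V
  lev : V → ℕ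
  n : ℕ
  dec : V → D.Pos → Prop
  O : V

namespace Stage

variable {D : SCData S}

/-- all proper and improper prefixes (of length between 1 and `w.length`) of `w` read from `v` end at
vertices of level `k`, and `w` is readable from `v`. -/
def ReadLev (T : Stage D) (v : T.V) (w : List (S × Bool)) (k : ℕ) : Prop :=
  ∀ i, 1 ≤ i → i ≤ w.length → ∃ v', T.A.read (w.take i) v = some v' ∧ T.lev v' = k

/-- The invariants of a stage. -/
structure Inv (T : Stage D) : Prop where
  /-- the origin -/
  lev_O : T.lev T.O = 0
  eq_O : ∀ v, T.lev v = 0 → v = T.O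
  lev_le : ∀ v, T.lev v ≤ T.n
  /-- connectedness -/
  conn : ∀ v, ∃ w, T.A.read w T.O = some v
  /-- declared cells are closed under the letters readable in `Pos` -/
  dec_step : ∀ v x a y, T.dec v x → D.A.st a x = some y → ∃ v', T.A.st a v = some v' ∧ T.dec v' y
  /-- a declared cell is a copy of the component of `Pos` (not a proper cover) -/
  dec_closed : ∀ v x w, T.dec v x → D.A.read w x = some x → T.A.read w v = some v
  /-- declared cells are embedded in `V` -/
  dec_inj : ∀ v x w y, T.dec v x → D.A.read w x = some y → T.A.read w v = some v → y = x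
  /-- interior vertices are complete -/
  interior_st : ∀ v a, T.lev v < T.n → (T.A.st a v).isSome
  interior_dec : ∀ v x, T.lev v < T.n → T.dec v x
  /-- every edge lies in a declared cell -/
  edge_dec : ∀ v a v', T.A.st a v = some v' → ∃ x, T.dec v x ∧ (D.A.st a x).isSome
  /-- every boundary vertex of a stage of positive level is in a declared cell -/
  bd_dec : ∀ v, T.lev v = T.n → 0 < T.n → ∃ x, T.dec v x
  /-- near structure: if two distinct positions are declared at the boundary vertex `v`, then `v`
  hangs off a unique vertex `b` of the previous level contained in all declared cells at `v` -/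
  near : ∀ v x y, T.lev v = T.n → T.dec v x → T.dec v y → x ≠ y →
    ∃ (b : T.V) (u : List (S × Bool)), T.lev b + 1 = T.n ∧ IsReduced u ∧ u ≠ [] ∧
      u.length + 1 ≤ D.m ∧ T.A.read u b = some v ∧ T.ReadLev b u T.n ∧
      ∀ z, T.dec v z → (D.A.read (FreeGroup.invRev u) z).isSome
  /-- a declared cell containing a boundary vertex only contains vertices of level `n-1` and `n` -/
  top_lev : ∀ v x w y v', T.lev v = T.n → T.dec v x → D.A.read w x = some y →
    T.A.read w v = some v' → T.lev v' = T.n ∨ T.lev v' + 1 = T.n
  /-- ... and it contains a base vertex (level `n-1`) -/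
  top_base : ∀ v x, T.lev v = T.n → T.dec v x → ∃ w y v', D.A.read w x = some y ∧
    T.A.read w v = some v' ∧ T.lev v' + 1 = T.n
  /-- ... and any two base positions are joined by a short reduced word through base vertices -/
  base_conn : ∀ v x w₁ y₁ v₁ w₂ y₂ v₂, T.lev v = T.n → T.dec v x →
    D.A.read w₁ x = some y₁ → T.A.read w₁ v = some v₁ → T.lev v₁ + 1 = T.n →
    D.A.read w₂ x = some y₂ → T.A.read w₂ v = some v₂ → T.lev v₂ + 1 = T.n →
    ∃ w : List (S × Bool), IsReduced w ∧ w.length ≤ 4 * (D.m - 1) ∧ D.A.read w y₁ = some y₂ ∧
      T.A.read w v₁ = some v₂ ∧ ∀ i, i ≤ w.length → ∃ v', T.A.read (w.take i) v₁ = some v' ∧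
        T.lev v' + 1 = T.n

/-- `(v,x) ≈ (v',x')`: connected in the fibre product of `V` and `Pos`. -/
def Conn (T : Stage D) (v : T.V) (x : D.Pos) (v' : T.V) (x' : D.Pos) : Prop :=
  ∃ w : List (S × Bool), T.A.read w v = some v' ∧ D.A.read w x = some x'

end Stage

end Crest.Agent.R199
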