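import Mathlib

/-!
R199, part I.2: choice of the triples `J_z`.  Pure linear algebra over `ZMod 2`.
-/

set_option autoImplicit false

namespace Crest.Agent.R199.Triples

open Finset

variable {P : Type*} [Fintype P] [DecidableEq P]

theorem zmod2_eq_one {a : ZMod 2} (h : a ≠ 0) : a = 1 := by
  revert h; revert a; decide

/-- a set of points of size `finrank C` on which the evaluation is injective on `C` -/
theorem exists_infoset (C : Submodule (ZMod 2) (P → ZMod 2)) :
    ∃ S : Finset P, S.card = Module.finrank (ZMod 2) C ∧
      ∀ f ∈ C, (∀ p ∈ S, f p = 0) → f = 0 := by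
  classical
  -- minimal separating set
  obtain ⟨S, hS, hmin⟩ : ∃ S : Finset P, (∀ f ∈ C, (∀ p ∈ S, f p = 0) → f = 0) ∧
      ∀ T : Finset P, T.card < S.card → ¬ (∀ f ∈ C, (∀ p ∈ T, f p = 0) → f = 0) := by
    have hex : ∃ n : ℕ, ∃ S : Finset P, S.card = n ∧ (∀ f ∈ C, (∀ p ∈ S, f p = 0) → f = 0) :=
      ⟨_, Finset.univ, rfl, fun f _ h => funext fun p => h p (Finset.mem_univ p)⟩
    obtain ⟨S, hc, hS⟩ := Nat.find_spec hex
    refine ⟨S, hS, fun T hT hT' => ?_⟩
    exact Nat.find_min hex (hc ▸ hT) ⟨T, rfl, hT'⟩
  refine ⟨S, ?_, hS⟩
  -- restriction map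
  let φ : C →ₗ[ZMod 2] (S → ZMod 2) :=
    { toFun := fun f p => f.1 p.1
      map_add' := fun f g => rfl
      map_smul' := fun c f => rfl }
  have hφi : Function.Injective φ := by
    rw [injective_iff_map_eq_zero]
    intro f hf
    have : f.1 = 0 := hS f.1 f.2 (fun p hp => congrFun hf ⟨p, hp⟩)
    exact Subtype.ext this
  have hφs : Function.Surjective φ := by
    have hg : ∀ p : S, ∃ g : C, φ g = Pi.single p 1 := by
      intro p
      have h1 := hmin (S.erase p.1) (Finset.card_erase_lt_of_mem p.2)
      push Not at h1
      obtain ⟨f, hfC, hf0, hfne⟩ := h1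
      have hfp : f p.1 ≠ 0 := by
        intro h
        apply hfne
        apply hS f hfC
        intro q hq
        by_cases hqp : q = p.1
        · rw [hqp]; exact h
        · exact hf0 q (Finset.mem_erase.2 ⟨hqp, hq⟩)
      refine ⟨⟨f, hfC⟩, ?_⟩
      funext q
      by_cases hqp : q = p
      · subst hqp
        simp only [Pi.single_eq_same]
        exact zmod2_eq_one hfp
      · rw [Pi.single_eq_of_ne hqp]
        exact hf0 q.1 (Finset.mem_erase.2 ⟨fun h => hqp (Subtype.ext h), q.2⟩)
    choose g hg using hg
    intro a
    refine ⟨∑ p, a p • g p, ?_⟩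
    rw [map_sum]
    funext q
    simp only [map_smul, hg, Finset.sum_apply, Pi.smul_apply, smul_eq_mul]
    rw [Finset.sum_eq_single q]
    · simp
    · intro b _ hb
      rw [Pi.single_eq_of_ne hb.symm, mul_zero]
    · intro h; exact absurd (Finset.mem_univ q) h
  have e := LinearEquiv.ofBijective φ ⟨hφi, hφs⟩
  have := e.finrank_eq
  rw [this]
  simp

/-- among three elements of `ZMod 2` two are equal: version for three distinct points -/
theorem two_equal (g : P → ZMod 2) (U : Finset P) (hU : 3 ≤ U.card) :
    ∃ u ∈ U, ∃ v ∈ U, u ≠ v ∧ g u = g v := by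
  classical
  by_contra h
  push Not at h
  have hinj : Set.InjOn g U := by
    intro u hu v hv huv
    by_contra hne
    exact h u hu v hv hne huv
  have h1 : U.card ≤ (Finset.univ : Finset (ZMod 2)).card :=
    Finset.card_le_card_of_injOn g (fun _ _ => Finset.mem_univ _) hinj
  have h2 : (Finset.univ : Finset (ZMod 2)).card = 2 := by decide
  omega

/-- induction step and base of the greedy construction -/
theorem exists_partial (C : Submodule (ZMod 2) (P → ZMod 2)) (r : ℕ)
    (hr : Module.finrank (ZMod 2) C = r) (hP : 3 * r + 1 ≤ Fintype.card P) (k : ℕ) (hk : k ≤ r) :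
    ∃ A : Fin r → Finset P,
      (∀ z : Fin r, (A z).card = if z.1 < k then 3 else 1) ∧
      (∀ z z', z ≠ z' → Disjoint (A z) (A z')) ∧
      ∀ f ∈ C, (∀ z, ∑ p ∈ A z, f p = 0) → f = 0 := by
  classical
  induction k with
  | zero =>
    obtain ⟨S, hS, hS'⟩ := exists_infoset C
    have e : Fin r ≃ S := by
      refine (Fintype.equivFinOfCardEq ?_).symm
      rw [Fintype.card_coe, hS, hr]
    refine ⟨fun z => {(e z).1}, ?_, ?_, ?_⟩
    · intro z; simp
    · intro z z' hz
      rw [Finset.disjoint_singleton]
      intro h
      exact hz (e.injective (Subtype.ext h))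
    · intro f hf h
      apply hS' f hf
      intro p hp
      have := h (e.symm ⟨p, hp⟩)
      simpa using this
  | succ k ih =>
    obtain ⟨A, hA1, hA2, hA3⟩ := ih (by omega)
    have hkr : k < r := by omega
    set z0 : Fin r := ⟨k, hkr⟩ with hz0
    -- unused points
    set U : Finset P := (Finset.univ.biUnion A)ᶜ with hU
    have hcardA : ∑ z : Fin r, (A z).card ≤ r + 2 * k := by
      have : ∀ z : Fin r, (A z).card = 1 + (if z.1 < k then 2 else 0) := by
        intro z; rw [hA1]; split <;> rfl
      simp only [this, Finset.sum_add_distrib]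
      have h2 : ∑ z : Fin r, (if z.1 < k then 2 else 0) = 2 * (Finset.univ.filter (fun z : Fin r => z.1 < k)).card := by
        rw [← Finset.sum_filter, Finset.sum_const, smul_eq_mul, mul_comm]
      have h3 : (Finset.univ.filter (fun z : Fin r => z.1 < k)).card ≤ k := by
        have : (Finset.univ.filter (fun z : Fin r => z.1 < k)).card ≤ (Finset.range k).card := by
          apply Finset.card_le_card_of_injOn (fun z => z.1)
          · intro z hz
            simpa using hz
          · intro a _ b _ h
            exact Fin.ext h
        simpa using this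
      rw [h2]
      simp
      omega
    have hUcard : 3 ≤ U.card := by
      rw [hU, Finset.card_compl]
      have h1 : (Finset.univ.biUnion A).card ≤ ∑ z : Fin r, (A z).card := Finset.card_biUnion_le
      omega
    -- the dual vector
    let φ : C →ₗ[ZMod 2] (Fin r → ZMod 2) :=
      { toFun := fun f z => ∑ p ∈ A z, f.1 p
        map_add' := fun f g => by funext z; simp [Finset.sum_add_distrib]
        map_smul' := fun c f => by funext z; simp [Finset.mul_sum] }
    have hφi : Function.Injective φ := by
      rw [injective_iff_map_eq_zero]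
      intro f hf
      exact Subtype.ext (hA3 f.1 f.2 (fun z => congrFun hf z))
    have hφs : Function.Surjective φ := by
      have hfr : Module.finrank (ZMod 2) C = Module.finrank (ZMod 2) (Fin r → ZMod 2) := by
        rw [hr]; simp
      exact (LinearMap.injective_iff_surjective_of_finrank_eq_finrank hfr).1 hφi
    obtain ⟨f0, hf0⟩ := hφs (Pi.single z0 1)
    have hf0' : ∀ z, ∑ p ∈ A z, f0.1 p = (Pi.single z0 1 : Fin r → ZMod 2) z := fun z => congrFun hf0 z
    obtain ⟨u, hu, v, hv, huv, hguv⟩ := two_equal (fun p => f0.1 p) U hUcard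
    have hu' : ∀ z, u ∉ A z := by
      intro z hz
      rw [hU, Finset.mem_compl] at hu
      exact hu (Finset.mem_biUnion.2 ⟨z, Finset.mem_univ z, hz⟩)
    have hv' : ∀ z, v ∉ A z := by
      intro z hz
      rw [hU, Finset.mem_compl] at hv
      exact hv (Finset.mem_biUnion.2 ⟨z, Finset.mem_univ z, hz⟩)
    have hnot : v ∉ A z0 := hv' z0
    have hnot2 : u ∉ insert v (A z0) := by
      rw [Finset.mem_insert]; push Not; exact ⟨huv, hu' z0⟩
    refine ⟨Function.update A z0 (insert u (insert v (A z0))), ?_, ?_, ?_⟩
    · intro z
      by_cases hz : z = z0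
      · subst hz
        rw [Function.update_self, Finset.card_insert_of_notMem hnot2, Finset.card_insert_of_notMem hnot, hA1]
        simp [hz0]
      · rw [Function.update_of_ne hz, hA1]
        have : z.1 ≠ k := fun h => hz (Fin.ext h)
        by_cases h1 : z.1 < k
        · rw [if_pos h1, if_pos (by omega)]
        · rw [if_neg h1, if_neg (by omega)]
    · intro z z' hzz'
      have key : ∀ z, z ≠ z0 → Disjoint (insert u (insert v (A z0))) (A z) := by
        intro z hz
        rw [Finset.disjoint_insert_left, Finset.disjoint_insert_left]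
        exact ⟨hu' z, hv' z, hA2 _ _ (Ne.symm hz)⟩
      by_cases hz : z = z0
      · subst hz
        rw [Function.update_self, Function.update_of_ne hzz'.symm]
        exact key z' hzz'.symm
      · by_cases hz' : z' = z0
        · subst hz'
          rw [Function.update_self, Function.update_of_ne hz]
          exact (key z hz).symm
        · rw [Function.update_of_ne hz, Function.update_of_ne hz']
          exact hA2 _ _ hzz'
    · intro f hf h
      -- f = c • f0
      set c : ZMod 2 := ∑ p ∈ A z0, f p with hc
      have h1 : (⟨f, hf⟩ : C) = c • f0 := by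
        apply hφi
        funext z
        rw [map_smul, hf0]
        by_cases hz : z = z0
        · subst hz
          simp only [Pi.smul_apply, Pi.single_eq_same, smul_eq_mul, mul_one]
          rfl
        · simp only [Pi.smul_apply, Pi.single_eq_of_ne hz, smul_eq_mul, mul_zero]
          have := h z
          rw [Function.update_of_ne hz] at this
          exact this
      have h2 : f = c • f0.1 := congrArg Subtype.val h1
      have h3 := h z0
      rw [Function.update_self, Finset.sum_insert hnot2, Finset.sum_insert hnot, ← hc] at h3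
      have h4 : f u = c * f0.1 u := by rw [h2]; rfl
      have h5 : f v = c * f0.1 v := by rw [h2]; rfl
      have h6 : c = 0 := by
        rw [h4, h5] at h3
        rw [← hguv] at h3
        have : c * f0.1 u + (c * f0.1 u + c) = c := by
          rw [← add_assoc, ← mul_add]
          have h0 : ∀ a : ZMod 2, a + a = 0 := by decide
          rw [h0, mul_zero, zero_add]
        rw [this] at h3
        exact h3
      rw [h2, h6, zero_smul]

/-- **I.2**: disjoint triples such that the triple sums are injective on `C` -/
theorem exists_triples (C : Submodule (ZMod 2) (P → ZMod 2)) (r : ℕ)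
    (hr : Module.finrank (ZMod 2) C = r) (hP : 3 * r + 1 ≤ Fintype.card P) :
    ∃ A : Fin r → Finset P,
      (∀ z : Fin r, (A z).card = 3) ∧
      (∀ z z', z ≠ z' → Disjoint (A z) (A z')) ∧
      ∀ f ∈ C, (∀ z, ∑ p ∈ A z, f p = 0) → f = 0 := by
  obtain ⟨A, h1, h2, h3⟩ := exists_partial C r hr hP r le_rfl
  exact ⟨A, fun z => by rw [h1, if_pos z.2], h2, h3⟩

end Crest.Agent.R199.Triples
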